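import Claimed.Agent.R316.Base.L2M.Jet1

/-!
# Row 316, `BP-G11`: interpolation of 1-jets at finitely many points by `L²` holomorphic sections of `K^{-k}`

NO singular weights, no limits of solutions: smooth weights `k₀ ψ + (n+2) ∑_a θ_a log(|z_a|² + δ)`, and "a linear subspace of a finite dimensional space is closed".

SETTING: `g` Kaehler with a good exhaustion, `ψ` smooth strictly psh, `(k+1) Ric g ≥ 0`; `m` charts `Φ a : ball 0 (2r) → M` with pairwise disjoint images (centres `x_a = Φ a 0`).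
`annuli Φ r = ⋃_a Φ a '' (closedBall 0 (3r/2) \ ball 0 r)` (compact).

Leaves: `G11-JET-A` (`exists_jet_weights`), `G11-JET-B` (`exists_jet_model`, `dbarS_jet_model`), `G11-JET-C` (`exists_jet_solutions`), `G11-JET-D` (`l2_cauchy_estimate`, `jet_small`),
`G11-JET-E` (`mem_range_of_approx`, `l2Hol`, `exists_khol_jets`).

## `exists_jet_weights`
`θ̃ : CE ι → ℝ` smooth, `= 1` on `closedBall 0 r`, `tsupport ⊆ ball 0 (3r/2)`, `0 ≤ θ̃ ≤ 1`.  `μ_δ(z) = (n+2) θ̃(z) log(‖z‖² + δ)`, transplanted by `CMfd.exists_smooth_of_chart`; `lam δ = ∑_a` (disjoint supports).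
* on `ball 0 r`: `levi (log(‖z‖²+δ)) ≥ 0` (explicit: `((‖z‖²+δ) 1 - z̄ zᵀ)/(‖z‖²+δ)²`, Cauchy-Schwarz);
* on the compact annulus `r ≤ ‖z‖ ≤ 3r/2`: the entries of `levi μ_δ` are continuous functions of `(z,δ) ∈ annulus × [0,1]`, hence bounded by a constant independent of `δ`; `dd ψ ≥ c > 0`, `g ≤ C` there: choose `k₀`;
* elsewhere `lam δ = 0` near the point and `curvF = (k+1) Ric g + k₀ dd ψ > 0`.
* `lam δ ≤ (n+2) log((3r/2)² + 1)⁺`; on the annuli `lam δ ≥ (n+2) min(0, log r²)`.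

## `exists_jet_solutions`
`N = c₁⁻¹ |∂̄F|²_{g,k}` (`= c₁⁻¹ 𝓜.scal (kw · qf g⁻¹ (∂̄F))`), supported in the annuli; `hdom` of `l2_dbar` from `Θ ≥ c₁ g` on the annuli (`B6E.dom_of_metric_lower_bound`-type algebra) and `∂̄F = 0` elsewhere;
`∫ N e^{-k₀ψ - lam δ} ≤ e^{C₁} ∫ N e^{-k₀ψ} =: I₀`.

## `jet_small`
on `ball 0 r` of the chart `Φ a`: `u` is holomorphic, `e^{-η} = kw · det g · e^{-k₀ψ} (‖z‖²+δ)^{-(n+2)} ≥ c₂ (2δ)^{-(n+2)}` on `ball 0 √δ`, so `∫_{ball 0 √δ} |u|² ≤ I₀ (2δ)^{n+2}/c₂`; `l2_cauchy_estimate` with `R = √δ`.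

## `exists_khol_jets`
`T : l2Hol → (Fin m → ℂ × (ι → ℂ))`, `T s = (s (Φ a) 0, ∂_j (s (Φ a)) 0)`; `s_δ = F - u_δ ∈ l2Hol` (`e^{-k₀ψ} ≤ e^{C₁} e^{-k₀ψ - lam δ}`; `F` compactly supported), `‖T s_δ - (c,l)‖ = ‖T u_δ‖ ≤ C √δ`.
-/

set_option autoImplicit false
set_option linter.unusedSectionVars false
open scoped ContDiff ComplexOrder ComplexConjugate Topology
open MeasureTheory Filter Metric

namespace Claimed.Agent.R316

variable {V : Type} [NormedAddCommGroup V] [NormedSpace ℝ V] [MeasurableSpace V] [BorelSpace V]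
  [FiniteDimensional ℝ V]
variable {ι : Type} [Fintype ι] [DecidableEq ι]
variable {𝓜 : CMfd V ι} {g : HFam V ι} {ψ ρ : V → ℝ} {k : ℤ}

variable {m : ℕ} {Φ : Fin m → CE ι → V} {r : ℝ}

theorem JetCharts.isCompact_annuli (hΦ : JetCharts 𝓜 Φ r) : IsCompact (annuli Φ r) :=
  _root_.isCompact_iUnion fun a => ((isCompact_closedBall _ _).diff isOpen_ball).image_of_continuousOn
    ((𝓜.isParam (hΦ.hol a)).continuousOn.mono fun z hz =>
      closedBall_subset_ball (by have := hΦ.pos; linarith) hz.1)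

theorem JetCharts.annuli_subset (hΦ : JetCharts 𝓜 Φ r) : annuli Φ r ⊆ 𝓜.carrier := by
  intro x hx
  obtain ⟨a, z, hz, rfl⟩ := Set.mem_iUnion.1 hx
  exact CMfd.mem_carrier (hΦ.hol a) (closedBall_subset_ball (by have := hΦ.pos; linarith) hz.1)

/-- Cauchy-Schwarz between a `(0,1)`-form and a vector. -/
theorem jet_cauchy_schwarz {G : Matrix ι ι ℂ} (hG : G.PosDef) (b v : ι → ℂ) :
    ‖∑ j, b j * conj (v j)‖ ^ 2 ≤ qf G⁻¹ b * qf G v := by
  have h := dual_cauchy_schwarz hG (star b) v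
  rw [qf_transpose, star_star] at h
  have e : ‖∑ j, b j * conj (v j)‖ = ‖∑ j, (star b) j * v j‖ := by
    rw [← RCLike.norm_conj, map_sum]
    congr 1
    refine Finset.sum_congr rfl fun j _ => ?_
    simp
  rwa [e]

/-- solutions with a bound independent of `δ`. -/
theorem exists_jet_solutions (S : JetSetting 𝓜 g ψ k) (hρ : GoodExh 𝓜 g ρ) (hΦ : JetCharts 𝓜 Φ r)
    {F : SFam V ι} (hF : IsKSec 𝓜 k F) (hsupp : VFamSuppIn 𝓜 (dbarS F) (annuli Φ r))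
    {k₀ c₁ C₁ : ℝ} (hc₁ : 0 < c₁) :
    ∃ I₀ : ℝ, ∀ lam : V → ℝ, 𝓜.Smooth lam → (∀ x ∈ annuli Φ r, -C₁ ≤ lam x) →
      (∀ (Ψ : CE ι → V) (W : Set (CE ι)), 𝓜.IsHol Ψ W → ∀ w ∈ W,
        (curvF g (fun x => k₀ * ψ x + lam x) k Ψ w).PosDef) →
      leFOn 𝓜 (annuli Φ r) (smulF (fun _ => c₁) g) (curvF g (fun x => k₀ * ψ x + lam x) k) →
      ∃ u : SFam V ι, IsKSec 𝓜 k u ∧
        (∀ (Ψ : CE ι → V) (W : Set (CE ι)), 𝓜.IsHol Ψ W → ∀ w ∈ W, ∀ j, dzb j (u Ψ) w = dzb j (F Ψ) w) ∧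
        Integrable (fun x => kNormSq 𝓜 g k u x * Real.exp (-(k₀ * ψ x + lam x))) (hvol 𝓜 g) ∧
        ∫ x, kNormSq 𝓜 g k u x * Real.exp (-(k₀ * ψ x + lam x)) ∂(hvol 𝓜 g) ≤ I₀ := by
  have hg : IsMetric 𝓜 g := S.kahler.toIsMetric
  have hβ : IsKForm 𝓜 k (dbarS F) := hF.dbarS
  have hB : IsKVec 𝓜 k (raise g (dbarS F)) := hβ.raise hg
  obtain ⟨E, hE⟩ : ∃ E : (CE ι → V) → CE ι → ℝ,
      E = fun Ψ w => fvIP (dbarS F Ψ w) (raise g (dbarS F) Ψ w) := ⟨_, rfl⟩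
  have hEq : ∀ (Ψ : CE ι → V) (W : Set (CE ι)), 𝓜.IsHol Ψ W → ∀ w ∈ W,
      E Ψ w = qf (g Ψ w)⁻¹ (dbarS F Ψ w) := by
    intro Ψ W hΨ w hw
    rw [hE]
    exact fvIP_raise (hg.posDef hΨ w hw) _
  have hE0 : ∀ (Ψ : CE ι → V) (W : Set (CE ι)), 𝓜.IsHol Ψ W → ∀ w ∈ W, 0 ≤ E Ψ w := by
    intro Ψ W hΨ w hw
    rw [hEq Ψ W hΨ w hw]
    exact qf_nonneg (hg.posDef hΨ w hw).inv.posSemidef _
  have hEinv : 𝓜.Invariant (fun Ψ w => kw g k Ψ w * E Ψ w) := by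
    rw [hE]; exact invariant_kw_fvIP hg hβ hB
  have hEc : ∀ (Ψ : CE ι → V) (W : Set (CE ι)), 𝓜.IsHol Ψ W → ContinuousOn (E Ψ) W := by
    intro Ψ W hΨ
    rw [hE]; exact (contDiffOn_fvIP hβ hB hΨ).continuousOn
  have hEs : ∀ (Ψ : CE ι → V) (W : Set (CE ι)), 𝓜.IsHol Ψ W → ∀ w ∈ W, Ψ w ∉ annuli Φ r → E Ψ w = 0 := by
    intro Ψ W hΨ w hw hn
    rw [hEq Ψ W hΨ w hw, hsupp Ψ W hΨ w hw hn]
    simp [qf]
  have hint : ∀ φ : V → ℝ, 𝓜.Smooth φ → Integrable (kDens 𝓜 g φ k E) (hvol 𝓜 g) := fun φ hφ =>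
    integrable_kDens hg hφ hEinv hEc hΦ.isCompact_annuli hΦ.annuli_subset hEs
  have hψ0 : 𝓜.Smooth (fun x => k₀ * ψ x) := S.smooth.const_mul k₀
  refine ⟨Real.exp C₁ * ∫ x, c₁⁻¹ * kDens 𝓜 g (fun x => k₀ * ψ x) k E x ∂(hvol 𝓜 g), ?_⟩
  intro lam hlam hlow hpos hle
  have hφ : 𝓜.Smooth (fun x => k₀ * ψ x + lam x) := hψ0.add hlam
  have hS : L2Setting 𝓜 g g (fun x => k₀ * ψ x + lam x) k := ⟨S.kahler, hg, hφ, hpos⟩
  have hNe : ∀ x, c₁⁻¹ * 𝓜.scal (fun Ψ w => kw g k Ψ w * E Ψ w) x * Real.exp (-(k₀ * ψ x + lam x))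
      = c₁⁻¹ * kDens 𝓜 g (fun x => k₀ * ψ x + lam x) k E x := by
    intro x
    simp only [kDens]
    ring
  obtain ⟨u, hu, hdb, hui, hub⟩ := l2_dbar hS hρ hF
    (N := fun x => c₁⁻¹ * 𝓜.scal (fun Ψ w => kw g k Ψ w * E Ψ w) x)
    (fun x hx => by
      have h1 := kw_pos hg (𝓜.isHol_pΦ hx) (𝓜.co_mem hx) k
      have h2 := hE0 _ _ (𝓜.isHol_pΦ hx) _ (𝓜.co_mem hx)
      simp only [CMfd.scal]
      positivity)
    (by
      simp only [hNe]
      exact (hint _ hφ).const_mul _)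
    (by
      intro Ψ W hΨ w hw v
      have hkw := kw_pos hg hΨ hw k
      rw [CMfd.scal_eq hEinv hΨ hw, hEq Ψ W hΨ w hw]
      by_cases hx : Ψ w ∈ annuli Φ r
      · have h1 := jet_cauchy_schwarz (hg.posDef hΨ w hw) (dbarS F Ψ w) v
        have h2 := qf_nonneg (hle Ψ W hΨ w hw hx) v
        simp only [smulF] at h2
        rw [qf_sub, qf_smul] at h2
        have h3 : 0 ≤ qf (g Ψ w)⁻¹ (dbarS F Ψ w) := qf_nonneg (hg.posDef hΨ w hw).inv.posSemidef _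
        have h4 : qf (g Ψ w) v ≤ c₁⁻¹ * qf (curvF g (fun x => k₀ * ψ x + lam x) k Ψ w) v := by
          rw [inv_mul_eq_div, le_div_iff₀ hc₁]; linarith
        calc ‖∑ j, dzb j (F Ψ) w * conj (v j)‖ ^ 2 * kw g k Ψ w
            ≤ (qf (g Ψ w)⁻¹ (dbarS F Ψ w) * qf (g Ψ w) v) * kw g k Ψ w :=
              mul_le_mul_of_nonneg_right h1 hkw.le
          _ ≤ (qf (g Ψ w)⁻¹ (dbarS F Ψ w) *
                (c₁⁻¹ * qf (curvF g (fun x => k₀ * ψ x + lam x) k Ψ w) v)) * kw g k Ψ w :=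
              mul_le_mul_of_nonneg_right (mul_le_mul_of_nonneg_left h4 h3) hkw.le
          _ = _ := by ring
      · have h0 : ∀ j, dzb j (F Ψ) w = 0 := fun j => congrFun (hsupp Ψ W hΨ w hw hx) j
        have h1 : dbarS F Ψ w = 0 := hsupp Ψ W hΨ w hw hx
        simp [h0, h1, qf])
  refine ⟨u, hu, hdb, hui, hub.trans ?_⟩
  simp only [hNe]
  rw [← integral_const_mul]
  refine integral_hvol_mono ((hint _ hφ).const_mul _) (((hint _ hψ0).const_mul _).const_mul _) ?_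
  intro x hx
  have hs0 : 0 ≤ 𝓜.scal (fun Ψ w => kw g k Ψ w * E Ψ w) x := by
    have h1 := kw_pos hg (𝓜.isHol_pΦ hx) (𝓜.co_mem hx) k
    have h2 := hE0 _ _ (𝓜.isHol_pΦ hx) _ (𝓜.co_mem hx)
    simp only [CMfd.scal]
    positivity
  simp only [kDens]
  by_cases hxa : x ∈ annuli Φ r
  · have h1 : Real.exp (-(k₀ * ψ x + lam x)) ≤ Real.exp C₁ * Real.exp (-(k₀ * ψ x)) := by
      rw [← Real.exp_add]
      exact Real.exp_le_exp.2 (by have := hlow x hxa; linarith)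
    calc c₁⁻¹ * (𝓜.scal (fun Ψ w => kw g k Ψ w * E Ψ w) x * Real.exp (-(k₀ * ψ x + lam x)))
        ≤ c₁⁻¹ * (𝓜.scal (fun Ψ w => kw g k Ψ w * E Ψ w) x * (Real.exp C₁ * Real.exp (-(k₀ * ψ x)))) := by
          gcongr
      _ = _ := by ring
  · have h0 : 𝓜.scal (fun Ψ w => kw g k Ψ w * E Ψ w) x = 0 := by
      simp only [CMfd.scal]
      rw [hEs _ _ (𝓜.isHol_pΦ hx) _ (𝓜.co_mem hx) (by rw [𝓜.pΦ_co hx]; exact hxa), mul_zero]
    rw [h0]
    simp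

theorem jet_finrank_CE (ι : Type) [Fintype ι] : Module.finrank ℝ (CE ι) = 2 * Fintype.card ι := by
  have h1 := Module.finrank_mul_finrank ℝ ℂ (CE ι)
  rw [Complex.finrank_real_complex, finrank_euclideanSpace] at h1
  exact h1.symm

theorem jet_vol_closedBall (ι : Type) [Fintype ι] (z : CE ι) {r : ℝ} (hr : 0 ≤ r) :
    (volume : Measure (CE ι)).real (closedBall z r) =
      r ^ (2 * Fintype.card ι) * (volume : Measure (CE ι)).real (ball 0 1) := by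
  rw [Measure.real, Measure.addHaar_closedBall _ _ hr, ENNReal.toReal_mul,
    ENNReal.toReal_ofReal (by positivity), jet_finrank_CE]
  rfl

/-- **`L²` Cauchy estimates** (`|f|²` is psh: `B5/Moll.lean` `PshOn.le_average_closedBall`, or the mean value property on polydiscs; then `SCV.scv_norm_fderiv_le`; scaling). -/
theorem l2_cauchy_estimate (ι : Type) [Fintype ι] [DecidableEq ι] :
    ∃ C : ℝ, 0 ≤ C ∧ ∀ (R : ℝ), 0 < R → ∀ f : CE ι → ℂ, DifferentiableOn ℂ f (ball 0 R) →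
      IntegrableOn (fun z => ‖f z‖ ^ 2) (ball 0 R) →
      ‖f 0‖ ^ 2 ≤ C / R ^ (2 * Fintype.card ι) * ∫ z in ball (0 : CE ι) R, ‖f z‖ ^ 2 ∧
      ∀ j, ‖dz j f 0‖ ^ 2 ≤ C / R ^ (2 * Fintype.card ι + 2) * ∫ z in ball (0 : CE ι) R, ‖f z‖ ^ 2 := by
  obtain ⟨om, hom⟩ : ∃ om : ℝ, om = (volume : Measure (CE ι)).real (ball 0 1) := ⟨_, rfl⟩
  have hom0 : 0 < om := by
    rw [hom]
    exact ENNReal.toReal_pos (Metric.measure_ball_pos _ _ one_pos).ne' measure_ball_lt_top.ne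
  obtain ⟨N, hN⟩ : ∃ N : ℕ, N = 2 * Fintype.card ι := ⟨_, rfl⟩
  rw [← hN]
  refine ⟨3 ^ (N + 2) / om, by positivity, fun R hR f hf hi => ?_⟩
  obtain ⟨r, hr⟩ : ∃ r : ℝ, r = R / 3 := ⟨_, rfl⟩
  have hr0 : 0 < r := by rw [hr]; positivity
  obtain ⟨w, hw⟩ : ∃ w : ℝ, w = r ^ N * om := ⟨_, rfl⟩
  have hw0 : 0 < w := by rw [hw]; positivity
  obtain ⟨I, hI⟩ : ∃ I : ℝ, I = ∫ z in ball (0 : CE ι) R, ‖f z‖ ^ 2 := ⟨_, rfl⟩
  have hI0 : 0 ≤ I := by
    rw [hI]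
    exact setIntegral_nonneg isOpen_ball.measurableSet fun z _ => by positivity
  have hev : ∀ z ∈ ball (0 : CE ι) R, ∀ᶠ y in 𝓝 z, DifferentiableAt ℂ f y := fun z hz =>
    hol_eventually_of_differentiableOn isOpen_ball hf hz
  have hpsh : PshOn (ball 0 R) (fun z => ‖f z‖ ^ 2) :=
    pshOn_of_levi isOpen_ball (fun z hz => (lv_contDiffAt_normSq f (hev z hz)).contDiffWithinAt)
      (fun z hz => levi_normSq_hol_posSemidef f (hev z hz))
  have hpt2 : ∀ z ∈ ball (0 : CE ι) r, ‖f z‖ ^ 2 ≤ I / w := by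
    intro z hz
    have hsub : closedBall z r ⊆ ball 0 R := by
      intro y hy
      rw [mem_ball_zero_iff] at hz ⊢
      rw [mem_closedBall, dist_eq_norm] at hy
      have := norm_add_le (y - z) z
      rw [sub_add_cancel] at this
      rw [hr] at hz hy
      linarith
    have h1 := hpsh.le_average_closedBall isOpen_ball hr0 hsub
    have h2 : (volume : Measure (CE ι)).real (closedBall z r) = w := by
      rw [hw, hom, hN]; exact jet_vol_closedBall ι z hr0.le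
    rw [setAverage_eq, smul_eq_mul, h2] at h1
    have h3 : ∫ y in closedBall z r, ‖f y‖ ^ 2 ≤ I := by
      rw [hI]
      exact setIntegral_mono_set hi (Eventually.of_forall fun y => by positivity) hsub.eventuallyLE
    refine h1.trans ?_
    rw [div_eq_inv_mul]
    exact mul_le_mul_of_nonneg_left h3 (by positivity)
  have hpt : ∀ z ∈ ball (0 : CE ι) r, ‖f z‖ ≤ Real.sqrt (I / w) := fun z hz =>
    Real.le_sqrt_of_sq_le (hpt2 z hz)
  have h4 := scv_norm_fderiv_le hr0 (hf.mono (ball_subset_ball (by rw [hr]; linarith))) hpt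
  rw [← hI]
  constructor
  · refine (hpt2 0 (mem_ball_self hr0)).trans (le_of_eq_of_le (b := 3 ^ N / om / R ^ N * I) ?_ ?_)
    · rw [hw, hr, div_pow]
      field_simp
    · refine mul_le_mul_of_nonneg_right ?_ hI0
      refine div_le_div_of_nonneg_right ?_ (by positivity)
      refine div_le_div_of_nonneg_right ?_ hom0.le
      exact pow_le_pow_right₀ (by norm_num) (by omega)
  · intro j
    have h0 : DifferentiableAt ℂ f 0 := (hev 0 (mem_ball_self hR)).self_of_nhds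
    rw [dz_of_differentiableAt h0]
    have h5 : ‖fderiv ℂ f 0 (eb j)‖ ≤ ‖fderiv ℂ f 0‖ := by
      have := (fderiv ℂ f 0).le_opNorm (eb j)
      have h6 : ‖eb j‖ = 1 := by simp [eb]
      rwa [h6, mul_one] at this
    calc ‖fderiv ℂ f 0 (eb j)‖ ^ 2 ≤ (Real.sqrt (I / w) / r) ^ 2 :=
          pow_le_pow_left₀ (norm_nonneg _) (h5.trans h4) 2
      _ = 3 ^ (N + 2) / om / R ^ (N + 2) * I := by
          rw [div_pow, Real.sq_sqrt (by positivity), hw, hr, div_pow, div_pow, pow_add, pow_add]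
          field_simp

/-- arithmetic of the final step. -/
theorem jet_small_arith {C₀ E I δ X J : ℝ} (n p : ℕ) (hp : p ≤ n + 1) (hC₀ : 0 ≤ C₀) (hE : 0 ≤ E) (hI : 0 ≤ I)
    (hδ : 0 < δ) (hδ1 : δ ≤ 1) (hJ : J ≤ E * (2 * δ) ^ (n + 2) * I) (hX : X ≤ C₀ / δ ^ p * J) :
    X ≤ C₀ * (E * 2 ^ (n + 2) * I) * δ := by
  have h1 : C₀ / δ ^ p * J ≤ C₀ / δ ^ p * (E * (2 * δ) ^ (n + 2) * I) :=
    mul_le_mul_of_nonneg_left hJ (by positivity)
  have h2 : C₀ / δ ^ p * (E * (2 * δ) ^ (n + 2) * I) = C₀ * (E * 2 ^ (n + 2) * I) * δ ^ (n + 2 - p) := by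
    have h3 : δ ^ (n + 2) = δ ^ (n + 2 - p) * δ ^ p := by rw [← pow_add]; congr 1; omega
    rw [mul_pow, h3]
    field_simp
  have h4 : δ ^ (n + 2 - p) ≤ δ := by
    calc δ ^ (n + 2 - p) ≤ δ ^ 1 := pow_le_pow_of_le_one hδ.le hδ1 (by omega)
      _ = δ := pow_one δ
  calc X ≤ _ := hX
    _ ≤ _ := h1
    _ = _ := h2
    _ ≤ _ := mul_le_mul_of_nonneg_left h4 (by positivity)

/-- the jets of the solutions are small. -/
theorem jet_small (S : JetSetting 𝓜 g ψ k) (hΦ : JetCharts 𝓜 Φ r) (k₀ I₀ : ℝ) :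
    ∃ C : ℝ, ∀ (δ : ℝ), 0 < δ → δ ≤ 1 → δ ≤ r ^ 2 → ∀ (lam : V → ℝ) (u : SFam V ι), IsKSec 𝓜 k u →
      (∀ a, ∀ z ∈ ball (0 : CE ι) r, lam (Φ a z) = ((Fintype.card ι : ℝ) + 2) * Real.log (‖z‖ ^ 2 + δ)) →
      (∀ a, DifferentiableOn ℂ (u (Φ a)) (ball 0 r)) →
      Integrable (fun x => kNormSq 𝓜 g k u x * Real.exp (-(k₀ * ψ x + lam x))) (hvol 𝓜 g) →
      ∫ x, kNormSq 𝓜 g k u x * Real.exp (-(k₀ * ψ x + lam x)) ∂(hvol 𝓜 g) ≤ I₀ →
      ∀ a, ‖u (Φ a) 0‖ ^ 2 ≤ C * δ ∧ ∀ j, ‖dz j (u (Φ a)) 0‖ ^ 2 ≤ C * δ := by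
  have hg : IsMetric 𝓜 g := S.kahler.toIsMetric
  have hr := hΦ.pos
  obtain ⟨C₀, hC₀, hcau⟩ := l2_cauchy_estimate ι
  have hψ0 : 𝓜.Smooth (fun x => k₀ * ψ x) := S.smooth.const_mul k₀
  have hsub : closedBall (0 : CE ι) r ⊆ ball 0 (2 * r) := closedBall_subset_ball (by linarith)
  have hP : ∃ P : ℝ, ∀ a, ∀ z ∈ closedBall (0 : CE ι) r, wt g (fun x => k₀ * ψ x) k (Φ a) z ≤ P := by
    have h1 : ∀ a, ∃ P : ℝ, ∀ z ∈ closedBall (0 : CE ι) r,
        ‖wt g (fun x => k₀ * ψ x) k (Φ a) z‖ ≤ P := fun a =>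
      (isCompact_closedBall _ _).exists_bound_of_continuousOn
        ((contDiffOn_wt hg hψ0 (hΦ.hol a) k).continuousOn.mono hsub)
    choose P hP using h1
    refine ⟨∑ a, |P a|, fun a z hz => ?_⟩
    calc wt g (fun x => k₀ * ψ x) k (Φ a) z ≤ ‖wt g (fun x => k₀ * ψ x) k (Φ a) z‖ := Real.le_norm_self _
      _ ≤ P a := hP a z hz
      _ ≤ |P a| := le_abs_self _
      _ ≤ ∑ a, |P a| := Finset.single_le_sum (f := fun a => |P a|) (fun b _ => abs_nonneg _) (Finset.mem_univ a)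
  obtain ⟨P, hP⟩ := hP
  obtain ⟨n, hn⟩ : ∃ n : ℕ, n = Fintype.card ι := ⟨_, rfl⟩
  rw [← hn] at hcau
  refine ⟨C₀ * (Real.exp P * 2 ^ (n + 2) * max I₀ 0), ?_⟩
  intro δ hδ hδ1 hδr lam u hu hlam hhol hint hI a
  rw [← hn] at hlam
  obtain ⟨R, hR⟩ : ∃ R : ℝ, R = Real.sqrt δ := ⟨_, rfl⟩
  have hR0 : 0 < R := by rw [hR]; exact Real.sqrt_pos.2 hδ
  have hR2 : R ^ 2 = δ := by rw [hR]; exact Real.sq_sqrt hδ.le
  have hRr : R ≤ r := by rw [hR]; exact Real.sqrt_le_iff.2 ⟨hr.le, hδr⟩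
  have hAr : ball (0 : CE ι) R ⊆ ball 0 r := ball_subset_ball hRr
  have hA2 : ball (0 : CE ι) R ⊆ ball 0 (2 * r) := hAr.trans (ball_subset_ball (by linarith))
  have hAc : ball (0 : CE ι) R ⊆ closedBall 0 r := hAr.trans ball_subset_closedBall
  have hinv : 𝓜.Invariant (fun Ψ w => kw g k Ψ w * ‖u Ψ w‖ ^ 2) := invariant_kw_normSq hg hu
  -- the integral over the small ball
  have hdens : ∀ x, kNormSq 𝓜 g k u x * Real.exp (-(k₀ * ψ x + lam x)) =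
      kDens 𝓜 g (fun x => k₀ * ψ x + lam x) k (fun Ψ w => ‖u Ψ w‖ ^ 2) x := fun x => rfl
  simp only [hdens] at hint hI
  have h1 : ∫ x in Φ a '' ball 0 R, kDens 𝓜 g (fun x => k₀ * ψ x + lam x) k (fun Ψ w => ‖u Ψ w‖ ^ 2) x
      ∂(hvol 𝓜 g) ≤ max I₀ 0 := by
    refine (setIntegral_le_integral hint (ae_hvol_of_forall_mem fun x hx => ?_)).trans
      (hI.trans (le_max_left _ _))
    exact kDens_nonneg hg (fun Ψ W _ w _ => by positivity) hx
  rw [setIntegral_kDens_image hg hinv (hΦ.hol a) hA2 isOpen_ball.measurableSet] at h1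
  have hucont : ContinuousOn (fun z => ‖u (Φ a) z‖ ^ 2) (closedBall 0 r) :=
    (((hu.smooth (hΦ.hol a)).continuousOn.mono hsub).norm).pow 2
  have hui : IntegrableOn (fun z => ‖u (Φ a) z‖ ^ 2) (ball 0 R) :=
    (hucont.integrableOn_compact (isCompact_closedBall _ _)).mono_set hAc
  -- explicit form of the weight
  have hwt : ∀ z ∈ ball (0 : CE ι) r, wt g (fun x => k₀ * ψ x + lam x) k (Φ a) z =
      wt g (fun x => k₀ * ψ x) k (Φ a) z + ((n : ℝ) + 2) * Real.log (‖z‖ ^ 2 + δ) := by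
    intro z hz
    simp only [wt]
    rw [hlam a z hz]
    ring
  have hQc : ContinuousOn (fun z : CE ι => ‖u (Φ a) z‖ ^ 2 * Real.exp (-(wt g (fun x => k₀ * ψ x) k (Φ a) z
      + ((n : ℝ) + 2) * Real.log (‖z‖ ^ 2 + δ)))) (closedBall 0 r) := by
    refine hucont.mul (Real.continuous_exp.comp_continuousOn (ContinuousOn.neg ?_))
    refine ((contDiffOn_wt hg hψ0 (hΦ.hol a) k).continuousOn.mono hsub).add (continuousOn_const.mul ?_)
    refine ContinuousOn.log (by fun_prop) fun z _ => ?_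
    positivity
  have hQi := (hQc.integrableOn_compact (μ := volume) (isCompact_closedBall _ _)).mono_set hAc
  have h2 : ∫ z in ball (0 : CE ι) R, ‖u (Φ a) z‖ ^ 2 * Real.exp (-(wt g (fun x => k₀ * ψ x + lam x) k (Φ a) z))
      = ∫ z in ball (0 : CE ι) R, ‖u (Φ a) z‖ ^ 2 * Real.exp (-(wt g (fun x => k₀ * ψ x) k (Φ a) z
      + ((n : ℝ) + 2) * Real.log (‖z‖ ^ 2 + δ))) :=
    setIntegral_congr_fun isOpen_ball.measurableSet fun z hz => by
      rw [hwt z (hAr hz)]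
  rw [h2] at h1
  have hlow : ∀ z ∈ ball (0 : CE ι) R, (Real.exp P * (2 * δ) ^ (n + 2))⁻¹ ≤
      Real.exp (-(wt g (fun x => k₀ * ψ x) k (Φ a) z + ((n : ℝ) + 2) * Real.log (‖z‖ ^ 2 + δ))) := by
    intro z hz
    have hz2 : ‖z‖ ^ 2 < δ := by
      rw [← hR2]
      exact pow_lt_pow_left₀ (mem_ball_zero_iff.1 hz) (norm_nonneg _) (by norm_num)
    have e1 : (Real.exp P * (2 * δ) ^ (n + 2))⁻¹ = Real.exp (-(P + ((n : ℝ) + 2) * Real.log (2 * δ))) := by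
      rw [Real.exp_neg, Real.exp_add]
      congr 2
      have : ((n : ℝ) + 2) = ((n + 2 : ℕ) : ℝ) := by push_cast; ring
      rw [this, Real.exp_nat_mul, Real.exp_log (by positivity)]
    rw [e1]
    refine Real.exp_le_exp.2 (neg_le_neg (add_le_add (hP a z (hAc hz)) ?_))
    refine mul_le_mul_of_nonneg_left (Real.log_le_log (by positivity) (by linarith)) (by positivity)
  have h3 : (Real.exp P * (2 * δ) ^ (n + 2))⁻¹ * ∫ z in ball (0 : CE ι) R, ‖u (Φ a) z‖ ^ 2 ≤ max I₀ 0 := by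
    refine le_trans ?_ h1
    rw [← integral_const_mul]
    refine setIntegral_mono_on (hui.const_mul _) hQi isOpen_ball.measurableSet fun z hz => ?_
    rw [mul_comm]
    exact mul_le_mul_of_nonneg_left (hlow z hz) (by positivity)
  have hJ : ∫ z in ball (0 : CE ι) R, ‖u (Φ a) z‖ ^ 2 ≤ Real.exp P * (2 * δ) ^ (n + 2) * max I₀ 0 := by
    have hpos : 0 < Real.exp P * (2 * δ) ^ (n + 2) := by positivity
    rwa [inv_mul_le_iff₀ hpos] at h3
  obtain ⟨hc0, hc1⟩ := hcau R hR0 (u (Φ a)) ((hhol a).mono hAr) hui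
  have e0 : R ^ (2 * n) = δ ^ n := by rw [pow_mul, hR2]
  have e1 : R ^ (2 * n + 2) = δ ^ (n + 1) := by rw [pow_add, pow_mul, hR2, pow_succ]
  rw [e0] at hc0
  simp only [e1] at hc1
  exact ⟨jet_small_arith n n (by omega) hC₀ (Real.exp_pos P).le (le_max_right _ _) hδ hδ1 hJ hc0,
    fun j => jet_small_arith n (n + 1) le_rfl hC₀ (Real.exp_pos P).le (le_max_right _ _) hδ hδ1 hJ (hc1 j)⟩

/-- the image of a linear map into a finite dimensional space is closed. -/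
theorem mem_range_of_approx {H J : Type*} [AddCommGroup H] [Module ℂ H] [NormedAddCommGroup J]
    [NormedSpace ℂ J] [FiniteDimensional ℂ J] (T : H →ₗ[ℂ] J) (y : J)
    (h : ∀ ε : ℝ, 0 < ε → ∃ x, ‖T x - y‖ ≤ ε) : y ∈ LinearMap.range T := by
  have hcl : IsClosed (LinearMap.range T : Set J) := Submodule.closed_of_finiteDimensional _
  have : y ∈ closure (LinearMap.range T : Set J) := by
    rw [Metric.mem_closure_iff]
    intro ε hε
    obtain ⟨x, hx⟩ := h (ε / 2) (half_pos hε)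
    refine ⟨T x, LinearMap.mem_range_self T x, ?_⟩
    rw [dist_comm, dist_eq_norm]
    linarith
  rwa [hcl.closure_eq] at this

/-- sums of `L²` sections are `L²`. -/
theorem integrable_kDens_normSq_add {φ : V → ℝ} (hg : IsMetric 𝓜 g) (hφ : 𝓜.Smooth φ) {s s' : SFam V ι}
    (hs : IsKSec 𝓜 k s) (hs' : IsKSec 𝓜 k s')
    (hi : Integrable (kDens 𝓜 g φ k (fun Ψ w => ‖s Ψ w‖ ^ 2)) (hvol 𝓜 g))
    (hi' : Integrable (kDens 𝓜 g φ k (fun Ψ w => ‖s' Ψ w‖ ^ 2)) (hvol 𝓜 g)) :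
    Integrable (kDens 𝓜 g φ k (fun Ψ w => ‖(s + s') Ψ w‖ ^ 2)) (hvol 𝓜 g) := by
  refine Integrable.mono' ((hi.const_mul 2).add (hi'.const_mul 2))
    (aestronglyMeasurable_hvol_of_continuousOn (continuousOn_kDens_normSq hg hφ (hs.add hs')))
    (ae_hvol_of_forall_mem fun x hx => ?_)
  rw [Real.norm_eq_abs, abs_of_nonneg (kDens_normSq_nonneg hg _ hx)]
  simp only [Pi.add_apply]
  rw [← kDens_const_mul, ← kDens_const_mul, ← kDens_add]
  refine kDens_mono hg (fun Ψ W _ w _ => ?_) hx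
  have h1 := norm_add_le (s Ψ w) (s' Ψ w)
  have h2 : ‖s Ψ w + s' Ψ w‖ ^ 2 ≤ (‖s Ψ w‖ + ‖s' Ψ w‖) ^ 2 := pow_le_pow_left₀ (norm_nonneg _) h1 2
  nlinarith [sq_nonneg (‖s Ψ w‖ - ‖s' Ψ w‖)]

theorem integrable_kDens_normSq_smul {φ : V → ℝ} (c : ℂ) {s : SFam V ι}
    (hi : Integrable (kDens 𝓜 g φ k (fun Ψ w => ‖s Ψ w‖ ^ 2)) (hvol 𝓜 g)) :
    Integrable (kDens 𝓜 g φ k (fun Ψ w => ‖(c • s) Ψ w‖ ^ 2)) (hvol 𝓜 g) := by
  have e : kDens 𝓜 g φ k (fun Ψ w => ‖(c • s) Ψ w‖ ^ 2) =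
      fun x => ‖c‖ ^ 2 * kDens 𝓜 g φ k (fun Ψ w => ‖s Ψ w‖ ^ 2) x := by
    funext x
    rw [← kDens_const_mul]
    simp only [Pi.smul_apply, smul_eq_mul, norm_mul, mul_pow]
  rw [e]
  exact hi.const_mul _

/-- the space of `L²` holomorphic sections. -/
def l2Hol (S : JetSetting 𝓜 g ψ k) (k₀ : ℝ) : Submodule ℂ (SFam V ι) where
  carrier := {s | IsKHol 𝓜 k s ∧
    Integrable (kDens 𝓜 g (fun x => k₀ * ψ x) k (fun Ψ w => ‖s Ψ w‖ ^ 2)) (hvol 𝓜 g)}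
  add_mem' := fun {a b} ha hb => ⟨ha.1.add hb.1, integrable_kDens_normSq_add S.kahler.toIsMetric
    (S.smooth.const_mul k₀) ha.1.toIsKSec hb.1.toIsKSec ha.2 hb.2⟩
  zero_mem' := ⟨isKHol_zero, by
    have e : kDens 𝓜 g (fun x => k₀ * ψ x) k (fun Ψ w => ‖(0 : SFam V ι) Ψ w‖ ^ 2) = fun _ => 0 := by
      funext x
      simp [kDens, CMfd.scal]
    rw [e]
    exact integrable_zero _ _ _⟩
  smul_mem' := fun c a ha => ⟨ha.1.smul c, integrable_kDens_normSq_smul c ha.2⟩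

/-- the jet map. -/
noncomputable def jetMap (S : JetSetting 𝓜 g ψ k) (hΦ : JetCharts 𝓜 Φ r) (k₀ : ℝ) :
    l2Hol S k₀ →ₗ[ℂ] (Fin m → ℂ × (ι → ℂ)) where
  toFun s := fun a => (s.1 (Φ a) 0, fun j => dz j (s.1 (Φ a)) 0)
  map_add' := by
    intro s t
    funext a
    have h0 : (0 : CE ι) ∈ ball (0 : CE ι) (2 * r) := mem_ball_self (by have := hΦ.pos; linarith)
    have hs := s.2.1.toIsKSec.differentiableAt (hΦ.hol a) h0
    have ht := t.2.1.toIsKSec.differentiableAt (hΦ.hol a) h0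
    refine Prod.ext rfl ?_
    funext j
    exact dz_add hs ht
  map_smul' := by
    intro c s
    funext a
    have h0 : (0 : CE ι) ∈ ball (0 : CE ι) (2 * r) := mem_ball_self (by have := hΦ.pos; linarith)
    have hs := s.2.1.toIsKSec.differentiableAt (hΦ.hol a) h0
    refine Prod.ext rfl ?_
    funext j
    exact dz_const_mul c hs

theorem jet_dz_affine (c : ℂ) (l : ι → ℂ) (j : ι) (z : CE ι) :
    dz j (fun w : CE ι => c + ∑ i, l i * w i) z = l j := by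
  have hd : ∀ i, DifferentiableAt ℝ (fun w : CE ι => l i * w i) z := fun i =>
    differentiableAt_coord.const_mul _
  rw [dz_add (differentiableAt_const _) (DifferentiableAt.fun_sum fun i _ => hd i), dz_const,
    dz_sum _ _ fun i _ => hd i]
  simp only [dz_const_mul _ differentiableAt_coord, dz_coord]
  simp

theorem jet_differentiable_affine (c : ℂ) (l : ι → ℂ) :
    Differentiable ℂ (fun w : CE ι => c + ∑ i, l i * w i) := fun _ =>
  (differentiableAt_const _).add (DifferentiableAt.fun_sum fun _ _ =>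
    differentiableAt_coord_complex.const_mul _)

/-- **interpolation of 1-jets.** -/
theorem exists_khol_jets (S : JetSetting 𝓜 g ψ k) (hρ : GoodExh 𝓜 g ρ) (hΦ : JetCharts 𝓜 Φ r)
    (c : Fin m → ℂ) (l : Fin m → ι → ℂ) :
    ∃ (s : SFam V ι) (k₀ : ℝ), 0 ≤ k₀ ∧ IsKHol 𝓜 k s ∧ (∀ a, s (Φ a) 0 = c a) ∧
      (∀ a j, dz j (s (Φ a)) 0 = l a j) ∧
      Integrable (fun x => kNormSq 𝓜 g k s x * Real.exp (-(k₀ * ψ x))) (hvol 𝓜 g) := by
  have hg : IsMetric 𝓜 g := S.kahler.toIsMetric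
  have hr := hΦ.pos
  obtain ⟨k₀, c₁, C₁, lam, hk₀, hc₁, hlam⟩ := exists_jet_weights S hΦ
  obtain ⟨F, hF, hFs, hFj⟩ := exists_jet_model hΦ k c l
  have hψ0 : 𝓜.Smooth (fun x => k₀ * ψ x) := S.smooth.const_mul k₀
  have hFhol : ∀ a, DifferentiableOn ℂ (F (Φ a)) (ball 0 r) := fun a =>
    (jet_differentiable_affine (c a) (l a)).differentiableOn.congr fun z hz => hFj a z hz
  have hsupp := dbarS_jet_model hΦ hF hFs hFhol
  obtain ⟨I₀, hsol⟩ := exists_jet_solutions S hρ hΦ hF hsupp (k₀ := k₀) (C₁ := C₁) hc₁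
  obtain ⟨C, hsmall⟩ := jet_small S hΦ k₀ I₀
  have h0r : (0 : CE ι) ∈ ball (0 : CE ι) r := mem_ball_self hr
  have h02 : (0 : CE ι) ∈ ball (0 : CE ι) (2 * r) := mem_ball_self (by linarith)
  have hFi : Integrable (kDens 𝓜 g (fun x => k₀ * ψ x) k (fun Ψ w => ‖F Ψ w‖ ^ 2)) (hvol 𝓜 g) := by
    refine integrable_kDens hg hψ0 (invariant_kw_normSq hg hF)
      (fun Ψ W hΨ => (hF.smooth hΨ).continuousOn.norm.pow 2) hΦ.isCompact_iUnion ?_ ?_
    · intro x hx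
      obtain ⟨a, z, hz, rfl⟩ := Set.mem_iUnion.1 hx
      exact CMfd.mem_carrier (hΦ.hol a) (hΦ.closedBall_subset hz)
    · intro Ψ W hΨ w hw hn
      rw [hFs Ψ W hΨ w hw hn]
      simp
  have key : (fun a => (c a, l a)) ∈ LinearMap.range (jetMap S hΦ k₀) := by
    refine mem_range_of_approx _ _ fun ε hε => ?_
    obtain ⟨δ, hδ0, hδ1, hδr, hδε⟩ : ∃ δ : ℝ, 0 < δ ∧ δ ≤ 1 ∧ δ ≤ r ^ 2 ∧ C * δ ≤ ε ^ 2 := by
      refine ⟨min (min 1 (r ^ 2)) (ε ^ 2 / (|C| + 1)), by positivity,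
        (min_le_left _ _).trans (min_le_left _ _), (min_le_left _ _).trans (min_le_right _ _), ?_⟩
      have h1 : min (min 1 (r ^ 2)) (ε ^ 2 / (|C| + 1)) ≤ ε ^ 2 / (|C| + 1) := min_le_right _ _
      have h2 : 0 < min (min 1 (r ^ 2)) (ε ^ 2 / (|C| + 1)) := by positivity
      calc C * min (min 1 (r ^ 2)) (ε ^ 2 / (|C| + 1))
          ≤ (|C| + 1) * min (min 1 (r ^ 2)) (ε ^ 2 / (|C| + 1)) :=
            mul_le_mul_of_nonneg_right (by linarith [le_abs_self C]) h2.le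
        _ ≤ (|C| + 1) * (ε ^ 2 / (|C| + 1)) := mul_le_mul_of_nonneg_left h1 (by positivity)
        _ = ε ^ 2 := by field_simp
    obtain ⟨h1, h2, h3, h4, h5, h6⟩ := hlam δ hδ0 hδ1
    obtain ⟨u, hu, hdb, hui, hub⟩ := hsol (lam δ) h1 h3 h5 h6
    have huhol : ∀ a, DifferentiableOn ℂ (u (Φ a)) (ball 0 r) := fun a =>
      differentiableOn_complex_of_dzb isOpen_ball
        (((hu.smooth (hΦ.hol a)).differentiableOn (by simp)).mono hΦ.ball_subset) fun z hz j => by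
          rw [hdb _ _ (hΦ.hol a) z (hΦ.ball_subset hz) j]
          exact dzb_of_differentiableAt ((hFhol a z hz).differentiableAt (isOpen_ball.mem_nhds hz))
    have hsm := hsmall δ hδ0 hδ1 hδr (lam δ) u hu h4 huhol hui hub
    have hhol : IsKHol 𝓜 k (F + (-1 : ℂ) • u) := by
      refine (hF.add (hu.smul (-1))).isKHol fun Ψ W hΨ w hw j => ?_
      have e : (F + (-1 : ℂ) • u) Ψ = fun y => F Ψ y + (-1 : ℂ) * u Ψ y := rfl
      rw [e, dzb_add (hF.differentiableAt hΨ hw) ((hu.differentiableAt hΨ hw).const_mul _),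
        dzb_const_mul _ (hu.differentiableAt hΨ hw), hdb Ψ W hΨ w hw j]
      ring
    have hui' : Integrable (kDens 𝓜 g (fun x => k₀ * ψ x) k (fun Ψ w => ‖u Ψ w‖ ^ 2)) (hvol 𝓜 g) := by
      refine Integrable.mono' (hui.const_mul (Real.exp C₁))
        (aestronglyMeasurable_hvol_of_continuousOn (continuousOn_kDens_normSq hg hψ0 hu))
        (ae_hvol_of_forall_mem fun x hx => ?_)
      rw [Real.norm_eq_abs, abs_of_nonneg (kDens_normSq_nonneg hg _ hx)]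
      have hn : 0 ≤ kNormSq 𝓜 g k u x := by
        have h7 := kw_pos hg (𝓜.isHol_pΦ hx) (𝓜.co_mem hx) k
        simp only [kNormSq, CMfd.scal]
        positivity
      have h8 : Real.exp (-(k₀ * ψ x)) ≤ Real.exp C₁ * Real.exp (-(k₀ * ψ x + lam δ x)) := by
        rw [← Real.exp_add]
        exact Real.exp_le_exp.2 (by have := h2 x hx; linarith)
      calc kDens 𝓜 g (fun x => k₀ * ψ x) k (fun Ψ w => ‖u Ψ w‖ ^ 2) x
          = kNormSq 𝓜 g k u x * Real.exp (-(k₀ * ψ x)) := rfl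
        _ ≤ kNormSq 𝓜 g k u x * (Real.exp C₁ * Real.exp (-(k₀ * ψ x + lam δ x))) :=
            mul_le_mul_of_nonneg_left h8 hn
        _ = _ := by ring
    refine ⟨⟨F + (-1 : ℂ) • u, hhol, integrable_kDens_normSq_add hg hψ0 hF (hu.smul (-1)) hFi
      (integrable_kDens_normSq_smul (-1) hui')⟩, ?_⟩
    have hle : ∀ x : ℝ, 0 ≤ x → x ^ 2 ≤ C * δ → x ≤ ε := fun x hx h =>
      abs_le_of_sq_le_sq' (h.trans hδε) hε.le |>.2
    rw [pi_norm_le_iff_of_nonneg hε.le]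
    intro a
    have e1 : (F + (-1 : ℂ) • u) (Φ a) 0 - c a = - u (Φ a) 0 := by
      have : (F + (-1 : ℂ) • u) (Φ a) 0 = F (Φ a) 0 + (-1 : ℂ) * u (Φ a) 0 := rfl
      rw [this, hFj a 0 h0r]
      simp
    have e2 : ∀ j, dz j ((F + (-1 : ℂ) • u) (Φ a)) 0 - l a j = - dz j (u (Φ a)) 0 := by
      intro j
      have e : (F + (-1 : ℂ) • u) (Φ a) = fun y => F (Φ a) y + (-1 : ℂ) * u (Φ a) y := rfl
      have e3 : dz j (F (Φ a)) 0 = l a j := by
        rw [dz_congr (g := fun w : CE ι => c a + ∑ i, l a i * w i)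
          (Filter.eventually_of_mem (isOpen_ball.mem_nhds h0r) fun z hz => hFj a z hz)]
        exact jet_dz_affine _ _ _ _
      rw [e, dz_add (hF.differentiableAt (hΦ.hol a) h02) ((hu.differentiableAt (hΦ.hol a) h02).const_mul _),
        dz_const_mul _ (hu.differentiableAt (hΦ.hol a) h02), e3]
      ring
    refine norm_prod_le_iff.2 ⟨?_, ?_⟩
    · show ‖(F + (-1 : ℂ) • u) (Φ a) 0 - c a‖ ≤ ε
      rw [e1, norm_neg]
      exact hle _ (norm_nonneg _) (hsm a).1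
    · rw [pi_norm_le_iff_of_nonneg hε.le]
      intro j
      show ‖dz j ((F + (-1 : ℂ) • u) (Φ a)) 0 - l a j‖ ≤ ε
      rw [e2, norm_neg]
      exact hle _ (norm_nonneg _) ((hsm a).2 j)
  obtain ⟨s, hs⟩ := key
  exact ⟨s.1, k₀, hk₀, s.2.1, fun a => congrArg Prod.fst (congrFun hs a),
    fun a j => congrFun (congrArg Prod.snd (congrFun hs a)) j, s.2.2⟩

end Claimed.Agent.R316
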