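import Claimed.Agent.R316.Base.L2M.Int

/-!
# Row 316, `BP-G11`: integration by parts and the Bochner-Kodaira identity

Leaves: `G11-BK-A` (`secQ_kdiv`), `G11-BK-B` (`bk_commutator`, `bk_second`, `bochner_kodaira`).

Both integrations by parts are instances of the divergence theorem `integral_div_eq_zero` (`Vol/Green.lean`) for the metric `h`, with `exists_isDivOf` (`Inv.lean`).
Write `ρ = kw h k Φ z · e^{-φ(Φ z)}` (so `ρ · det h_Φ = e^{-η_Φ}`, `exp_neg_wt`).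

* `secQ_kdiv`: `X^j = ρ B^j conj s` is an `IsVField` (the factors `(det J)^k`, `conj (det J)^k`, `|det J|^{-2k}` cancel: `IsKVec.compat`, `IsKSec.compat`, `kw_compat`) with compact support;
  `∑_j ∂_j (det h X^j) = ∑_j ∂_j (e^{-η} B^j conj s) = e^{-η} (kdiv B · conj s + ∑_j B^j conj (∂_{\bar j} s))`.  So `D = ` (global function `kdiv B conj s ρ`) `+` (global function `∑ B^j conj(∂_{\bar j}s) ρ`);
  take real parts.
* `bk_commutator` (pointwise, in a chart, `Y` of class `C²`): `∂_{\bar j} (cdiv η Y) = ∑_k (∂_k N_{jk} - ∂_k η N_{jk}) - ∑_k (levi η)_{jk} Y^k`, `N = cdbar Y`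
  (commute `∂_{\bar j} ∂_k = ∂_k ∂_{\bar j}`; `levi η j k = ∂_{\bar j} ∂_k η`).
* `bk_second`: `X^k = ρ ∑_j conj (B^j) N_{jk}` is an `IsVField` with compact support (`IsKVec.dbarV_compat`);
  `∑_k ∂_k (e^{-η} conj (B^j) N_{jk}) = e^{-η} (∑ conj (N_{kj}) N_{jk} + ∑ conj (B^j) (∂_k N_{jk} - ∂_k η N_{jk}))`.
* `bochner_kodaira`: `divQ B B = - pairQ (dbarS (kdiv B)) B` (`secQ_kdiv` with `s = kdiv B`) `= ∫ Θ(B,B) - Re ∫ ∑ conj(B^j)(…)` (`bk_commutator`, `levi_wt`) `= ∫ Θ(B,B) + ∫ swIP N N` (`bk_second`);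
  hence `dirQ B B = ∫ nbIP + ∫ Θ = divQ B B + ∫ (nbIP - swIP)`.
-/

set_option autoImplicit false
set_option linter.unusedSectionVars false
open scoped ContDiff ComplexOrder ComplexConjugate Topology
open MeasureTheory Filter

namespace Claimed.Agent.R316

variable {V : Type} [NormedAddCommGroup V] [NormedSpace ℝ V] [MeasurableSpace V] [BorelSpace V]
  [FiniteDimensional ℝ V]
variable {ι : Type} [Fintype ι] [DecidableEq ι]
variable {𝓜 : CMfd V ι} {g h : HFam V ι} {φ : V → ℝ} {k : ℤ}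
variable {s : SFam V ι} {B : VFam V ι}

/-- weighted Leibniz rule. -/
theorem dz_exp_neg_mul {η : CE ι → ℝ} {f : CE ι → ℂ} {z : CE ι} (hη : DifferentiableAt ℝ η z)
    (hf : DifferentiableAt ℝ f z) (l : ι) :
    dz l (fun w => ((Real.exp (-(η w)) : ℝ) : ℂ) * f w) z =
      ((Real.exp (-(η z)) : ℝ) : ℂ) * (dz l f z - grad10 η z l * f z) := by
  have h1 : DifferentiableAt ℝ (fun w => ((Real.exp (-(η w)) : ℝ) : ℂ)) z :=
    differentiableAt_ofReal (hη.neg.exp)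
  rw [dz_mul h1 hf, dz_exp_real (fun w => -(η w)) hη.neg]
  have h2 : dz l (fun w => (((-(η w)) : ℝ) : ℂ)) z = - grad10 η z l := by
    have := congrFun (grad10_neg (f := η) (z := z)) l
    exact this
  rw [h2]
  ring

/-- **the weighted divergence theorem**: `Y` transforms like `|det J|^{2k} J`, has compact support. -/
theorem kInt_cdiv_eq_zero (hh : IsMetric 𝓜 h) (hφ : 𝓜.Smooth φ) {Y : VFam V ι}
    (hsm : ∀ {Φ : CE ι → V} {U : Set (CE ι)}, 𝓜.IsHol Φ U → ∀ j, ContDiffOn ℝ ∞ (fun z => Y Φ z j) U)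
    (hcompat : ∀ {Φ Ψ : CE ι → V} {U W : Set (CE ι)}, 𝓜.IsHol Φ U → 𝓜.IsHol Ψ W →
      ∀ z ∈ U, Φ z ∈ Ψ '' W → Y Ψ (Function.invFunOn Ψ W (Φ z)) =
        ((‖(jac (Function.invFunOn Ψ W ∘ Φ) z).det ^ k‖ ^ 2 : ℝ) : ℂ) •
          (jac (Function.invFunOn Ψ W ∘ Φ) z).mulVec (Y Φ z))
    (hc : VFieldCSupp 𝓜 Y) :
    Integrable (kDens 𝓜 h φ k (fun Φ z => (cdiv (wt h φ k Φ) (Y Φ) z).re)) (hvol 𝓜 h) ∧
      kInt 𝓜 h φ k (fun Φ z => (cdiv (wt h φ k Φ) (Y Φ) z).re) = 0 := by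
  set X : VFam V ι := fun Φ z => ((kw h k Φ z * Real.exp (-φ (Φ z)) : ℝ) : ℂ) • Y Φ z with hXdef
  have hX : IsVField 𝓜 X := by
    refine ⟨fun {Φ U} hΦ j => ?_, fun {Φ Ψ U W} hΦ hΨ z hz hzW => ?_⟩
    · have h1 : ContDiffOn ℝ ∞ (fun z => kw h k Φ z * Real.exp (-φ (Φ z))) U :=
        (contDiffOn_kw hh hΦ k).mul (hφ Φ U hΦ).neg.exp
      exact (contDiffOn_ofReal h1).mul (hsm hΦ j)
    · simp only [hXdef]
      rw [hcompat hΦ hΨ z hz hzW, kw_compat hh hΦ hΨ hz hzW k, Function.invFunOn_eq hzW,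
        Matrix.mulVec_smul, smul_smul, ← Complex.ofReal_mul]
      congr 2
      ring
  have hXc : VFieldCSupp 𝓜 X := by
    obtain ⟨K, hK, hKM, h0⟩ := hc
    exact ⟨K, hK, hKM, fun Φ U hΦ z hz hzK => by simp only [hXdef, h0 Φ U hΦ z hz hzK, smul_zero]⟩
  obtain ⟨D, hD⟩ := exists_isDivOf hh hX
  have hDi : Integrable D (hvol 𝓜 h) := integrable_hvol_of_csupp hh (hD.continuousOn hh hX) (hD.csupp hh hXc)
  have h0 := integral_div_eq_zero hh hX hXc hD
  have hform : ∀ (Φ : CE ι → V) (U : Set (CE ι)), 𝓜.IsHol Φ U → ∀ z ∈ U,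
      D (Φ z) = ((kw h k Φ z * Real.exp (-φ (Φ z)) : ℝ) : ℂ) * cdiv (wt h φ k Φ) (Y Φ) z := by
    intro Φ U hΦ z hz
    have hU := CMfd.isOpen_dom hΦ
    have hdet := hh.det_ne_zero hΦ hz
    have hη : DifferentiableAt ℝ (wt h φ k Φ) z :=
      ((contDiffOn_wt hh hφ hΦ k z hz).contDiffAt (hU.mem_nhds hz)).differentiableAt (by simp)
    have hYd : ∀ j, DifferentiableAt ℝ (fun w => Y Φ w j) z := fun j =>
      ((hsm hΦ j z hz).contDiffAt (hU.mem_nhds hz)).differentiableAt (by simp)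
    have h1 := hD Φ U hΦ z hz
    have h2 : ∀ l, dz l (fun w => (h Φ w).det * X Φ w l) z =
        ((Real.exp (-(wt h φ k Φ z)) : ℝ) : ℂ) *
          (dz l (fun w => Y Φ w l) z - grad10 (wt h φ k Φ) z l * Y Φ z l) := by
      intro l
      rw [← dz_exp_neg_mul hη (hYd l)]
      refine dz_congr ?_
      filter_upwards [hU.mem_nhds hz] with w hw
      simp only [hXdef, Pi.smul_apply, smul_eq_mul]
      have e : ((Real.exp (-(wt h φ k Φ w)) : ℝ) : ℂ)
          = (h Φ w).det * ((kw h k Φ w * Real.exp (-φ (Φ w)) : ℝ) : ℂ) := by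
        rw [exp_neg_wt hh hΦ hw, Complex.ofReal_mul, ofReal_det_re_of_posDef (hh.posDef hΦ w hw), mul_comm]
      rw [e]
      ring
    simp only [h2, ← Finset.mul_sum] at h1
    rw [exp_neg_wt hh hΦ hz, Complex.ofReal_mul, ofReal_det_re_of_posDef (hh.posDef hΦ z hz)] at h1
    have h3 : D (Φ z) * (h Φ z).det =
        (((kw h k Φ z * Real.exp (-φ (Φ z)) : ℝ) : ℂ) * cdiv (wt h φ k Φ) (Y Φ) z) * (h Φ z).det := by
      rw [h1, cdiv]
      ring
    exact mul_right_cancel₀ hdet h3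
  have hre : ∀ x ∈ 𝓜.carrier,
      kDens 𝓜 h φ k (fun Φ z => (cdiv (wt h φ k Φ) (Y Φ) z).re) x = (D x).re := by
    intro x hx
    have h1 := hform _ _ (𝓜.isHol_pΦ hx) _ (𝓜.co_mem hx)
    rw [𝓜.pΦ_co hx] at h1
    rw [h1, Complex.re_ofReal_mul]
    simp only [kDens, CMfd.scal]
    ring
  refine ⟨(integrable_hvol_congr hre).2 hDi.re, ?_⟩
  rw [kInt, integral_hvol_congr hre]
  have h4 : ∫ x, (D x).re ∂(hvol 𝓜 h) = (∫ x, D x ∂(hvol 𝓜 h)).re := by
    exact integral_re hDi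
  rw [h4, h0, Complex.zero_re]

theorem kInt_add {F F' : (CE ι → V) → CE ι → ℝ} (hF : Integrable (kDens 𝓜 h φ k F) (hvol 𝓜 h))
    (hF' : Integrable (kDens 𝓜 h φ k F') (hvol 𝓜 h)) :
    kInt 𝓜 h φ k (fun Φ z => F Φ z + F' Φ z) = kInt 𝓜 h φ k F + kInt 𝓜 h φ k F' := by
  simp only [kInt]
  rw [← integral_add hF hF']
  exact integral_congr_ae (Filter.Eventually.of_forall fun x => kDens_add F F' x)

theorem kInt_sub {F F' : (CE ι → V) → CE ι → ℝ} (hF : Integrable (kDens 𝓜 h φ k F) (hvol 𝓜 h))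
    (hF' : Integrable (kDens 𝓜 h φ k F') (hvol 𝓜 h)) :
    kInt 𝓜 h φ k (fun Φ z => F Φ z - F' Φ z) = kInt 𝓜 h φ k F - kInt 𝓜 h φ k F' := by
  simp only [kInt]
  rw [← integral_sub hF hF']
  exact integral_congr_ae (Filter.Eventually.of_forall fun x => kDens_sub F F' x)

theorem kInt_congr {F F' : (CE ι → V) → CE ι → ℝ}
    (h0 : ∀ (Φ : CE ι → V) (U : Set (CE ι)), 𝓜.IsHol Φ U → ∀ z ∈ U, F Φ z = F' Φ z) :
    kInt 𝓜 h φ k F = kInt 𝓜 h φ k F' :=
  integral_hvol_congr fun _ hx => kDens_congr h0 hx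

/-- **adjointness**: `⟨kdiv B, s⟩ = - ⟨∂̄ s, B⟩` (`s` any smooth section, `B` a test field). -/
theorem secQ_kdiv (hh : IsMetric 𝓜 h) (hφ : 𝓜.Smooth φ) (hs : IsKSec 𝓜 k s) (hB : IsTestKV 𝓜 k B) :
    secQ 𝓜 h φ k (kdiv h φ k B) s = - pairQ 𝓜 h φ k (dbarS s) B := by
  obtain ⟨K, hK, hKM, h0⟩ := hB.2
  have hkd := hB.1.kdiv hh hφ
  have key := fun h1 h2 h3 => (kInt_cdiv_eq_zero (k := k) hh hφ (Y := fun Φ z => conj (s Φ z) • B Φ z) h1 h2 h3).2
  replace key := key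
    (fun {Φ U} hΦ j => (Complex.conjCLE.contDiff.comp_contDiffOn (hs.smooth hΦ)).mul (hB.1.smooth hΦ j))
    (fun {Φ Ψ U W} hΦ hΨ z hz hzW => by
      rw [hs.compat hΦ hΨ z hz hzW, hB.1.compat hΦ hΨ z hz hzW, Matrix.mulVec_smul, smul_smul, smul_smul,
        ← Complex.normSq_eq_norm_sq, Complex.normSq_eq_conj_mul_self, map_mul]
      congr 1
      ring)
    ⟨K, hK, hKM, fun Φ U hΦ z hz hzK => by simp only [h0 Φ U hΦ z hz hzK, smul_zero]⟩
  have hpt : ∀ (Φ : CE ι → V) (U : Set (CE ι)), 𝓜.IsHol Φ U → ∀ z ∈ U,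
      (cdiv (wt h φ k Φ) (fun z => conj (s Φ z) • B Φ z) z).re =
        (kdiv h φ k B Φ z * conj (s Φ z)).re + fvIP (dbarS s Φ z) (B Φ z) := by
    intro Φ U hΦ z hz
    have hsd : DifferentiableAt ℝ (fun w => conj (s Φ w)) z :=
      Complex.conjCLE.differentiableAt.comp z (hs.differentiableAt hΦ hz)
    have e1 : cdiv (wt h φ k Φ) (fun z => conj (s Φ z) • B Φ z) z =
        kdiv h φ k B Φ z * conj (s Φ z) + conj (∑ j, dbarS s Φ z j * conj (B Φ z j)) := by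
      simp only [R316.kdiv, cdiv, Pi.smul_apply, smul_eq_mul, map_sum, map_mul, Complex.conj_conj, dbarS]
      rw [Finset.sum_mul, ← Finset.sum_add_distrib]
      refine Finset.sum_congr rfl fun j _ => ?_
      rw [dz_mul hsd (hB.1.differentiableAt hΦ hz j), dz_conj]
      ring
    rw [e1, Complex.add_re, Complex.conj_re]
    rfl
  rw [kInt_congr hpt, kInt_add (integrable_kDens_sec hh hφ hkd hs hK hKM (VFamSuppIn.kdiv hK.isClosed h0))
    (integrable_kDens_pair hh hφ hs.dbarS hB)] at key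
  have e2 : secQ 𝓜 h φ k (kdiv h φ k B) s + pairQ 𝓜 h φ k (dbarS s) B = 0 := key
  linarith

/-- the commutator `[∂̄, δ]` in one chart. -/
theorem bk_commutator {U : Set (CE ι)} (hU : IsOpen U) {η : CE ι → ℝ} (hη : ContDiffOn ℝ ∞ η U)
    {Y : CE ι → ι → ℂ} (hY : ∀ j, ContDiffOn ℝ ∞ (fun z => Y z j) U) {z : CE ι} (hz : z ∈ U) (j : ι) :
    dzb j (cdiv η Y) z =
      ∑ l, (dz l (fun w => cdbar Y w j l) z - grad10 η z l * cdbar Y z j l) - ∑ l, levi η z j l * Y z l := by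
  have hzn := hU.mem_nhds hz
  have hYc : ∀ l, ContDiffAt ℝ ∞ (fun w => Y w l) z := fun l => (hY l).contDiffAt hzn
  have hYd : ∀ l, DifferentiableAt ℝ (fun w => Y w l) z := fun l => (hYc l).differentiableAt (by simp)
  have hdY : ∀ l, DifferentiableAt ℝ (dz l (fun w => Y w l)) z := fun l =>
    ((contDiffOn_dz hU (hY l)).contDiffAt hzn).differentiableAt (by simp)
  have hg : ∀ l, DifferentiableAt ℝ (fun w => grad10 η w l) z := fun l =>
    ((contDiffOn_grad10 hU hη).contDiffAt hzn).differentiableAt (by simp)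
  have h1 : dzb j (cdiv η Y) z = ∑ l, dzb j (fun w => dz l (fun y => Y y l) w - grad10 η w l * Y w l) z :=
    dzb_sum Finset.univ _ fun l _ => (hdY l).sub ((hg l).mul (hYd l))
  rw [h1, ← Finset.sum_sub_distrib]
  refine Finset.sum_congr rfl fun l _ => ?_
  have hm : DifferentiableAt ℝ (fun w => grad10 η w l * Y w l) z := (hg l).mul (hYd l)
  have e1 : dzb j (fun w => dz l (fun y => Y y l) w - grad10 η w l * Y w l) z =
      dzb j (dz l (fun y => Y y l)) z - dzb j (fun w => grad10 η w l * Y w l) z := dzb_sub (hdY l) hm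
  have e2 : dz l (fun w => cdbar Y w j l) z = dzb j (dz l (fun y => Y y l)) z :=
    dz_dzb_comm ((hYc l).of_le lv_two_le_infty)
  have e3 : cdbar Y z j l = dzb j (fun w => Y w l) z := rfl
  rw [e1, e2, e3, dzb_mul (hg l) (hYd l), levi_eq_dzb_grad10]
  ring

theorem integrable_kDens_swIP (hh : IsMetric 𝓜 h) (hφ : 𝓜.Smooth φ) (hB : IsTestKV 𝓜 k B) :
    Integrable (kDens 𝓜 h φ k (fun Φ z => swIP (dbarV B Φ z) (dbarV B Φ z))) (hvol 𝓜 h) := by
  obtain ⟨K, hK, hKM, h0⟩ := hB.2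
  refine integrable_kDens hh hφ (invariant_kw_swIP hh hB.1 hB.1)
    (fun Φ U hΦ => (contDiffOn_swIP hB.1 hB.1 hΦ).continuousOn) hK hKM fun Φ U hΦ z hz hzK => ?_
  rw [VFamSuppIn.dbarV hK.isClosed h0 hΦ hz hzK, swIP_zero_left]

/-- the second integration by parts, with integrability. -/
theorem bk_second_aux (hh : IsMetric 𝓜 h) (hφ : 𝓜.Smooth φ) (hB : IsTestKV 𝓜 k B) :
    Integrable (kDens 𝓜 h φ k (fun Φ z => (∑ j, conj (B Φ z j) *
        ∑ l, (dz l (fun w => dbarV B Φ w j l) z - grad10 (wt h φ k Φ) z l * dbarV B Φ z j l)).re)) (hvol 𝓜 h) ∧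
    kInt 𝓜 h φ k (fun Φ z => (∑ j, conj (B Φ z j) *
        ∑ l, (dz l (fun w => dbarV B Φ w j l) z - grad10 (wt h φ k Φ) z l * dbarV B Φ z j l)).re) =
      - kInt 𝓜 h φ k (fun Φ z => swIP (dbarV B Φ z) (dbarV B Φ z)) := by
  obtain ⟨K, hK, hKM, h0⟩ := hB.2
  have key := kInt_cdiv_eq_zero (k := k) hh hφ
    (Y := fun Φ z => (dbarV B Φ z).transpose.mulVec (star (B Φ z)))
    (fun {Φ U} hΦ l => by
      simp only [Matrix.mulVec, dotProduct, Matrix.transpose_apply, Pi.star_apply]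
      exact ContDiffOn.sum fun j _ => (contDiffOn_dbarV hB.1 hΦ j l).mul
        (Complex.conjCLE.contDiff.comp_contDiffOn (hB.1.smooth hΦ j)))
    (fun {Φ Ψ U W} hΦ hΨ z hz hzW => by
      have hN := hB.1.dbarV_compat hΦ hΨ hz hzW
      rw [hB.1.compat hΦ hΨ z hz hzW, star_smul, Matrix.star_mulVec, Matrix.mulVec_smul,
        Matrix.mulVec_transpose, Matrix.vecMul_vecMul, ← hN, Matrix.vecMul_smul, ← Matrix.vecMul_vecMul,
        Matrix.vecMul_transpose, Matrix.mulVec_transpose, smul_smul,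
        ← Complex.normSq_eq_norm_sq, Complex.normSq_eq_conj_mul_self]
      rfl)
    ⟨K, hK, hKM, fun Φ U hΦ z hz hzK => by
      simp only [h0 Φ U hΦ z hz hzK, star_zero, Matrix.mulVec_zero]⟩
  have hpt : ∀ (Φ : CE ι → V) (U : Set (CE ι)), 𝓜.IsHol Φ U → ∀ z ∈ U,
      (∑ j, conj (B Φ z j) *
        ∑ l, (dz l (fun w => dbarV B Φ w j l) z - grad10 (wt h φ k Φ) z l * dbarV B Φ z j l)).re =
      (cdiv (wt h φ k Φ) (fun z => (dbarV B Φ z).transpose.mulVec (star (B Φ z))) z).re -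
        swIP (dbarV B Φ z) (dbarV B Φ z) := by
    intro Φ U hΦ z hz
    have hU := CMfd.isOpen_dom hΦ
    have hNd : ∀ j l, DifferentiableAt ℝ (fun w => dbarV B Φ w j l) z := fun j l =>
      ((contDiffOn_dbarV hB.1 hΦ j l).contDiffAt (hU.mem_nhds hz)).differentiableAt (by simp)
    have hBc : ∀ j, DifferentiableAt ℝ (fun w => conj (B Φ w j)) z := fun j =>
      Complex.conjCLE.differentiableAt.comp z (hB.1.differentiableAt hΦ hz j)
    have e1 : cdiv (wt h φ k Φ) (fun z => (dbarV B Φ z).transpose.mulVec (star (B Φ z))) z =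
        (∑ j, conj (B Φ z j) *
          ∑ l, (dz l (fun w => dbarV B Φ w j l) z - grad10 (wt h φ k Φ) z l * dbarV B Φ z j l)) +
        ∑ j, ∑ l, dbarV B Φ z l j * conj (dbarV B Φ z j l) := by
      simp only [cdiv, Matrix.mulVec, dotProduct, Matrix.transpose_apply, Pi.star_apply, Complex.star_def]
      have e2 : ∀ l, dz l (fun w => ∑ j, dbarV B Φ w j l * conj (B Φ w j)) z =
          ∑ j, (dz l (fun w => dbarV B Φ w j l) z * conj (B Φ z j) +
            dbarV B Φ z j l * conj (dbarV B Φ z l j)) := by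
        intro l
        have h5 := dz_sum (j := l) (z := z) Finset.univ (fun j w => dbarV B Φ w j l * conj (B Φ w j))
          (fun j _ => (hNd j l).mul (hBc j))
        rw [h5]
        refine Finset.sum_congr rfl fun j _ => ?_
        rw [dz_mul (hNd j l) (hBc j), dz_conj]
        rfl
      simp only [e2, Finset.mul_sum]
      rw [Finset.sum_comm (s := Finset.univ) (t := Finset.univ) (f := fun j l => conj (B Φ z j) *
        (dz l (fun w => dbarV B Φ w j l) z - grad10 (wt h φ k Φ) z l * dbarV B Φ z j l))]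
      simp only [← Finset.sum_sub_distrib, ← Finset.sum_add_distrib]
      exact Finset.sum_congr rfl fun l _ => Finset.sum_congr rfl fun j _ => by ring
    rw [e1, Complex.add_re]
    simp only [swIP]
    ring
  refine ⟨?_, by rw [kInt_congr hpt, kInt_sub key.1 (integrable_kDens_swIP hh hφ hB), key.2, zero_sub]⟩
  refine (integrable_hvol_congr fun x hx => kDens_congr hpt hx).2 ?_
  exact (key.1.sub (integrable_kDens_swIP hh hφ hB)).congr
    (Filter.Eventually.of_forall fun x => (kDens_sub _ _ x).symm)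

/-- the second integration by parts. -/
theorem bk_second (hh : IsMetric 𝓜 h) (hφ : 𝓜.Smooth φ) (hB : IsTestKV 𝓜 k B) :
    kInt 𝓜 h φ k (fun Φ z => (∑ j, conj (B Φ z j) *
        ∑ l, (dz l (fun w => dbarV B Φ w j l) z - grad10 (wt h φ k Φ) z l * dbarV B Φ z j l)).re) =
      - kInt 𝓜 h φ k (fun Φ z => swIP (dbarV B Φ z) (dbarV B Φ z)) :=
  (bk_second_aux hh hφ hB).2

theorem integrable_kDens_qf (hh : IsMetric 𝓜 h) (hφ : 𝓜.Smooth φ) (hB : IsTestKV 𝓜 k B) :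
    Integrable (kDens 𝓜 h φ k (fun Φ z => qf (curvF h φ k Φ z) (B Φ z))) (hvol 𝓜 h) := by
  obtain ⟨K, hK, hKM, h0⟩ := hB.2
  have hA := isHForm_curvF hh hφ k
  refine integrable_kDens hh hφ (invariant_kw_qfB hh hA hB.1 hB.1)
    (fun Φ U hΦ => (contDiffOn_qfB hA hB.1 hB.1 hΦ).continuousOn) hK hKM fun Φ U hΦ z hz hzK => ?_
  rw [h0 Φ U hΦ z hz hzK, qf_zero_vec]

theorem integrable_kDens_nbIP (hh : IsMetric 𝓜 h) (hφ : 𝓜.Smooth φ) (hg : IsMetric 𝓜 g)
    (hB : IsTestKV 𝓜 k B) :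
    Integrable (kDens 𝓜 h φ k (fun Φ z => nbIP (g Φ z) (dbarV B Φ z) (dbarV B Φ z))) (hvol 𝓜 h) := by
  obtain ⟨K, hK, hKM, h0⟩ := hB.2
  refine integrable_kDens hh hφ (invariant_kw_nbIP hh hg hB.1 hB.1)
    (fun Φ U hΦ => (contDiffOn_nbIP hg hB.1 hB.1 hΦ).continuousOn) hK hKM fun Φ U hΦ z hz hzK => ?_
  rw [VFamSuppIn.dbarV hK.isClosed h0 hΦ hz hzK, nbIP_zero_left]

/-- the metric free form of the identity: `‖kdiv B‖² = ∫ Θ(B,B) + ∫ T(∂̄B)`. -/
theorem divQ_eq (hh : IsMetric 𝓜 h) (hφ : 𝓜.Smooth φ) (hB : IsTestKV 𝓜 k B) :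
    divQ 𝓜 h φ k B B = kInt 𝓜 h φ k (fun Φ z => qf (curvF h φ k Φ z) (B Φ z)) +
      kInt 𝓜 h φ k (fun Φ z => swIP (dbarV B Φ z) (dbarV B Φ z)) := by
  have hkd := hB.1.kdiv hh hφ
  have h1 : divQ 𝓜 h φ k B B = - pairQ 𝓜 h φ k (dbarS (kdiv h φ k B)) B := secQ_kdiv hh hφ hkd hB
  have hpt : ∀ (Φ : CE ι → V) (U : Set (CE ι)), 𝓜.IsHol Φ U → ∀ z ∈ U,
      fvIP (dbarS (kdiv h φ k B) Φ z) (B Φ z) =
        (∑ j, conj (B Φ z j) *
          ∑ l, (dz l (fun w => dbarV B Φ w j l) z - grad10 (wt h φ k Φ) z l * dbarV B Φ z j l)).re -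
        qf (curvF h φ k Φ z) (B Φ z) := by
    intro Φ U hΦ z hz
    have hc : ∀ j, dbarS (kdiv h φ k B) Φ z j =
        ∑ l, (dz l (fun w => dbarV B Φ w j l) z - grad10 (wt h φ k Φ) z l * dbarV B Φ z j l) -
          ∑ l, curvF h φ k Φ z j l * B Φ z l := by
      intro j
      rw [← levi_wt hh hφ hΦ hz k]
      exact bk_commutator (CMfd.isOpen_dom hΦ) (contDiffOn_wt hh hφ hΦ k) (fun l => hB.1.smooth hΦ l) hz j
    simp only [fvIP, hc, qf, dotProduct, Matrix.mulVec, Pi.star_apply, Complex.star_def]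
    rw [← Complex.sub_re, ← Finset.sum_sub_distrib]
    congr 1
    exact Finset.sum_congr rfl fun j _ => by ring
  have h2 : pairQ 𝓜 h φ k (dbarS (kdiv h φ k B)) B =
      - kInt 𝓜 h φ k (fun Φ z => swIP (dbarV B Φ z) (dbarV B Φ z)) -
        kInt 𝓜 h φ k (fun Φ z => qf (curvF h φ k Φ z) (B Φ z)) := by
    rw [pairQ, kInt_congr hpt, kInt_sub (bk_second_aux hh hφ hB).1 (integrable_kDens_qf hh hφ hB),
      bk_second hh hφ hB]
  rw [h1, h2]
  ring

/-- **Bochner-Kodaira-Nakano identity.** -/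
theorem bochner_kodaira (S : L2Setting 𝓜 g h φ k) (hB : IsTestKV 𝓜 k B) :
    dirQ 𝓜 g h φ k B B = divQ 𝓜 h φ k B B + curlQ 𝓜 g h φ k B := by
  have hh := S.metric
  have hφ := S.smooth
  have hg := S.kahler.toIsMetric
  have e1 : dirQ 𝓜 g h φ k B B = kInt 𝓜 h φ k (fun Φ z => nbIP (g Φ z) (dbarV B Φ z) (dbarV B Φ z)) +
      kInt 𝓜 h φ k (fun Φ z => qf (curvF h φ k Φ z) (B Φ z)) :=
    kInt_add (integrable_kDens_nbIP hh hφ hg hB) (integrable_kDens_qf hh hφ hB)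
  have e2 : curlQ 𝓜 g h φ k B = kInt 𝓜 h φ k (fun Φ z => nbIP (g Φ z) (dbarV B Φ z) (dbarV B Φ z)) -
      kInt 𝓜 h φ k (fun Φ z => swIP (dbarV B Φ z) (dbarV B Φ z)) :=
    kInt_sub (integrable_kDens_nbIP hh hφ hg hB) (integrable_kDens_swIP hh hφ hB)
  rw [e1, e2, divQ_eq hh hφ hB]
  ring

theorem divQ_le_dirQ (S : L2Setting 𝓜 g h φ k) (hB : IsTestKV 𝓜 k B) :
    divQ 𝓜 h φ k B B ≤ dirQ 𝓜 g h φ k B B := by
  have h1 := bochner_kodaira S hB
  have h2 := curlQ_nonneg S B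
  linarith

end Claimed.Agent.R316
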