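import Claimed.Agent.R316.Base.L2M.Lim
import Claimed.Agent.R316.Base.L2M.BK

/-!
# Row 316 base layer, `BP-G11`: the `L²` existence theorem (EXPORT)

`l2_dbar`: `𝓜` carries a Kaehler metric `g` with a smooth exhaustion `ρ` of bounded `g`-gradient (`GoodExh`; this replaces completeness;
`g` does NOT appear in the estimate).  `h` is any Hermitian metric, `φ` smooth, `k : ℤ`, `Θ = (k+1) Ric h + dd φ > 0`.
For every smooth section `F` of `K^{-k}` and every `N ≥ 0` with `|⟨∂̄F, v⟩|² (det h)^k ≤ N Θ(v,v)` and `∫ N e^{-φ} dV_h < ∞` there is a smooth section `u` with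
`∂̄u = ∂̄F` and `∫ |u|²_h e^{-φ} dV_h ≤ ∫ N e^{-φ} dV_h`.

`l2_dbar_fun`: the case `k = 0` for functions `V → ℂ`.

PROOF (assembled here from the leaves).  `D = testKV 𝓜 k`, `Q = dirQ`, `ℓ = pairQ (∂̄F)`, `ℓ² ≤ I Q` (`pairQ_sq_le`).  `exists_minimizing_seq`: `w_m ∈ D`, `Q`-Cauchy, `Q(w_m,·) → ℓ`, `limsup Q(w_m,w_m) ≤ I`.
`exists_limit_section`: `kdiv w_m → v` in `L²_loc`, `v` a smooth section.  `‖v‖² ≤ liminf divQ(w_m,w_m) ≤ I` (`divQ_le_dirQ`).  `R = Q - divQ` is positive semidefinite with `R(B,B) = curlQ B`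
(Bochner-Kodaira), so `(ℓ B' - ⟨v, kdiv B'⟩)² = lim R(w_m,B')² ≤ I curlQ B'`, and `⟨v, kdiv B'⟩ = pairQ (∂̄(-v)) B'`.  `dbar_eq_of_estimate`: `∂̄(-v) = ∂̄F`.
-/

set_option autoImplicit false
set_option linter.unusedSectionVars false
set_option linter.unusedVariables false
open scoped ContDiff ComplexOrder ComplexConjugate Topology
open MeasureTheory Filter

namespace Claimed.Agent.R316

variable {V : Type} [NormedAddCommGroup V] [NormedSpace ℝ V] [MeasurableSpace V] [BorelSpace V]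
  [FiniteDimensional ℝ V]
variable {ι : Type} [Fintype ι] [DecidableEq ι]
variable {𝓜 : CMfd V ι} {g h : HFam V ι} {φ ρ : V → ℝ} {k : ℤ}

/-! ## Leaf `G11-CUT`: the cutoff argument (this is where the exhaustion and the Kaehler condition are used)

`dbar_eq_of_estimate`.  Let `a = dbarS (F - u)` (an `IsKForm`, `curlM a = 0`), `A = raise g a`, `λ : ℝ → ℝ` smooth, `λ = 1` on `(-∞,1]`, `λ = 0` on `[2,∞)`, `0 ≤ λ ≤ 1`, `|λ'| ≤ 2`
(`Real.smoothTransition`), `χ_R = λ(ρ/R)`, `R ≥ 1`: smooth, `CSupp` (`{ρ ≤ 2R}` compact), `gradSq 𝓜 g χ_R ≤ 4 C/R²` (`Vol/Calc.lean`, chain rule).  `B_R = fmulV (χ_R²) A ∈ testKV`.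
* `pairQ (dbarS F) B_R - pairQ (dbarS u) B_R = ∫ χ_R² |a|²_g =: X_R` (`fvIP_raise`, `kDens_fmul`; `dbarS (F - u) = dbarS F - dbarS u` in charts).
* `curlQ B_R = ∫ twoSq G (curlM (lower g B_R))` (`nbIP_sub_swIP`, `curlM_lower`), `lower g B_R = fmulV (χ_R²) a` (`lower_raise`), `curlM (χ² a) = 2 χ (∂̄χ ∧ a)` (`curlM_fmulV`, `curlM_dbarS`),
  so the integrand is `≤ 4 χ² |∂̄χ|²_g |a|²_g ≤ (16 C/R²) χ² |a|²_g` (`twoSq_wedge_le`, `twoSq_smul`, `qf_inv_conj`, `gradSq_eq`): `curlQ B_R ≤ (16 C/R²) X_R`.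
* `hest`: `X_R² ≤ I (16 C/R²) X_R`, so `X_R ≤ 16 C I/R²`.  For `R ≥ R₀`: `∫_{ρ ≤ R₀} |a|²_g ≤ X_R → 0`.  The integrand is continuous and `≥ 0`: `a = 0` on `{ρ < R₀}` for every `R₀`
  (`eq_zero_of_integral_hvol_eq_zero` for `χ_{R₀}² |a|²`; `qf G⁻¹ a = 0 ⟹ a = 0`).
-/

theorem cut_lambda : ∃ (lam : ℝ → ℝ) (L : ℝ), ContDiff ℝ ∞ lam ∧ 0 ≤ L ∧ (∀ t, 0 ≤ lam t ∧ lam t ≤ 1) ∧
    (∀ t, t ≤ 1 → lam t = 1) ∧ (∀ t, 2 ≤ t → lam t = 0) ∧ ∀ t, |deriv lam t| ≤ L := by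
  set lam : ℝ → ℝ := fun t => Real.smoothTransition (2 - t) with hlam
  have hs : ContDiff ℝ ∞ lam := Real.smoothTransition.contDiff.comp (contDiff_const.sub contDiff_id)
  have h1 : ∀ t, t ≤ 1 → lam t = 1 := fun t ht => Real.smoothTransition.one_of_one_le (by linarith)
  have h0 : ∀ t, 2 ≤ t → lam t = 0 := fun t ht => Real.smoothTransition.zero_of_nonpos (by linarith)
  obtain ⟨M, hM⟩ := (isCompact_Icc (a := (1 : ℝ)) (b := 2)).exists_bound_of_continuousOn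
    (hs.continuous_deriv (by simp)).continuousOn
  refine ⟨lam, |M|, hs, abs_nonneg _, fun t => ⟨Real.smoothTransition.nonneg _, Real.smoothTransition.le_one _⟩,
    h1, h0, fun t => ?_⟩
  by_cases ht : t ∈ Set.Icc (1 : ℝ) 2
  · exact (hM t ht).trans (le_abs_self _)
  · rw [Set.mem_Icc, not_and_or, not_le, not_le] at ht
    have : deriv lam t = 0 := by
      rcases ht with ht | ht
      · have : lam =ᶠ[𝓝 t] fun _ => 1 := by
          filter_upwards [Iio_mem_nhds ht] with s hs'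
          exact h1 s (le_of_lt hs')
        rw [this.deriv_eq, deriv_const]
      · have : lam =ᶠ[𝓝 t] fun _ => 0 := by
          filter_upwards [Ioi_mem_nhds ht] with s hs'
          exact h0 s (le_of_lt hs')
        rw [this.deriv_eq, deriv_const]
    rw [this, abs_zero]
    exact abs_nonneg _

/-- cutoffs from the exhaustion. -/
theorem GoodExh.exists_cutoffs (hg : IsMetric 𝓜 g) (hρ : GoodExh 𝓜 g ρ) :
    ∃ (C : ℝ) (χ : ℕ → V → ℝ), 0 ≤ C ∧ (∀ R, 𝓜.Smooth (χ R)) ∧ (∀ R, 𝓜.CSupp (χ R)) ∧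
      (∀ R, ∀ x ∈ 𝓜.carrier, 0 ≤ χ R x ∧ χ R x ≤ 1) ∧
      (∀ R : ℕ, ∀ x ∈ 𝓜.carrier, ρ x ≤ (R : ℝ) + 1 → χ R x = 1) ∧
      (∀ R : ℕ, ∀ x ∈ 𝓜.carrier, gradSq 𝓜 g (χ R) x ≤ C / ((R : ℝ) + 1) ^ 2) := by
  obtain ⟨lam, L, hs, hL, h01, h1, h0, hd⟩ := cut_lambda
  obtain ⟨C₀, hC₀⟩ := hρ.grad
  have hR : ∀ R : ℕ, (0 : ℝ) < (R : ℝ) + 1 := fun R => by positivity
  refine ⟨L ^ 2 * |C₀|, fun R x => lam (ρ x / ((R : ℝ) + 1)), by positivity, fun R Φ U hΦ => ?_, fun R => ?_,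
    fun R x _ => h01 _, fun R x _ hx => h1 _ ((div_le_one (hR R)).2 hx), fun R x hx => ?_⟩
  · exact hs.comp_contDiffOn ((hρ.smooth Φ U hΦ).div_const _)
  · refine ⟨{x | x ∈ 𝓜.carrier ∧ ρ x ≤ 2 * ((R : ℝ) + 1)}, hρ.compact _, fun x hx => hx.1, fun x hx hn => ?_⟩
    refine h0 _ ?_
    rw [le_div_iff₀ (hR R)]
    by_contra hc
    exact hn ⟨hx, le_of_lt (not_le.1 hc)⟩
  · have hder : HasDerivAt (fun s => lam (s / ((R : ℝ) + 1))) (deriv lam (ρ x / ((R : ℝ) + 1)) * (1 / ((R : ℝ) + 1))) (ρ x) := by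
      have e1 : HasDerivAt lam (deriv lam (ρ x / ((R : ℝ) + 1))) (ρ x / ((R : ℝ) + 1)) :=
        (hs.differentiable (by simp) _).hasDerivAt
      have e2 : HasDerivAt (fun s : ℝ => s / ((R : ℝ) + 1)) (1 / ((R : ℝ) + 1)) (ρ x) :=
        (hasDerivAt_id (ρ x)).div_const _
      exact e1.comp (ρ x) e2
    have e := gradSq_comp (χ := fun s => lam (s / ((R : ℝ) + 1))) g hx hder.differentiableAt (hρ.smooth.diffAt hx)
    rw [e, hder.deriv]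
    have g0 := gradSq_nonneg hg ρ hx
    have g1 : gradSq 𝓜 g ρ x ≤ |C₀| := (hC₀ x hx).trans (le_abs_self _)
    have d1 : deriv lam (ρ x / ((R : ℝ) + 1)) ^ 2 ≤ L ^ 2 := sq_le_sq' (by linarith [(abs_le.1 (hd (ρ x / ((R : ℝ) + 1)))).1]) (abs_le.1 (hd _)).2
    rw [mul_pow, div_pow, one_pow, le_div_iff₀ (by have := hR R; positivity)]
    have hne : ((R : ℝ) + 1) ^ 2 ≠ 0 := by have := hR R; positivity
    calc deriv lam (ρ x / ((R : ℝ) + 1)) ^ 2 * (1 / ((R : ℝ) + 1) ^ 2) * gradSq 𝓜 g ρ x * ((R : ℝ) + 1) ^ 2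
        = deriv lam (ρ x / ((R : ℝ) + 1)) ^ 2 * gradSq 𝓜 g ρ x := by field_simp
      _ ≤ L ^ 2 * |C₀| := mul_le_mul d1 g1 g0 (by positivity)

theorem cut_smooth_sq {χ : V → ℝ} (hχ : 𝓜.Smooth χ) : 𝓜.Smooth (fun x => χ x ^ 2) :=
  fun Φ U hΦ => (hχ Φ U hΦ).pow 2

theorem cut_csupp_sq {χ : V → ℝ} (hc : 𝓜.CSupp χ) : 𝓜.CSupp (fun x => χ x ^ 2) := by
  obtain ⟨K, hK, hKM, h0⟩ := hc
  exact ⟨K, hK, hKM, fun x hx hn => by show χ x ^ 2 = 0; rw [h0 x hx hn]; simp⟩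

theorem cut_fvIP (hg : IsMetric 𝓜 g) (a : VFam V ι) (χ : V → ℝ) {Φ : CE ι → V} {U : Set (CE ι)}
    (hΦ : 𝓜.IsHol Φ U) {z : CE ι} (hz : z ∈ U) :
    fvIP (a Φ z) (fmulV (fun x => χ x ^ 2) (raise g a) Φ z) = χ (Φ z) ^ 2 * qf (g Φ z)⁻¹ (a Φ z) := by
  have e : fmulV (fun x => χ x ^ 2) (raise g a) Φ z = (χ (Φ z) ^ 2 : ℝ) • ((g Φ z)⁻¹.mulVec (a Φ z)) := by
    ext j
    simp [fmulV, raise]
  rw [e, fvIP_smul_right, fvIP_raise (hg.posDef hΦ z hz)]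

/-- the pairing of a form with its own cut off dual field. -/
theorem pairQ_cutoff (S : L2Setting 𝓜 g h φ k) {a : VFam V ι} (ha : IsKForm 𝓜 k a) (χ : V → ℝ) :
    pairQ 𝓜 h φ k a (fmulV (fun x => χ x ^ 2) (raise g a)) =
      kInt 𝓜 h φ k (fun Φ z => χ (Φ z) ^ 2 * qf (g Φ z)⁻¹ (a Φ z)) :=
  kInt_congr fun _ _ hΦ _ hz => cut_fvIP S.kahler.toIsMetric a χ hΦ hz

theorem cut_isTestKV (S : L2Setting 𝓜 g h φ k) {a : VFam V ι} (ha : IsKForm 𝓜 k a)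
    {χ : V → ℝ} (hχ : 𝓜.Smooth χ) (hc : 𝓜.CSupp χ) : IsTestKV 𝓜 k (fmulV (fun x => χ x ^ 2) (raise g a)) :=
  (ha.raise S.kahler.toIsMetric).isTestKV_fmul (cut_smooth_sq hχ) (cut_csupp_sq hc)

theorem cut_kDens_eq (S : L2Setting 𝓜 g h φ k) (a : VFam V ι) (χ : V → ℝ) {x : V} (hx : x ∈ 𝓜.carrier) :
    kDens 𝓜 h φ k (fun Φ z => χ (Φ z) ^ 2 * qf (g Φ z)⁻¹ (a Φ z)) x
      = kDens 𝓜 h φ k (fun Φ z => fvIP (a Φ z) (fmulV (fun x => χ x ^ 2) (raise g a) Φ z)) x :=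
  kDens_congr (fun _ _ hΦ _ hz => (cut_fvIP S.kahler.toIsMetric a χ hΦ hz).symm) hx

theorem cut_integrable (S : L2Setting 𝓜 g h φ k) {a : VFam V ι} (ha : IsKForm 𝓜 k a)
    {χ : V → ℝ} (hχ : 𝓜.Smooth χ) (hc : 𝓜.CSupp χ) :
    Integrable (kDens 𝓜 h φ k (fun Φ z => χ (Φ z) ^ 2 * qf (g Φ z)⁻¹ (a Φ z))) (hvol 𝓜 h) :=
  (integrable_hvol_congr fun _ hx => cut_kDens_eq S a χ hx).2
    (integrable_kDens_pair S.metric S.smooth ha (cut_isTestKV S ha hχ hc))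

theorem cut_continuousOn (S : L2Setting 𝓜 g h φ k) {a : VFam V ι} (ha : IsKForm 𝓜 k a)
    {χ : V → ℝ} (hχ : 𝓜.Smooth χ) (hc : 𝓜.CSupp χ) :
    ContinuousOn (kDens 𝓜 h φ k (fun Φ z => χ (Φ z) ^ 2 * qf (g Φ z)⁻¹ (a Φ z))) 𝓜.carrier :=
  (continuousOn_kDens S.metric S.smooth (invariant_kw_fvIP S.metric ha (cut_isTestKV S ha hχ hc).1)
    (fun _ _ hΦ => (contDiffOn_fvIP ha (cut_isTestKV S ha hχ hc).1 hΦ).continuousOn)).congr
    fun _ hx => cut_kDens_eq S a χ hx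

theorem cut_curlM_congr {b b' : VFam V ι} {Φ : CE ι → V} {U : Set (CE ι)} (hU : IsOpen U)
    (h : ∀ w ∈ U, b Φ w = b' Φ w) {z : CE ι} (hz : z ∈ U) : curlM b Φ z = curlM b' Φ z := by
  have hev : ∀ j, (fun w => b Φ w j) =ᶠ[𝓝 z] fun w => b' Φ w j := fun j => by
    filter_upwards [hU.mem_nhds hz] with w hw
    rw [h w hw]
  ext l j
  simp only [curlM]
  rw [dzb_congr (hev j), dzb_congr (hev l)]

/-- the curl of a cut off closed form. -/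
theorem curlQ_cutoff_le (S : L2Setting 𝓜 g h φ k) {a : VFam V ι} (ha : IsKForm 𝓜 k a)
    (hcl : ∀ (Φ : CE ι → V) (U : Set (CE ι)), 𝓜.IsHol Φ U → ∀ z ∈ U, curlM a Φ z = 0)
    {χ : V → ℝ} (hχ : 𝓜.Smooth χ) (hc : 𝓜.CSupp χ) {c : ℝ} (hgr : ∀ x ∈ 𝓜.carrier, gradSq 𝓜 g χ x ≤ c) :
    curlQ 𝓜 g h φ k (fmulV (fun x => χ x ^ 2) (raise g a)) ≤
      4 * c * kInt 𝓜 h φ k (fun Φ z => χ (Φ z) ^ 2 * qf (g Φ z)⁻¹ (a Φ z)) := by
  have hg := S.kahler.toIsMetric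
  have hB := cut_isTestKV S ha hχ hc
  set B := fmulV (fun x => χ x ^ 2) (raise g a) with hBdef
  have hpt : ∀ (Φ : CE ι → V) (U : Set (CE ι)), 𝓜.IsHol Φ U → ∀ z ∈ U,
      nbIP (g Φ z) (dbarV B Φ z) (dbarV B Φ z) - swIP (dbarV B Φ z) (dbarV B Φ z)
        ≤ 4 * c * (χ (Φ z) ^ 2 * qf (g Φ z)⁻¹ (a Φ z)) := by
    intro Φ U hΦ z hz
    have hU := 𝓜.isOpen_dom hΦ
    have hGp := hg.posDef hΦ z hz
    rw [nbIP_sub_swIP hGp, curlM_lower S.kahler hB.1 hΦ hz]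
    have e1 : curlM (lower g B) Φ z = curlM (fmulV (fun x => χ x ^ 2) a) Φ z := by
      refine cut_curlM_congr hU (fun w hw => ?_) hz
      have := lower_raise hg hΦ hw a
      simp only [lower, raise] at this
      simp only [lower, hBdef, fmulV, raise, Matrix.mulVec_smul, this]
    have e2 : ∀ l, grad10 ((fun x => χ x ^ 2) ∘ Φ) z l = ((2 * χ (Φ z) : ℝ) : ℂ) * grad10 (χ ∘ Φ) z l := fun l => by
      have := grad10_comp_real (j := l) (fun s : ℝ => s ^ 2) (χ ∘ Φ) (z := z) (by fun_prop)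
        (hχ.differentiableAt_comp hΦ hz)
      have e0 : ((fun x => χ x ^ 2) ∘ Φ) = fun w => (fun s : ℝ => s ^ 2) ((χ ∘ Φ) w) := rfl
      rw [e0, this]
      simp
    rw [e1, curlM_fmulV (cut_smooth_sq hχ) ha hΦ hz, hcl Φ U hΦ z hz, smul_zero, zero_add]
    set ξ : ι → ℂ := ((2 * χ (Φ z) : ℝ) : ℂ) • (fun j => conj (grad10 (χ ∘ Φ) z j)) with hξ
    have e3 : (Matrix.of fun l j => conj (grad10 ((fun x => χ x ^ 2) ∘ Φ) z l) * a Φ z j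
        - conj (grad10 ((fun x => χ x ^ 2) ∘ Φ) z j) * a Φ z l)
        = fun l j => ξ l * a Φ z j - ξ j * a Φ z l := by
      ext l j
      simp only [Matrix.of_apply, e2, hξ, Pi.smul_apply, smul_eq_mul, map_mul, Complex.conj_ofReal]
    rw [e3]
    have h1 := twoSq_wedge_le hGp ξ (a Φ z)
    have h2 : qf (g Φ z)⁻¹ ξ = 4 * χ (Φ z) ^ 2 * gradSq 𝓜 g χ (Φ z) := by
      rw [hξ, qf_smul_vec, qf_inv_conj, gradSq_eq hg χ hΦ hz, Complex.norm_real, Real.norm_eq_abs, sq_abs]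
      ring
    have h3 := hgr _ (CMfd.mem_carrier hΦ hz)
    have h4 : 0 ≤ qf (g Φ z)⁻¹ (a Φ z) := qf_nonneg hGp.inv.posSemidef _
    rw [h2] at h1
    refine h1.trans ?_
    have h5 : 0 ≤ χ (Φ z) ^ 2 * qf (g Φ z)⁻¹ (a Φ z) := by positivity
    nlinarith
  have i1 : Integrable (kDens 𝓜 h φ k fun Φ z => nbIP (g Φ z) (dbarV B Φ z) (dbarV B Φ z)
      - swIP (dbarV B Φ z) (dbarV B Φ z)) (hvol 𝓜 h) := by
    have := (integrable_kDens_nbIP S.metric S.smooth hg hB).sub (integrable_kDens_swIP S.metric S.smooth hB)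
    refine this.congr (Eventually.of_forall fun x => ?_)
    exact (kDens_sub _ _ x).symm
  have i2 := cut_integrable S ha hχ hc
  unfold curlQ kInt
  rw [← integral_const_mul]
  refine integral_hvol_mono i1 (i2.const_mul _) fun x hx => ?_
  rw [← kDens_const_mul]
  exact kDens_mono S.metric hpt hx

theorem cut_dbarS_sub {F u : SFam V ι} (hF : IsKSec 𝓜 k F) (hu : IsKSec 𝓜 k u) {Φ : CE ι → V} {U : Set (CE ι)}
    (hΦ : 𝓜.IsHol Φ U) {z : CE ι} (hz : z ∈ U) : dbarS (F - u) Φ z = dbarS F Φ z - dbarS u Φ z := by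
  ext j
  exact dzb_sub (hF.differentiableAt hΦ hz) (hu.differentiableAt hΦ hz)

theorem cut_fvIP_sub_left (β β' a : ι → ℂ) : fvIP (β - β') a = fvIP β a - fvIP β' a := by
  simp [fvIP, sub_mul, Finset.sum_sub_distrib]

/-- **the cutoff argument.** -/
theorem dbar_eq_of_estimate (S : L2Setting 𝓜 g h φ k) (hρ : GoodExh 𝓜 g ρ) {F u : SFam V ι}
    (hF : IsKSec 𝓜 k F) (hu : IsKSec 𝓜 k u) {I : ℝ}
    (hest : ∀ B' ∈ testKV 𝓜 k, (pairQ 𝓜 h φ k (dbarS F) B' - pairQ 𝓜 h φ k (dbarS u) B') ^ 2 ≤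
      I * curlQ 𝓜 g h φ k B') :
    ∀ (Φ : CE ι → V) (U : Set (CE ι)), 𝓜.IsHol Φ U → ∀ z ∈ U, ∀ j, dzb j (u Φ) z = dzb j (F Φ) z := by
  have hg := S.kahler.toIsMetric
  obtain ⟨C, χ, hC, hχs, hχc, hχ01, hχ1, hχg⟩ := hρ.exists_cutoffs hg
  have hs : IsKSec 𝓜 k (F - u) := hF.sub hu
  set a : VFam V ι := dbarS (F - u) with ha_def
  have ha : IsKForm 𝓜 k a := hs.dbarS
  have hcl : ∀ (Φ : CE ι → V) (U : Set (CE ι)), 𝓜.IsHol Φ U → ∀ z ∈ U, curlM a Φ z = 0 :=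
    fun Φ U hΦ z hz => curlM_dbarS hs hΦ hz
  set X : ℕ → ℝ := fun R => kInt 𝓜 h φ k (fun Φ z => χ R (Φ z) ^ 2 * qf (g Φ z)⁻¹ (a Φ z)) with hX
  have hq0 : ∀ (Φ : CE ι → V) (U : Set (CE ι)), 𝓜.IsHol Φ U → ∀ z ∈ U, 0 ≤ qf (g Φ z)⁻¹ (a Φ z) :=
    fun Φ U hΦ z hz => qf_nonneg (hg.posDef hΦ z hz).inv.posSemidef _
  have hd0 : ∀ R, ∀ x ∈ 𝓜.carrier, 0 ≤ kDens 𝓜 h φ k (fun Φ z => χ R (Φ z) ^ 2 * qf (g Φ z)⁻¹ (a Φ z)) x :=
    fun R x hx => kDens_nonneg S.metric (fun Φ U hΦ z hz => mul_nonneg (sq_nonneg _) (hq0 Φ U hΦ z hz)) hx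
  have hX0 : ∀ R, 0 ≤ X R := fun R => integral_hvol_nonneg (hd0 R)
  have hpair : ∀ B', IsTestKV 𝓜 k B' →
      pairQ 𝓜 h φ k (dbarS F) B' - pairQ 𝓜 h φ k (dbarS u) B' = pairQ 𝓜 h φ k a B' := by
    intro B' hB'
    unfold pairQ
    rw [← kInt_sub (integrable_kDens_pair S.metric S.smooth hF.dbarS hB')
      (integrable_kDens_pair S.metric S.smooth hu.dbarS hB')]
    refine kInt_congr fun Φ U hΦ z hz => ?_
    rw [ha_def, cut_dbarS_sub hF hu hΦ hz, cut_fvIP_sub_left]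
  have hXle : ∀ R : ℕ, X R ≤ 4 * |I| * C / ((R : ℝ) + 1) ^ 2 := by
    intro R
    have hB := cut_isTestKV S ha (hχs R) (hχc R)
    have e := hest _ hB
    rw [hpair _ hB, pairQ_cutoff S ha] at e
    have e2 := curlQ_cutoff_le S ha hcl (hχs R) (hχc R) (hχg R)
    have e3 := curlQ_nonneg S (fmulV (fun x => χ R x ^ 2) (raise g a))
    have e4 : I * curlQ 𝓜 g h φ k (fmulV (fun x => χ R x ^ 2) (raise g a))
        ≤ |I| * (4 * (C / ((R : ℝ) + 1) ^ 2) * X R) :=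
      (mul_le_mul_of_nonneg_right (le_abs_self I) e3).trans (mul_le_mul_of_nonneg_left e2 (abs_nonneg I))
    have e5 : X R ^ 2 ≤ (4 * |I| * C / ((R : ℝ) + 1) ^ 2) * X R := by
      refine (e.trans e4).trans (le_of_eq ?_)
      ring
    by_contra hcon
    have hcon' := not_le.1 hcon
    have hpos : 0 ≤ 4 * |I| * C / ((R : ℝ) + 1) ^ 2 := by positivity
    nlinarith [hX0 R]
  intro Φ U hΦ z hz j
  have hx₀ : Φ z ∈ 𝓜.carrier := CMfd.mem_carrier hΦ hz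
  obtain ⟨R₀, hR₀⟩ := exists_nat_ge (ρ (Φ z))
  obtain ⟨K₀, hK₀, hK₀M, hK₀0⟩ := hχc R₀
  obtain ⟨M, hM⟩ := hK₀.exists_bound_of_continuousOn (hρ.smooth.continuousOn.mono hK₀M)
  obtain ⟨R₁, hR₁⟩ := exists_nat_ge M
  have hmono : ∀ R : ℕ, R₁ ≤ R → X R₀ ≤ X R := by
    intro R hR
    refine integral_hvol_mono (cut_integrable S ha (hχs R₀) (hχc R₀)) (cut_integrable S ha (hχs R) (hχc R))
      fun x hx => kDens_mono S.metric (fun Ψ W hΨ w hw => ?_) hx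
    refine mul_le_mul_of_nonneg_right ?_ (hq0 Ψ W hΨ w hw)
    have hy := CMfd.mem_carrier hΨ hw
    by_cases hyK : Ψ w ∈ K₀
    · have h1 : ρ (Ψ w) ≤ (R : ℝ) + 1 := by
        have := (le_abs_self _).trans (hM _ hyK)
        have h2 : (R₁ : ℝ) ≤ R := by exact_mod_cast hR
        linarith
      rw [hχ1 R _ hy h1]
      have := hχ01 R₀ _ hy
      nlinarith
    · rw [hK₀0 _ hy hyK]
      have := sq_nonneg (χ R (Ψ w))
      simpa using this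
  have hlim : Tendsto (fun R : ℕ => 4 * |I| * C / ((R : ℝ) + 1) ^ 2) atTop (𝓝 0) := by
    refine tendsto_const_nhds.div_atTop ?_
    exact (tendsto_pow_atTop two_ne_zero).comp
      (tendsto_atTop_add_const_right _ _ tendsto_natCast_atTop_atTop)
  have hY : X R₀ = 0 := by
    refine le_antisymm ?_ (hX0 R₀)
    refine ge_of_tendsto hlim ?_
    filter_upwards [eventually_ge_atTop R₁] with R hR
    exact (hmono R hR).trans (hXle R)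
  have hzero := eq_zero_of_integral_hvol_eq_zero S.metric (cut_continuousOn S ha (hχs R₀) (hχc R₀)) (hd0 R₀)
    (cut_integrable S ha (hχs R₀) (hχc R₀)) hY _ hx₀
  rw [cut_kDens_eq S a (χ R₀) hx₀,
    kDens_eq (invariant_kw_fvIP S.metric ha (cut_isTestKV S ha (hχs R₀) (hχc R₀)).1) hΦ hz,
    cut_fvIP hg a (χ R₀) hΦ hz, hχ1 R₀ _ hx₀ (by linarith)] at hzero
  have hkw := kw_pos S.metric hΦ hz k
  have hexp := Real.exp_pos (-φ (Φ z))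
  have hqf : qf (g Φ z)⁻¹ (a Φ z) = 0 := by
    have : kw h k Φ z * Real.exp (-φ (Φ z)) * qf (g Φ z)⁻¹ (a Φ z) = 0 := by
      rw [← hzero]; ring
    rcases mul_eq_zero.1 this with h' | h'
    · exact absurd h' (mul_pos hkw hexp).ne'
    · exact h'
  have ha0 : a Φ z = 0 := by
    by_contra hne
    exact (qf_pos (hg.posDef hΦ z hz).inv hne).ne' hqf
  have := congrFun ha0 j
  rw [ha_def, cut_dbarS_sub hF hu hΦ hz] at this
  exact (sub_eq_zero.1 this).symm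

/-! ## The theorem -/

/-- the divergence of a test field is compactly supported. -/
theorem IsTestKV.exists_supp_kdiv {B : VFam V ι} (hB : IsTestKV 𝓜 k B) :
    ∃ K : Set V, IsCompact K ∧ K ⊆ 𝓜.carrier ∧ SFamSuppIn 𝓜 (kdiv h φ k B) K := by
  obtain ⟨K, hK, hKM, h0⟩ := hB.2
  exact ⟨K, hK, hKM, VFamSuppIn.kdiv hK.isClosed h0⟩

/-- **`L²` existence theorem for `∂̄`** (Andreotti-Vesentini, Hörmander, Demailly). -/
theorem l2_dbar (S : L2Setting 𝓜 g h φ k) (hρ : GoodExh 𝓜 g ρ) {F : SFam V ι} (hF : IsKSec 𝓜 k F)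
    {N : V → ℝ} (hN0 : ∀ x ∈ 𝓜.carrier, 0 ≤ N x)
    (hNint : Integrable (fun x => N x * Real.exp (-φ x)) (hvol 𝓜 h))
    (hdom : ∀ (Φ : CE ι → V) (U : Set (CE ι)), 𝓜.IsHol Φ U → ∀ z ∈ U, ∀ v : ι → ℂ,
      ‖∑ j, dzb j (F Φ) z * conj (v j)‖ ^ 2 * kw h k Φ z ≤ N (Φ z) * qf (curvF h φ k Φ z) v) :
    ∃ u : SFam V ι, IsKSec 𝓜 k u ∧
      (∀ (Φ : CE ι → V) (U : Set (CE ι)), 𝓜.IsHol Φ U → ∀ z ∈ U, ∀ j, dzb j (u Φ) z = dzb j (F Φ) z) ∧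
      Integrable (fun x => kNormSq 𝓜 h k u x * Real.exp (-φ x)) (hvol 𝓜 h) ∧
      ∫ x, kNormSq 𝓜 h k u x * Real.exp (-φ x) ∂(hvol 𝓜 h) ≤ ∫ x, N x * Real.exp (-φ x) ∂(hvol 𝓜 h) := by
  set I : ℝ := ∫ x, N x * Real.exp (-φ x) ∂(hvol 𝓜 h) with hI
  have hQ := isPsdOn_dirQ S
  have hDv := isPsdOn_divQ S
  have hℓ := isLinOn_pairQ S hF.dbarS
  have hI0 : 0 ≤ I := integral_hvol_nonneg fun x hx => mul_nonneg (hN0 x hx) (Real.exp_pos _).le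
  obtain ⟨w, hwD, hcau, hweak, hlim⟩ := exists_minimizing_seq hQ hℓ hI0
    (fun a ha => pairQ_sq_le S hF hN0 hNint hdom ha)
  obtain ⟨v, hv, hconv⟩ := exists_limit_section S hF.dbarS hwD hcau hweak
  have hsec : ∀ m, IsKSec 𝓜 k (kdiv h φ k (w m)) := fun m => (hwD m).1.kdiv S.metric S.smooth
  -- the norm of the limit
  have hnorm := secQ_le_of_tendstoL2Loc S.metric S.smooth hsec (fun m => integrable_kDens_kdiv S (hwD m))
    hv hconv (I := I) (fun ε hε => (hlim ε hε).mono fun m hm => by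
      have h1 : kInt 𝓜 h φ k (fun Φ z => ‖kdiv h φ k (w m) Φ z‖ ^ 2) = divQ 𝓜 h φ k (w m) (w m) :=
        (secQ_self (kdiv h φ k (w m))).symm
      rw [h1]
      exact (divQ_le_dirQ S (hwD m)).trans hm)
  -- the remainder form
  have hR : IsPsdOn (testKV 𝓜 k) (fun a b => dirQ 𝓜 g h φ k a b - divQ 𝓜 h φ k a b) :=
    hQ.sub hDv fun a ha => divQ_le_dirQ S ha
  have hest : ∀ B' ∈ testKV 𝓜 k, (pairQ 𝓜 h φ k (dbarS F) B' - pairQ 𝓜 h φ k (dbarS (-v)) B') ^ 2 ≤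
      I * curlQ 𝓜 g h φ k B' := by
    intro B' hB'
    obtain ⟨K, hK, hKM, hsupp⟩ := IsTestKV.exists_supp_kdiv (h := h) (φ := φ) hB'
    have ht : IsKSec 𝓜 k (kdiv h φ k B') := hB'.1.kdiv S.metric S.smooth
    have h1 : Tendsto (fun m => divQ 𝓜 h φ k (w m) B') atTop (𝓝 (secQ 𝓜 h φ k v (kdiv h φ k B'))) :=
      tendsto_secQ_of_tendstoL2Loc S.metric S.smooth hsec hv hconv ht hK hKM hsupp
    have h2 : secQ 𝓜 h φ k v (kdiv h φ k B') = pairQ 𝓜 h φ k (dbarS (-v)) B' := by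
      rw [secQ_symm, secQ_kdiv S.metric S.smooth hv hB', dbarS_neg, pairQ_neg_left]
    rw [h2] at h1
    have h3 : Tendsto (fun m => (dirQ 𝓜 g h φ k (w m) B' - divQ 𝓜 h φ k (w m) B') ^ 2) atTop
        (𝓝 ((pairQ 𝓜 h φ k (dbarS F) B' - pairQ 𝓜 h φ k (dbarS (-v)) B') ^ 2)) :=
      ((hweak B' hB').sub h1).pow 2
    have hc0 : 0 ≤ curlQ 𝓜 g h φ k B' := curlQ_nonneg S B'
    have hcurl : dirQ 𝓜 g h φ k B' B' - divQ 𝓜 h φ k B' B' = curlQ 𝓜 g h φ k B' := by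
      rw [bochner_kodaira S hB']; ring
    have h4 : ∀ ε : ℝ, 0 < ε → (pairQ 𝓜 h φ k (dbarS F) B' - pairQ 𝓜 h φ k (dbarS (-v)) B') ^ 2 ≤
        (I + ε) * curlQ 𝓜 g h φ k B' := by
      intro ε hε
      refine le_of_tendsto h3 ((hlim ε hε).mono fun m hm => ?_)
      have hcs := hR.cauchy_schwarz (hwD m) hB'
      rw [hcurl] at hcs
      refine hcs.trans (mul_le_mul_of_nonneg_right ?_ hc0)
      have := hDv.nonneg (w m) (hwD m)
      linarith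
    refine le_of_forall_pos_le_add fun ε hε => ?_
    by_cases hz : curlQ 𝓜 g h φ k B' = 0
    · have := h4 1 one_pos
      rw [hz] at this ⊢
      linarith
    · have hpos : 0 < curlQ 𝓜 g h φ k B' := lt_of_le_of_ne hc0 (Ne.symm hz)
      have := h4 (ε / curlQ 𝓜 g h φ k B') (div_pos hε hpos)
      rw [add_mul, div_mul_cancel₀ _ hz] at this
      exact this
  have hnv : ∀ x, kNormSq 𝓜 h k (-v) x * Real.exp (-φ x) = kDens 𝓜 h φ k (fun Φ z => ‖v Φ z‖ ^ 2) x := by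
    intro x
    simp [kNormSq, kDens, CMfd.scal]
  refine ⟨-v, hv.neg, dbar_eq_of_estimate S hρ hF hv.neg hest, ?_, ?_⟩
  · simp only [hnv]
    exact hnorm.1
  · simp only [hnv]
    exact hnorm.2

/-- the case of functions. -/
theorem l2_dbar_fun (S : L2Setting 𝓜 g h φ 0) (hρ : GoodExh 𝓜 g ρ) {F : V → ℂ} (hF : 𝓜.SmoothC F)
    {N : V → ℝ} (hN0 : ∀ x ∈ 𝓜.carrier, 0 ≤ N x)
    (hNint : Integrable (fun x => N x * Real.exp (-φ x)) (hvol 𝓜 h))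
    (hdom : ∀ (Φ : CE ι → V) (U : Set (CE ι)), 𝓜.IsHol Φ U → ∀ z ∈ U, ∀ v : ι → ℂ,
      ‖∑ j, dzb j (F ∘ Φ) z * conj (v j)‖ ^ 2 ≤ N (Φ z) * qf (curvF h φ 0 Φ z) v) :
    ∃ u : V → ℂ, 𝓜.SmoothC u ∧ 𝓜.HolFun (fun x => F x - u x) ∧
      Integrable (fun x => ‖u x‖ ^ 2 * Real.exp (-φ x)) (hvol 𝓜 h) ∧
      ∫ x, ‖u x‖ ^ 2 * Real.exp (-φ x) ∂(hvol 𝓜 h) ≤ ∫ x, N x * Real.exp (-φ x) ∂(hvol 𝓜 h) := by
  have hFs : IsKSec 𝓜 0 (fun Φ z => F (Φ z)) := isKSec_zero_of_smoothC hF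
  obtain ⟨us, hus, hd, hint, hle⟩ := l2_dbar S hρ hFs hN0 hNint (fun Φ U hΦ z hz v => by
    have := hdom Φ U hΦ z hz v
    simpa [kw, Function.comp_def] using this)
  obtain ⟨u, hu, hue⟩ := hus.exists_fun
  have hn : ∀ x ∈ 𝓜.carrier, kNormSq 𝓜 h 0 us x * Real.exp (-φ x) = ‖u x‖ ^ 2 * Real.exp (-φ x) := by
    intro x hx
    have e : us (𝓜.pΦ x) (𝓜.co x) = u x := by
      rw [hue _ _ (𝓜.isHol_pΦ hx) _ (𝓜.co_mem hx), 𝓜.pΦ_co hx]
    simp [kNormSq, CMfd.scal, kw, e]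
  refine ⟨u, hu, fun Φ U hΦ => ?_, (integrable_hvol_congr hn).1 hint, ?_⟩
  · have hU := 𝓜.isOpen_dom hΦ
    have hFd : DifferentiableOn ℝ (F ∘ Φ) U := (hF Φ U hΦ).differentiableOn (by simp)
    have hud : DifferentiableOn ℝ (u ∘ Φ) U := (hu Φ U hΦ).differentiableOn (by simp)
    refine differentiableOn_complex_of_dzb hU (hFd.sub hud) fun z hz j => ?_
    have hn := hU.mem_nhds hz
    have e1 : dzb j ((fun x => F x - u x) ∘ Φ) z = dzb j (F ∘ Φ) z - dzb j (u ∘ Φ) z :=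
      dzb_sub (hFd.differentiableAt hn) (hud.differentiableAt hn)
    have e2 : dzb j (u ∘ Φ) z = dzb j (us Φ) z := by
      refine dzb_congr ?_
      filter_upwards [hn] with w hw
      exact (hue Φ U hΦ w hw).symm
    rw [e1, e2, hd Φ U hΦ z hz j]
    exact sub_self _
  · rw [← integral_hvol_congr hn]
    exact hle

end Claimed.Agent.R316
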