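import Claimed.Agent.R316.Pack018
import Claimed.Agent.R316.CW.MatAlg

/-!
# Row 316, `BP-G11`, leaf `G11-ALG`: pointwise matrix algebra of `qfB`, `fvIP`, `nbIP`, `swIP`, `twoSq`

Everything is finite dimensional linear algebra over `ℂ` (no analysis).  Tools: `CW/MatAlg.lean`, `Matrix.PosDef` API (`PosDef.inv`, `posDef_iff…`,
`Matrix.PosSemidef.sqrt` or `CFC.sqrt`, or a factorisation `G = Eᴴ E` (`Matrix.posSemidef_iff_eq_conjTranspose_mul_self`)).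
HINT for all positivity statements: write `G⁻¹ = P Pᴴ`… or `G = Eᴴ E`, `E` invertible; then
`nbIP G N N' = Re tr (X X'ᴴ)` with `X = E⁻ᴴ N Eᵀ` (Frobenius inner product), `swIP N N' = Re tr (X \bar{X'})`…, `twoSq G C = ½ ‖E⁻ᴴ C \bar E⁻¹‖²_F`.
-/

set_option autoImplicit false
set_option linter.unusedSectionVars false
open scoped ContDiff ComplexOrder ComplexConjugate Topology
open Filter Matrix

namespace Claimed.Agent.R316

variable {ι : Type} [Fintype ι] [DecidableEq ι]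

/-! ### `qfB`, `fvIP` -/

theorem qfB_self (A : Matrix ι ι ℂ) (v : ι → ℂ) : qfB A v v = qf A v := rfl

theorem qfB_add_left (A : Matrix ι ι ℂ) (a a' b : ι → ℂ) : qfB A (a + a') b = qfB A a b + qfB A a' b := by
  simp only [qfB, Matrix.mulVec_add, dotProduct_add, Complex.add_re]

theorem qfB_smul_left (A : Matrix ι ι ℂ) (t : ℝ) (a b : ι → ℂ) : qfB A (t • a) b = t * qfB A a b := by
  simp only [qfB, Matrix.mulVec_smul, dotProduct_smul, Complex.real_smul, Complex.re_ofReal_mul]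

theorem qfB_symm {A : Matrix ι ι ℂ} (hA : A.IsHermitian) (a b : ι → ℂ) : qfB A a b = qfB A b a := by
  have h : star b ⬝ᵥ A.mulVec a = conj (star a ⬝ᵥ A.mulVec b) := by
    rw [← Complex.star_def, ← Matrix.star_dotProduct, Matrix.star_mulVec, hA.eq,
      ← Matrix.dotProduct_mulVec]
  simp only [qfB, h, Complex.conj_re]

theorem fvIP_add_right (β a a' : ι → ℂ) : fvIP β (a + a') = fvIP β a + fvIP β a' := by
  simp only [fvIP, Pi.add_apply, map_add, mul_add, Finset.sum_add_distrib, Complex.add_re]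

theorem fvIP_smul_right (β : ι → ℂ) (t : ℝ) (a : ι → ℂ) : fvIP β (t • a) = t * fvIP β a := by
  have : ∀ j, β j * conj ((t • a) j) = (t : ℂ) * (β j * conj (a j)) := by
    intro j
    simp only [Pi.smul_apply, Complex.real_smul, map_mul, Complex.conj_ofReal]
    ring
  simp only [fvIP, this, ← Finset.mul_sum, Complex.re_ofReal_mul]

theorem fvIP_eq (β a : ι → ℂ) : fvIP β a = (star a ⬝ᵥ β).re := by
  simp only [fvIP, dotProduct, Pi.star_apply, Complex.star_def]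
  congr 1
  exact Finset.sum_congr rfl fun j _ => mul_comm _ _

/-- `⟨a, G⁻¹ a⟩ = |a|²_{G⁻¹}`. -/
theorem fvIP_raise {G : Matrix ι ι ℂ} (hG : G.PosDef) (a : ι → ℂ) : fvIP a (G⁻¹.mulVec a) = qf G⁻¹ a := by
  have hI : (G⁻¹).IsHermitian := hG.inv.isHermitian
  rw [fvIP_eq, qf, Matrix.star_mulVec, hI.eq, ← Matrix.dotProduct_mulVec]

theorem fvIP_le_norm (β a : ι → ℂ) : |fvIP β a| ≤ ‖∑ j, β j * conj (a j)‖ :=
  Complex.abs_re_le_norm _

/-! ### `nbIP`, `swIP` -/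

theorem nbIP_add_left (G N N₁ N' : Matrix ι ι ℂ) : nbIP G (N + N₁) N' = nbIP G N N' + nbIP G N₁ N' := by
  simp only [nbIP, Matrix.mul_add, Matrix.add_mul, Matrix.trace_add, Complex.add_re]

theorem nbIP_smul_left (G : Matrix ι ι ℂ) (t : ℝ) (N N' : Matrix ι ι ℂ) : nbIP G (t • N) N' = t * nbIP G N N' := by
  simp only [nbIP, Matrix.mul_smul, Matrix.smul_mul, Matrix.trace_smul, Complex.real_smul,
    Complex.re_ofReal_mul]

theorem nbIP_symm {G : Matrix ι ι ℂ} (hG : G.IsHermitian) (N N' : Matrix ι ι ℂ) : nbIP G N N' = nbIP G N' N := by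
  have hI : (G⁻¹)ᴴ = G⁻¹ := hG.inv.eq
  have hT : (Gᵀ)ᴴ = Gᵀ := hG.transpose.eq
  have h : (G⁻¹ * N' * Gᵀ * Nᴴ).trace = conj ((G⁻¹ * N * Gᵀ * N'ᴴ).trace) := by
    rw [← Complex.star_def, ← Matrix.trace_conjTranspose]
    simp only [Matrix.conjTranspose_mul, Matrix.conjTranspose_conjTranspose, hI, hT]
    have e1 : G⁻¹ * N' * Gᵀ * Nᴴ = G⁻¹ * (N' * Gᵀ * Nᴴ) := by simp only [Matrix.mul_assoc]
    have e2 : N' * (Gᵀ * (Nᴴ * G⁻¹)) = (N' * Gᵀ * Nᴴ) * G⁻¹ := by simp only [Matrix.mul_assoc]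
    rw [e1, e2, Matrix.trace_mul_comm]
  simp only [nbIP, h, Complex.conj_re]

theorem nbIP_self_nonneg {G : Matrix ι ι ℂ} (hG : G.PosDef) (N : Matrix ι ι ℂ) : 0 ≤ nbIP G N N := by
  have h1 : (N * Gᵀ * Nᴴ).PosSemidef := hG.transpose.posSemidef.mul_mul_conjTranspose_same N
  have h2 := trace_mul_nonneg hG.inv.posSemidef h1
  simpa only [nbIP, Matrix.mul_assoc] using h2

theorem trace_conjTranspose_mul_self_re (N : Matrix ι ι ℂ) :
    (Nᴴ * N).trace.re = ∑ l, ∑ j, ‖N l j‖ ^ 2 := by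
  simp only [Matrix.trace, Matrix.diag_apply, Matrix.mul_apply, Matrix.conjTranspose_apply,
    Complex.re_sum]
  rw [Finset.sum_comm]
  refine Finset.sum_congr rfl fun l _ => Finset.sum_congr rfl fun j _ => ?_
  rw [Complex.star_def, ← Complex.normSq_eq_conj_mul_self, Complex.ofReal_re,
    Complex.normSq_eq_norm_sq]

/-- quantitative positivity: if `a·1 ≤ G ≤ A·1` then `|N|²_G ≥ (a/A) ∑ |N_{lj}|²`. -/
theorem nbIP_self_ge {G : Matrix ι ι ℂ} {a A : ℝ} (ha : 0 < a) (hA : 0 < A)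
    (h1 : (G - ((a : ℝ) : ℂ) • (1 : Matrix ι ι ℂ)).PosSemidef)
    (h2 : (((A : ℝ) : ℂ) • (1 : Matrix ι ι ℂ) - G).PosSemidef) (N : Matrix ι ι ℂ) :
    a / A * ∑ l, ∑ j, ‖N l j‖ ^ 2 ≤ nbIP G N N := by
  have hG : G.PosDef := posDef_of_loewner (posDef_smul_real ha Matrix.PosDef.one) h1
  have hP : (N * Gᵀ * Nᴴ).PosSemidef := hG.transpose.posSemidef.mul_mul_conjTranspose_same N
  have h3 := loewner_inv_anti hG h2
  have hAinv : (((A : ℝ) : ℂ) • (1 : Matrix ι ι ℂ))⁻¹ = (((A⁻¹ : ℝ)) : ℂ) • (1 : Matrix ι ι ℂ) := by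
    apply Matrix.inv_eq_left_inv
    rw [Matrix.smul_mul, Matrix.mul_smul, Matrix.one_mul, smul_smul, ← Complex.ofReal_mul,
      inv_mul_cancel₀ hA.ne', Complex.ofReal_one, one_smul]
  rw [hAinv] at h3
  have h4 := trace_mul_mono_left hP h3
  rw [Matrix.smul_mul, Matrix.one_mul, Matrix.trace_smul, smul_eq_mul, Complex.re_ofReal_mul] at h4
  have hT : (Gᵀ - ((a : ℝ) : ℂ) • (1 : Matrix ι ι ℂ)).PosSemidef := by
    have := h1.transpose
    rwa [Matrix.transpose_sub, Matrix.transpose_smul, Matrix.transpose_one] at this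
  have hNN : (Nᴴ * N).PosSemidef := Matrix.posSemidef_conjTranspose_mul_self N
  have h5 := trace_mul_mono_left hNN hT
  rw [Matrix.smul_mul, Matrix.one_mul, Matrix.trace_smul, smul_eq_mul, Complex.re_ofReal_mul,
    trace_conjTranspose_mul_self_re] at h5
  have h6 : (N * Gᵀ * Nᴴ).trace = (Gᵀ * (Nᴴ * N)).trace := by
    rw [Matrix.mul_assoc, Matrix.trace_mul_comm, Matrix.mul_assoc]
  rw [h6] at h4
  have h7 : nbIP G N N = (G⁻¹ * (N * Gᵀ * Nᴴ)).trace.re := by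
    simp only [nbIP, Matrix.mul_assoc]
  rw [h7]
  have hAi : 0 < A⁻¹ := inv_pos.2 hA
  calc a / A * ∑ l, ∑ j, ‖N l j‖ ^ 2 = A⁻¹ * (a * ∑ l, ∑ j, ‖N l j‖ ^ 2) := by
        rw [div_eq_mul_inv]; ring
    _ ≤ A⁻¹ * (Gᵀ * (Nᴴ * N)).trace.re := mul_le_mul_of_nonneg_left h5 hAi.le
    _ ≤ _ := h4

theorem swIP_eq_trace (N N' : Matrix ι ι ℂ) : swIP N N' = (Nᵀ * N'ᴴ).trace.re := by
  simp only [swIP, Matrix.trace, Matrix.diag_apply, Matrix.mul_apply, Matrix.transpose_apply,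
    Matrix.conjTranspose_apply, Complex.star_def]

/-- **the algebraic half of Bochner-Kodaira**: `|M|² - ⟨M, Mᵀ⟩ = ½ |M - Mᵀ|²`, `M = N Gᵀ`. -/
theorem nbIP_sub_swIP {G : Matrix ι ι ℂ} (hG : G.PosDef) (N : Matrix ι ι ℂ) :
    nbIP G N N - swIP N N = twoSq G (N * G.transpose - G * N.transpose) := by
  have hH : Gᴴ = G := hG.isHermitian.eq
  have hT : (Gᵀ)ᴴ = Gᵀ := hG.isHermitian.transpose.eq
  have hu : IsUnit G.det := (Matrix.isUnit_iff_isUnit_det G).1 hG.isUnit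
  have hGi : G⁻¹ * G = 1 := Matrix.nonsing_inv_mul G hu
  have hGi' : G * G⁻¹ = 1 := Matrix.mul_nonsing_inv G hu
  have hTi : Gᵀ * (G⁻¹)ᵀ = 1 := by rw [← Matrix.transpose_mul, hGi, Matrix.transpose_one]
  have hTi' : (G⁻¹)ᵀ * Gᵀ = 1 := by rw [← Matrix.transpose_mul, hGi', Matrix.transpose_one]
  set T1 := (G⁻¹ * N * Gᵀ * Nᴴ).trace with hT1
  set T2 := (Nᵀ * Nᴴ).trace with hT2
  have e1 : (G⁻¹ * (N * Gᵀ) * (G⁻¹)ᵀ * (N * Gᵀ)ᴴ).trace = T1 := by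
    rw [Matrix.conjTranspose_mul, hT, hT1]
    congr 1
    calc G⁻¹ * (N * Gᵀ) * (G⁻¹)ᵀ * (Gᵀ * Nᴴ) = G⁻¹ * N * (Gᵀ * (G⁻¹)ᵀ) * Gᵀ * Nᴴ := by
          simp only [Matrix.mul_assoc]
      _ = G⁻¹ * N * Gᵀ * Nᴴ := by rw [hTi, Matrix.mul_one]
  have e2 : (G⁻¹ * (N * Gᵀ) * (G⁻¹)ᵀ * (G * Nᵀ)ᴴ).trace = conj T2 := by
    rw [Matrix.conjTranspose_mul, hH]
    have : G⁻¹ * (N * Gᵀ) * (G⁻¹)ᵀ * ((Nᵀ)ᴴ * G) = G⁻¹ * (N * (Nᵀ)ᴴ * G) := by
      calc G⁻¹ * (N * Gᵀ) * (G⁻¹)ᵀ * ((Nᵀ)ᴴ * G) = G⁻¹ * (N * (Gᵀ * (G⁻¹)ᵀ) * (Nᵀ)ᴴ * G) := by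
            simp only [Matrix.mul_assoc]
        _ = _ := by rw [hTi, Matrix.mul_one]
    rw [this, Matrix.trace_mul_comm, Matrix.mul_assoc, hGi', Matrix.mul_one, hT2,
      ← Complex.star_def, ← Matrix.trace_conjTranspose, Matrix.conjTranspose_mul,
      Matrix.conjTranspose_conjTranspose]
  have e3 : (G⁻¹ * (G * Nᵀ) * (G⁻¹)ᵀ * (N * Gᵀ)ᴴ).trace = T2 := by
    rw [Matrix.conjTranspose_mul, hT, hT2]
    congr 1
    calc G⁻¹ * (G * Nᵀ) * (G⁻¹)ᵀ * (Gᵀ * Nᴴ) = (G⁻¹ * G) * Nᵀ * ((G⁻¹)ᵀ * Gᵀ) * Nᴴ := by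
          simp only [Matrix.mul_assoc]
      _ = Nᵀ * Nᴴ := by rw [hGi, hTi', Matrix.one_mul, Matrix.mul_one]
  have e4 : (G⁻¹ * (G * Nᵀ) * (G⁻¹)ᵀ * (G * Nᵀ)ᴴ).trace = T1 := by
    rw [Matrix.conjTranspose_mul, hH]
    have : G⁻¹ * (G * Nᵀ) * (G⁻¹)ᵀ * ((Nᵀ)ᴴ * G) = Nᵀ * (G⁻¹)ᵀ * (Nᵀ)ᴴ * G := by
      calc G⁻¹ * (G * Nᵀ) * (G⁻¹)ᵀ * ((Nᵀ)ᴴ * G) = (G⁻¹ * G) * Nᵀ * (G⁻¹)ᵀ * (Nᵀ)ᴴ * G := by
            simp only [Matrix.mul_assoc]
        _ = _ := by rw [hGi, Matrix.one_mul]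
    rw [this, ← Matrix.trace_transpose, hT1]
    simp only [Matrix.transpose_mul, Matrix.transpose_transpose]
    have h5 : ((Nᵀ)ᴴ)ᵀ = Nᴴ := by
      ext i j; simp [Matrix.conjTranspose_apply]
    rw [h5, Matrix.trace_mul_comm]
    simp only [Matrix.mul_assoc]
    rw [Matrix.trace_mul_comm]
    simp only [Matrix.mul_assoc]
  have key : (G⁻¹ * (N * Gᵀ - G * Nᵀ) * (G⁻¹)ᵀ * (N * Gᵀ - G * Nᵀ)ᴴ).trace = T1 - conj T2 - T2 + T1 := by
    rw [Matrix.conjTranspose_sub]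
    simp only [Matrix.mul_sub, Matrix.sub_mul, Matrix.trace_sub]
    rw [e1, e2, e3, e4]
    ring
  simp only [twoSq, key, nbIP, swIP_eq_trace, ← hT1, ← hT2, Complex.add_re, Complex.sub_re,
    Complex.conj_re]
  ring

theorem twoSq_nonneg {G : Matrix ι ι ℂ} (hG : G.PosDef) (C : Matrix ι ι ℂ) : 0 ≤ twoSq G C := by
  have h1 : (C * (G⁻¹)ᵀ * Cᴴ).PosSemidef := hG.inv.transpose.posSemidef.mul_mul_conjTranspose_same C
  have h2 := trace_mul_nonneg hG.inv.posSemidef h1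
  have h3 : 0 ≤ (G⁻¹ * C * (G⁻¹)ᵀ * Cᴴ).trace.re := by simpa only [Matrix.mul_assoc] using h2
  simp only [twoSq]
  positivity

theorem swIP_le_nbIP {G : Matrix ι ι ℂ} (hG : G.PosDef) (N : Matrix ι ι ℂ) : swIP N N ≤ nbIP G N N := by
  have := nbIP_sub_swIP hG N
  have h2 := twoSq_nonneg hG (N * G.transpose - G * N.transpose)
  linarith

theorem trace_rank_one (H : Matrix ι ι ℂ) (u v w x : ι → ℂ) :
    (H * Matrix.vecMulVec u v * Hᵀ * (Matrix.vecMulVec w x)ᴴ).trace =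
      (star x ⬝ᵥ (H *ᵥ v)) * (star w ⬝ᵥ (H *ᵥ u)) := by
  rw [Matrix.conjTranspose_vecMulVec, Matrix.mul_vecMulVec H u v, Matrix.vecMulVec_mul,
    Matrix.vecMulVec_mul_vecMulVec, Matrix.trace_vecMulVec, dotProduct_smul, smul_eq_mul,
    Matrix.vecMul_transpose, dotProduct_comm (H *ᵥ v), dotProduct_comm (H *ᵥ u)]

/-- `|ξ ∧ a|² = |ξ|² |a|² - |⟨ξ,a⟩|² ≤ |ξ|² |a|²`. -/
theorem twoSq_wedge_le {G : Matrix ι ι ℂ} (hG : G.PosDef) (ξ a : ι → ℂ) :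
    twoSq G (fun l k => ξ l * a k - ξ k * a l) ≤ qf G⁻¹ ξ * qf G⁻¹ a := by
  have hH : (G⁻¹).IsHermitian := hG.inv.isHermitian
  have hC : (fun l k => ξ l * a k - ξ k * a l : Matrix ι ι ℂ)
      = Matrix.vecMulVec ξ a - Matrix.vecMulVec a ξ := by
    ext l k
    simp [Matrix.vecMulVec_apply, mul_comm]
  have hc : star ξ ⬝ᵥ (G⁻¹ *ᵥ a) = conj (star a ⬝ᵥ (G⁻¹ *ᵥ ξ)) := by
    rw [← Complex.star_def, ← Matrix.star_dotProduct, Matrix.star_mulVec, hH.eq,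
      ← Matrix.dotProduct_mulVec]
  have key : (G⁻¹ * (Matrix.vecMulVec ξ a - Matrix.vecMulVec a ξ) * (G⁻¹)ᵀ *
      (Matrix.vecMulVec ξ a - Matrix.vecMulVec a ξ)ᴴ).trace
      = 2 * ((qf G⁻¹ ξ * qf G⁻¹ a : ℝ) : ℂ) - 2 * ((‖star a ⬝ᵥ (G⁻¹ *ᵥ ξ)‖ ^ 2 : ℝ) : ℂ) := by
    rw [Matrix.conjTranspose_sub]
    simp only [Matrix.mul_sub, Matrix.sub_mul, Matrix.trace_sub, trace_rank_one]
    rw [Complex.ofReal_mul, qf_ofReal ξ hH, qf_ofReal a hH, hc, ← Complex.normSq_eq_norm_sq,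
      Complex.normSq_eq_conj_mul_self]
    ring
  rw [hC]
  unfold twoSq
  rw [key]
  have : (2 * ((qf G⁻¹ ξ * qf G⁻¹ a : ℝ) : ℂ) - 2 * ((‖star a ⬝ᵥ (G⁻¹ *ᵥ ξ)‖ ^ 2 : ℝ) : ℂ)).re
      = 2 * (qf G⁻¹ ξ * qf G⁻¹ a) - 2 * ‖star a ⬝ᵥ (G⁻¹ *ᵥ ξ)‖ ^ 2 := by
    simp only [Complex.sub_re, Complex.mul_re, Complex.ofReal_re, Complex.ofReal_im, Complex.re_ofNat,
      Complex.im_ofNat]
    ring
  rw [this]
  have h0 : 0 ≤ ‖star a ⬝ᵥ (G⁻¹ *ᵥ ξ)‖ ^ 2 := by positivity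
  linarith

theorem twoSq_smul (G C : Matrix ι ι ℂ) (t : ℝ) : twoSq G (t • C) = t ^ 2 * twoSq G C := by
  simp only [twoSq, Matrix.conjTranspose_smul, star_trivial, Matrix.mul_smul, Matrix.smul_mul,
    Matrix.trace_smul, Complex.smul_re, smul_eq_mul]
  ring

/-- `|∂̄χ|²_g = gradSq`: `qf G⁻¹ (conj ξ) = qf G⁻¹ᵀ ξ`. -/
theorem qf_inv_conj (G : Matrix ι ι ℂ) (ξ : ι → ℂ) :
    qf G⁻¹ (fun j => conj (ξ j)) = qf G⁻¹.transpose ξ := by
  rw [qf_transpose]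
  rfl

/-- Cauchy-Schwarz in Demailly's form: from `|⟨β,v⟩|² w ≤ N Θ(v,v)` to the integrand estimate. -/
theorem fvIP_mul_le_sqrt {β a : ι → ℂ} {w N q : ℝ} (hw : 0 < w) (hN : 0 ≤ N) (hq : 0 ≤ q)
    (h : ‖∑ j, β j * conj (a j)‖ ^ 2 * w ≤ N * q) :
    |w * fvIP β a| ≤ Real.sqrt N * Real.sqrt (w * q) := by
  have h1 := fvIP_le_norm β a
  set S := ‖∑ j, β j * conj (a j)‖ with hS
  have hS0 : 0 ≤ S := norm_nonneg _
  rw [abs_mul, abs_of_pos hw, ← Real.sqrt_mul hN]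
  apply Real.le_sqrt_of_sq_le
  have h2 : (w * |fvIP β a|) ^ 2 ≤ (w * S) ^ 2 := by
    apply pow_le_pow_left₀ (by positivity)
    exact mul_le_mul_of_nonneg_left h1 hw.le
  calc (w * |fvIP β a|) ^ 2 ≤ (w * S) ^ 2 := h2
    _ = w * (S ^ 2 * w) := by ring
    _ ≤ w * (N * q) := mul_le_mul_of_nonneg_left h hw.le
    _ = N * (w * q) := by ring

/-! ## Leaf `G11-HILB`: Riesz representation on a pre-Hilbert space, in sequence form

No completion, no quotient: `D` is a real vector space (a submodule of an ambient function space `X`), `Q` a positive SEMIdefinite symmetric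
bilinear form on `D`, `ℓ` a linear functional with `ℓ(a)² ≤ I Q(a,a)`.

`exists_minimizing_seq`.  PLAN.  `J(a) = Q(a,a) - 2 ℓ(a) ≥ Q - 2 √(I Q) ≥ -I` on `D`; `m₀ = inf_D J` (`sInf` of a nonempty set bounded below), choose
`w_m ∈ D` with `J(w_m) ≤ m₀ + 1/(m+1)`.
* Cauchy: parallelogram `Q(a-b,a-b) = 2 J(a) + 2 J(b) - 4 J((a+b)/2) ≤ 2 (J a - m₀) + 2 (J b - m₀)`.
* weak equation: for `b ∈ D`, `t : ℝ`: `m₀ ≤ J(w + t b) = J(w) + 2 t (Q(w,b) - ℓ b) + t² Q(b,b)`, so the quadratic polynomial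
  `t² Q(b,b) + 2 t (Q(w,b) - ℓ b) + ε_m` is `≥ 0` for all `t`: `(Q(w,b) - ℓ b)² ≤ ε_m Q(b,b)` (`discrim_le_zero`; if `Q(b,b) = 0` the linear term must vanish).
* bound: with `b = w_m`: `|Q(w,w) - ℓ w| ≤ √(ε_m Q(w,w))` and `ℓ w ≤ √(I Q(w,w))`, so `q = √Q(w_m,w_m)` satisfies `q² ≤ (√I + √ε_m) q`, `q ≤ √I + √ε_m`.
-/

section hilb

variable {X : Type*} [AddCommGroup X] [Module ℝ X]

/-- `Q` is a symmetric positive semidefinite bilinear form on `D`. -/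
structure IsPsdOn (D : Submodule ℝ X) (Q : X → X → ℝ) : Prop where
  add_left : ∀ a ∈ D, ∀ b ∈ D, ∀ c ∈ D, Q (a + b) c = Q a c + Q b c
  smul_left : ∀ t : ℝ, ∀ a ∈ D, ∀ c ∈ D, Q (t • a) c = t * Q a c
  symm : ∀ a ∈ D, ∀ b ∈ D, Q a b = Q b a
  nonneg : ∀ a ∈ D, 0 ≤ Q a a

/-- `ℓ` is linear on `D`. -/
structure IsLinOn (D : Submodule ℝ X) (ℓ : X → ℝ) : Prop where
  add : ∀ a ∈ D, ∀ b ∈ D, ℓ (a + b) = ℓ a + ℓ b
  smul : ∀ t : ℝ, ∀ a ∈ D, ℓ (t • a) = t * ℓ a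

variable {D : Submodule ℝ X} {Q Q' : X → X → ℝ} {ℓ : X → ℝ}

theorem IsPsdOn.expand (h : IsPsdOn D Q) {a b : X} (ha : a ∈ D) (hb : b ∈ D) (t : ℝ) :
    Q (a + t • b) (a + t • b) = Q a a + 2 * t * Q a b + t ^ 2 * Q b b := by
  have htb : t • b ∈ D := D.smul_mem t hb
  have hs : a + t • b ∈ D := D.add_mem ha htb
  rw [h.add_left a ha _ htb _ hs, h.smul_left t b hb _ hs, h.symm a ha _ hs, h.symm b hb _ hs,
    h.add_left a ha _ htb _ ha, h.add_left a ha _ htb _ hb, h.smul_left t b hb _ ha,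
    h.smul_left t b hb _ hb, h.symm b hb a ha]
  ring

/-- Cauchy-Schwarz for positive semidefinite forms. -/
theorem IsPsdOn.cauchy_schwarz (h : IsPsdOn D Q) {a b : X} (ha : a ∈ D) (hb : b ∈ D) :
    Q a b ^ 2 ≤ Q a a * Q b b := by
  have key : ∀ t : ℝ, 0 ≤ Q b b * (t * t) + (2 * Q a b) * t + Q a a := by
    intro t
    have h1 := h.nonneg (a + t • b) (D.add_mem ha (D.smul_mem t hb))
    rw [h.expand ha hb] at h1
    nlinarith
  have := discrim_le_zero key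
  rw [discrim] at this
  nlinarith

/-- the difference of two forms is positive semidefinite if it is so on the diagonal. -/
theorem IsPsdOn.sub (h : IsPsdOn D Q) (h' : IsPsdOn D Q') (hle : ∀ a ∈ D, Q' a a ≤ Q a a) :
    IsPsdOn D (fun a b => Q a b - Q' a b) := by
  refine ⟨fun a ha b hb c hc => ?_, fun t a ha c hc => ?_, fun a ha b hb => ?_, fun a ha => ?_⟩
  · simp only [h.add_left a ha b hb c hc, h'.add_left a ha b hb c hc]; ring
  · simp only [h.smul_left t a ha c hc, h'.smul_left t a ha c hc]; ring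
  · simp only [h.symm a ha b hb, h'.symm a ha b hb]
  · have := hle a ha
    show 0 ≤ Q a a - Q' a a
    linarith

/-- **Riesz, sequence form.** -/
theorem exists_minimizing_seq (hQ : IsPsdOn D Q) (hℓ : IsLinOn D ℓ) {I : ℝ} (hI : 0 ≤ I)
    (hbd : ∀ a ∈ D, ℓ a ^ 2 ≤ I * Q a a) :
    ∃ w : ℕ → X, (∀ m, w m ∈ D) ∧
      (∀ ε : ℝ, 0 < ε → ∃ M : ℕ, ∀ m ≥ M, ∀ l ≥ M, Q (w m - w l) (w m - w l) ≤ ε) ∧
      (∀ b ∈ D, Tendsto (fun m => Q (w m) b) atTop (𝓝 (ℓ b))) ∧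
      (∀ ε : ℝ, 0 < ε → ∀ᶠ m in atTop, Q (w m) (w m) ≤ I + ε) := by
  classical
  set J : X → ℝ := fun a => Q a a - 2 * ℓ a with hJ
  have hJlow : ∀ a ∈ D, -I ≤ J a := by
    intro a ha
    have h1 := hbd a ha
    have h2 := hQ.nonneg a ha
    have h3 : (2 * ℓ a) ^ 2 ≤ (I + Q a a) ^ 2 := by nlinarith [sq_nonneg (I - Q a a)]
    have h4 : 2 * ℓ a ≤ I + Q a a := by
      have := abs_le_of_sq_le_sq' h3 (by linarith)
      exact this.2
    simp only [hJ]; linarith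
  set S : Set ℝ := J '' (D : Set X) with hS
  have hSne : S.Nonempty := ⟨J 0, 0, D.zero_mem, rfl⟩
  have hSbdd : BddBelow S := ⟨-I, by rintro _ ⟨a, ha, rfl⟩; exact hJlow a ha⟩
  set m₀ := sInf S with hm₀
  have hm₀le : ∀ a ∈ D, m₀ ≤ J a := fun a ha => csInf_le hSbdd ⟨a, ha, rfl⟩
  have hm₀I : -I ≤ m₀ := le_csInf hSne (by rintro _ ⟨a, ha, rfl⟩; exact hJlow a ha)
  have hch : ∀ m : ℕ, ∃ a ∈ D, J a < m₀ + 1 / ((m : ℝ) + 1) := by
    intro m
    have hpos : (0 : ℝ) < 1 / ((m : ℝ) + 1) := by positivity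
    obtain ⟨y, ⟨a, ha, rfl⟩, hy⟩ := exists_lt_of_csInf_lt hSne (lt_add_of_pos_right m₀ hpos)
    exact ⟨a, ha, hy⟩
  choose w hwD hw using hch
  have he0 : Tendsto (fun m : ℕ => 1 / ((m : ℝ) + 1)) atTop (𝓝 0) := tendsto_one_div_add_atTop_nhds_zero_nat
  -- the weak equation, quantitative
  have hweakq : ∀ m, ∀ b ∈ D, (Q (w m) b - ℓ b) ^ 2 ≤ (1 / ((m : ℝ) + 1)) * Q b b := by
    intro m b hb
    have key : ∀ t : ℝ, 0 ≤ Q b b * (t * t) + (2 * (Q (w m) b - ℓ b)) * t + (J (w m) - m₀) := by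
      intro t
      have h1 := hm₀le (w m + t • b) (D.add_mem (hwD m) (D.smul_mem t hb))
      simp only [hJ] at h1 ⊢
      rw [hQ.expand (hwD m) hb, hℓ.add _ (hwD m) _ (D.smul_mem t hb), hℓ.smul t b hb] at h1
      nlinarith
    have hd := discrim_le_zero key
    rw [discrim] at hd
    have h2 := hQ.nonneg b hb
    have h3 := hw m
    nlinarith
  refine ⟨w, hwD, ?_, ?_, ?_⟩
  · intro ε hε
    obtain ⟨M, hM⟩ := (Metric.tendsto_atTop.1 he0) (ε / 4) (by positivity)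
    refine ⟨M, fun m hm l hl => ?_⟩
    have h1 : 1 / ((m : ℝ) + 1) < ε / 4 := by
      have := hM m hm
      rw [Real.dist_eq, sub_zero, abs_of_pos (by positivity)] at this
      exact this
    have h2 : 1 / ((l : ℝ) + 1) < ε / 4 := by
      have := hM l hl
      rw [Real.dist_eq, sub_zero, abs_of_pos (by positivity)] at this
      exact this
    have ha := hwD m
    have hb := hwD l
    have hmid : (1 / 2 : ℝ) • (w m + w l) ∈ D := D.smul_mem _ (D.add_mem ha hb)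
    have h3 := hm₀le _ hmid
    have e1 : Q (w m - w l) (w m - w l) = Q (w m) (w m) - 2 * Q (w m) (w l) + Q (w l) (w l) := by
      have := hQ.expand ha hb (-1)
      rw [neg_one_smul, ← sub_eq_add_neg] at this
      rw [this]; ring
    have e2 : Q (w m + w l) (w m + w l) = Q (w m) (w m) + 2 * Q (w m) (w l) + Q (w l) (w l) := by
      have := hQ.expand ha hb 1
      rw [one_smul] at this
      rw [this]; ring
    have e3 : J ((1 / 2 : ℝ) • (w m + w l)) = (1 / 4) * Q (w m + w l) (w m + w l) - (ℓ (w m) + ℓ (w l)) := by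
      simp only [hJ]
      have hs := D.add_mem ha hb
      rw [hQ.smul_left _ _ hs _ hmid, hQ.symm _ hs _ hmid, hQ.smul_left _ _ hs _ hs, hℓ.smul _ _ hs,
        hℓ.add _ ha _ hb]
      ring
    have h4 := hw m
    have h5 := hw l
    simp only [hJ] at h4 h5
    rw [e3, e2] at h3
    rw [e1]
    linarith
  · intro b hb
    rw [Metric.tendsto_atTop]
    intro ε hε
    have h2 := hQ.nonneg b hb
    have ht : Tendsto (fun m : ℕ => (1 / ((m : ℝ) + 1)) * Q b b) atTop (𝓝 0) := by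
      simpa using he0.mul_const (Q b b)
    obtain ⟨M, hM⟩ := (Metric.tendsto_atTop.1 ht) (ε ^ 2) (by positivity)
    refine ⟨M, fun m hm => ?_⟩
    have h1 := hM m hm
    rw [Real.dist_eq, sub_zero, abs_of_nonneg (by positivity)] at h1
    rw [Real.dist_eq]
    have h3 := hweakq m b hb
    exact abs_lt_of_sq_lt_sq (lt_of_le_of_lt h3 h1) hε.le
  · intro ε hε
    -- `q ≤ I + 2 √(e q)`
    have hq : ∀ m, Q (w m) (w m) ≤ (Real.sqrt I + Real.sqrt (1 / ((m : ℝ) + 1))) ^ 2 := by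
      intro m
      set q := Q (w m) (w m) with hqd
      set e : ℝ := 1 / ((m : ℝ) + 1) with hed
      have he : 0 ≤ e := by positivity
      have hq0 : 0 ≤ q := hQ.nonneg _ (hwD m)
      have h1 : (q - ℓ (w m)) ^ 2 ≤ e * q := hweakq m _ (hwD m)
      have h2 : ℓ (w m) ^ 2 ≤ I * q := hbd _ (hwD m)
      set s := Real.sqrt q with hs
      have hs2 : s ^ 2 = q := Real.sq_sqrt hq0
      have hs0 : 0 ≤ s := Real.sqrt_nonneg _
      have h3 : q - ℓ (w m) ≤ Real.sqrt e * s := by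
        rw [← Real.sqrt_mul he]
        exact Real.le_sqrt_of_sq_le h1
      have h4 : ℓ (w m) ≤ Real.sqrt I * s := by
        rw [← Real.sqrt_mul hI]
        exact Real.le_sqrt_of_sq_le h2
      have h5 : s * s ≤ (Real.sqrt I + Real.sqrt e) * s := by nlinarith
      have h6 : s ≤ Real.sqrt I + Real.sqrt e := by
        by_cases hz : s = 0
        · rw [hz]; positivity
        · exact le_of_mul_le_mul_right h5 (lt_of_le_of_ne hs0 (Ne.symm hz))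
      rw [← hs2]
      exact pow_le_pow_left₀ hs0 h6 2
    have ht : Tendsto (fun m : ℕ => (Real.sqrt I + Real.sqrt (1 / ((m : ℝ) + 1))) ^ 2) atTop (𝓝 I) := by
      have h1 : Tendsto (fun m : ℕ => Real.sqrt (1 / ((m : ℝ) + 1))) atTop (𝓝 0) := by
        have := (Real.continuous_sqrt.tendsto 0).comp he0
        rw [Real.sqrt_zero] at this
        exact this
      have h2 := (h1.const_add (Real.sqrt I)).pow 2
      simpa [Real.sq_sqrt hI] using h2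
    have hev := ht.eventually (eventually_lt_nhds (lt_add_of_pos_right I hε))
    exact hev.mono fun m hm => (hq m).trans hm.le

end hilb

end Claimed.Agent.R316
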