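import Claimed.Agent.R316.Base.L2M.Alg
import Claimed.Agent.Lib.Sob.Api

/-!
# Row 316, `BP-G11`: one chart: Gårding inequality for `∂̄`, `H¹_loc` limits, interior regularity of the Dirichlet form

NO manifold in this file: `U ⊆ ℂ^ι` open, `G` a smooth positive definite Hermitian matrix function, `Θ` a smooth matrix function, `η` a smooth weight.
Vector functions `Y : CE ι → ι → ℂ` (values in the real normed space `ι → ℂ`).

Leaves: `G11-CR-A` (`garding_dbar`), `G11-CR-B` (`exists_l2loc_limit`, general), `G11-CR-C` (`chart_weak_form`), `G11-CR-D` (`chart_regularity`).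

## `garding_dbar`
`χ` a test function, `= 1` on `K`, `K' = tsupport χ ⊆ U`.  For a compactly supported `C²` (or smooth) `f : CE ι → ℂ`: `∫ |∂_j f|² = ∫ |∂_{\bar j} f|²` (two integrations by parts,
`CW/Integral.lean`; `∂_j ∂_{\bar j} = ∂_{\bar j} ∂_j`).  `‖fderiv ℝ f z‖² ≤ C ∑_j (|∂_j f|² + |∂_{\bar j} f|²)`.  Apply to `f = χ Y^p`: `∂_{\bar j}(χ Y^p) = χ N_{jp} + ∂_{\bar j}χ Y^p`.

## `chart_regularity`
1. `exists_l2loc_limit` + `Lib.Sob.exists_hasWeakFDeriv_of_cauchy`: `W₀ ∈ L²_loc`, weak derivative `G₀ ∈ L²_loc`, `Y_m → W₀`, `D Y_m → G₀` in `L²(K)`.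
2. test with `Z = φ · conj c · e^{η} G⁻¹ e_p` (`φ` a real test function, `c ∈ {1, i}`, `p : ι`; extended by `0`, smooth): `∑_q G_{qj} conj (Z^q) e^{-η} = c φ δ_{jp}`, so for smooth `Y`
   `(nbIP G (∂̄Y)(∂̄Z) + qfB Θ Y Z) e^{-η} = Re (c [ ∑_{a,l} G⁻¹_{al} ∂_{\bar l} Y^p ∂_a φ + φ (L₁(DY) + L₀ Y)_p ])`, `fvIP β Z e^{-η} = Re (c φ (G⁻¹ β)_p)`, `L₁, L₀` smooth coefficients.
3. symmetrisation: for smooth `Y`, `∫ G⁻¹_{al} ∂_{\bar l}Y ∂_aφ = ½ ∫ G⁻¹_{al} (∂_{\bar l}Y ∂_aφ + ∂_aY ∂_{\bar l}φ) + ½ ∫ Y (∂_a G⁻¹_{al} ∂_{\bar l}φ - ∂_{\bar l}G⁻¹_{al} ∂_aφ)`, and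
   `½ ∑ G⁻¹_{al} (∂_{\bar l}Y ∂_aφ + ∂_aY ∂_{\bar l}φ) = DY (A dφ)` with the REAL principal part `A_z ξ = ½ G⁻¹ ξ^{0,1}`, `ξ^{0,1}_l = ½ (ξ e_l + i ξ (i e_l))`; `ξ (A ξ) = (ξ^{0,1})ᴴ… > 0`.
   This is `chart_weak_form`: it gives `A, b, c, d, f` smooth with: for every smooth `Y` and test `φ`, the `ι → ℂ`-valued identity.
4. pass to the limit `m → ∞` (all terms are continuous for `H¹(K)`-convergence, `K = tsupport φ`): `IsWeakSol volume U A G₀ (f + b G₀ + c W₀) (d W₀)`; `Lib.Sob.smooth_of_weakSol` gives `W` smooth, `W = W₀` a.e.;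
   `fderiv ℝ W = G₀` a.e. (uniqueness of weak derivatives: `hasWeakFDeriv_of_contDiffOn` + fundamental lemma).
-/

set_option autoImplicit false
set_option linter.unusedSectionVars false
set_option maxSynthPendingDepth 6
open scoped ContDiff ComplexOrder ComplexConjugate Topology
open MeasureTheory Filter

namespace Claimed.Agent.R316

variable {ι : Type} [Fintype ι] [DecidableEq ι]

theorem cr_mul_conj_eq (w : ℂ) : w * conj w = ((‖w‖ ^ 2 : ℝ) : ℂ) := by
  rw [Complex.mul_conj, Complex.normSq_eq_norm_sq]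

/-- `∫ |∂_j f|² = ∫ |∂_{\bar j} f|²` for compactly supported smooth `f`. -/
theorem cr_integral_dz_sq_eq {U K : Set (CE ι)} (hU : IsOpen U) (hK : IsCompact K) (hKU : K ⊆ U)
    {f : CE ι → ℂ} (hf : ContDiffOn ℝ ∞ f U) (h0 : ∀ z ∈ U, z ∉ K → f z = 0) (j : ι) :
    ∫ z in U, ‖dz j f z‖ ^ 2 = ∫ z in U, ‖dzb j f z‖ ^ 2 := by
  have hcf : ContDiffOn ℝ ∞ (fun z => conj (f z)) U :=
    (Complex.conjCLE.toContinuousLinearMap.contDiff).comp_contDiffOn hf
  have h1f : ContDiffOn ℝ 1 f U := hf.of_le (by exact_mod_cast le_top)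
  have e1 : ∫ z in U, dz j f z * dzb j (fun w => conj (f w)) z
      = - ∫ z in U, f z * dz j (dzb j (fun w => conj (f w))) z :=
    setIntegral_dz_mul hU hK hKU h1f ((contDiffOn_dzb hU hcf).of_le (by exact_mod_cast le_top)) h0 j
  have e2 : ∫ z in U, dzb j f z * dz j (fun w => conj (f w)) z
      = - ∫ z in U, f z * dzb j (dz j (fun w => conj (f w))) z :=
    setIntegral_dzb_mul hU hK hKU h1f ((contDiffOn_dz hU hcf).of_le (by exact_mod_cast le_top)) h0 j
  have e3 : ∫ z in U, f z * dz j (dzb j (fun w => conj (f w))) z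
      = ∫ z in U, f z * dzb j (dz j (fun w => conj (f w))) z := by
    refine setIntegral_congr_fun hU.measurableSet fun z hz => ?_
    show f z * _ = f z * _
    rw [dz_dzb_comm ((hcf.contDiffAt (hU.mem_nhds hz)).of_le (by norm_cast))]
  have e4 : ∫ z in U, dz j f z * dzb j (fun w => conj (f w)) z
      = ∫ z in U, dzb j f z * dz j (fun w => conj (f w)) z := by rw [e1, e2, e3]
  have e5 : ∀ z, dz j f z * dzb j (fun w => conj (f w)) z = ((‖dz j f z‖ ^ 2 : ℝ) : ℂ) := fun z => by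
    rw [dzb_conj, cr_mul_conj_eq]
  have e6 : ∀ z, dzb j f z * dz j (fun w => conj (f w)) z = ((‖dzb j f z‖ ^ 2 : ℝ) : ℂ) := fun z => by
    rw [dz_conj, cr_mul_conj_eq]
  simp only [e5, e6] at e4
  rw [integral_complex_ofReal, integral_complex_ofReal] at e4
  exact_mod_cast e4

theorem cr_fderiv_apply {Y : CE ι → ι → ℂ} {z : CE ι} (hY : DifferentiableAt ℝ Y z) (v : CE ι) (p : ι) :
    fderiv ℝ Y z v p = fderiv ℝ (fun w => Y w p) z v := by
  have h := (differentiableAt_pi.1 hY)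
  rw [fderiv_pi h]
  rfl

/-- pointwise: the full real derivative is controlled by the Wirtinger derivatives. -/
theorem cr_norm_fderiv_sq_le {Y : CE ι → ι → ℂ} {z : CE ι} (hY : DifferentiableAt ℝ Y z) :
    ‖fderiv ℝ Y z‖ ^ 2 ≤ (2 * (Fintype.card ι : ℝ) ^ 2) *
      ∑ p, ∑ j, (‖dz j (fun w => Y w p) z‖ ^ 2 + ‖dzb j (fun w => Y w p) z‖ ^ 2) := by
  set a : ι × ι → ℝ := fun q => ‖dz q.2 (fun w => Y w q.1) z‖ + ‖dzb q.2 (fun w => Y w q.1) z‖ with ha
  have ha0 : ∀ q, 0 ≤ a q := fun q => by positivity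
  have h1 : ‖fderiv ℝ Y z‖ ≤ ∑ q, a q := by
    refine ContinuousLinearMap.opNorm_le_bound _ (Finset.sum_nonneg fun q _ => ha0 q) fun v => ?_
    refine (pi_norm_le_iff_of_nonneg (by have := Finset.sum_nonneg fun q (_ : q ∈ Finset.univ) => ha0 q; positivity)).2
      fun p => ?_
    rw [cr_fderiv_apply hY, fderiv_eq_sum]
    have hv : ∀ j, ‖v j‖ ≤ ‖v‖ := fun j => PiLp.norm_apply_le v j
    calc ‖∑ j, (dz j (fun w => Y w p) z * v j + dzb j (fun w => Y w p) z * conj (v j))‖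
        ≤ ∑ j, a (p, j) * ‖v‖ := by
          refine (norm_sum_le _ _).trans (Finset.sum_le_sum fun j _ => ?_)
          refine (norm_add_le _ _).trans ?_
          rw [norm_mul, norm_mul, RCLike.norm_conj, ha]
          simp only
          nlinarith [hv j, norm_nonneg (dz j (fun w => Y w p) z), norm_nonneg (dzb j (fun w => Y w p) z)]
      _ = (∑ j, a (p, j)) * ‖v‖ := by rw [Finset.sum_mul]
      _ ≤ (∑ q, a q) * ‖v‖ := by
          refine mul_le_mul_of_nonneg_right ?_ (norm_nonneg v)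
          rw [Fintype.sum_prod_type]
          exact Finset.single_le_sum (f := fun p => ∑ j, a (p, j))
            (fun p _ => Finset.sum_nonneg fun j _ => ha0 _) (Finset.mem_univ p)
  have h2 : (∑ q, a q) ^ 2 ≤ (Fintype.card (ι × ι) : ℝ) * ∑ q, a q ^ 2 := by
    have := sq_sum_le_card_mul_sum_sq (s := (Finset.univ : Finset (ι × ι))) (f := a)
    simpa using this
  have h3 : ∑ q, a q ^ 2 ≤ 2 * ∑ p, ∑ j, (‖dz j (fun w => Y w p) z‖ ^ 2 + ‖dzb j (fun w => Y w p) z‖ ^ 2) := by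
    rw [Fintype.sum_prod_type, Finset.mul_sum]
    refine Finset.sum_le_sum fun p _ => ?_
    rw [Finset.mul_sum]
    refine Finset.sum_le_sum fun j _ => ?_
    simp only [ha]
    nlinarith [sq_nonneg (‖dz j (fun w => Y w p) z‖ - ‖dzb j (fun w => Y w p) z‖)]
  have h4 : ‖fderiv ℝ Y z‖ ^ 2 ≤ (∑ q, a q) ^ 2 := by
    have := norm_nonneg (fderiv ℝ Y z)
    nlinarith
  have hc : (Fintype.card (ι × ι) : ℝ) = (Fintype.card ι : ℝ) ^ 2 := by
    rw [Fintype.card_prod]; push_cast; ring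
  rw [hc] at h2
  have hc0 : (0 : ℝ) ≤ (Fintype.card ι : ℝ) ^ 2 := by positivity
  calc ‖fderiv ℝ Y z‖ ^ 2 ≤ (Fintype.card ι : ℝ) ^ 2 * ∑ q, a q ^ 2 := h4.trans h2
    _ ≤ (Fintype.card ι : ℝ) ^ 2 * (2 * ∑ p, ∑ j, (‖dz j (fun w => Y w p) z‖ ^ 2 + ‖dzb j (fun w => Y w p) z‖ ^ 2)) :=
        mul_le_mul_of_nonneg_left h3 hc0
    _ = _ := by ring


/-- the squared `H¹(K)` norm of a `C¹` vector function. -/
noncomputable def h1Sq (K : Set (CE ι)) (Y : CE ι → ι → ℂ) : ℝ :=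
  ∫ z in K, (‖Y z‖ ^ 2 + ‖fderiv ℝ Y z‖ ^ 2)

theorem cr_norm_sq_le (a : ι → ℂ) : ‖a‖ ^ 2 ≤ ∑ j, ‖a j‖ ^ 2 := by
  have h0 : (0 : ℝ) ≤ ∑ j, ‖a j‖ ^ 2 := Finset.sum_nonneg fun j _ => by positivity
  have h1 : ‖a‖ ≤ Real.sqrt (∑ j, ‖a j‖ ^ 2) := by
    refine (pi_norm_le_iff_of_nonneg (Real.sqrt_nonneg _)).2 fun j => ?_
    refine Real.le_sqrt_of_sq_le ?_
    exact Finset.single_le_sum (f := fun j => ‖a j‖ ^ 2) (fun j _ => by positivity) (Finset.mem_univ j)
  calc ‖a‖ ^ 2 ≤ (Real.sqrt (∑ j, ‖a j‖ ^ 2)) ^ 2 := by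
        have := norm_nonneg a
        nlinarith [Real.sqrt_nonneg (∑ j, ‖a j‖ ^ 2)]
    _ = _ := Real.sq_sqrt h0

theorem cr_contDiffOn_comp {U : Set (CE ι)} {Y : CE ι → ι → ℂ} {n : WithTop ℕ∞} (hY : ContDiffOn ℝ n Y U) (p : ι) :
    ContDiffOn ℝ n (fun w => Y w p) U := (contDiffOn_pi.1 hY) p

theorem cr_continuousOn_h1 {U : Set (CE ι)} (hU : IsOpen U) {Y : CE ι → ι → ℂ} (hY : ContDiffOn ℝ ∞ Y U) :
    ContinuousOn (fun z => ‖Y z‖ ^ 2 + ‖fderiv ℝ Y z‖ ^ 2) U :=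
  (hY.continuousOn.norm.pow 2).add ((hY.continuousOn_fderiv_of_isOpen hU (by simp)).norm.pow 2)

/-- **Gårding inequality for `∂̄`.** -/
theorem garding_dbar {U K : Set (CE ι)} (hU : IsOpen U) (hK : IsCompact K) (hKU : K ⊆ U) :
    ∃ (K' : Set (CE ι)) (C : ℝ), IsCompact K' ∧ K ⊆ K' ∧ K' ⊆ U ∧ 0 ≤ C ∧
      ∀ Y : CE ι → ι → ℂ, ContDiffOn ℝ ∞ Y U →
        h1Sq K Y ≤ C * ∫ z in K', ((∑ l, ∑ j, ‖cdbar Y z l j‖ ^ 2) + ∑ j, ‖Y z j‖ ^ 2) := by
  obtain ⟨χ, hχ, ⟨W, hW, hKW, hW1⟩, hχ01⟩ := Lib.Sob.exists_cutoff_compact hK hU hKU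
  have hK' : IsCompact (tsupport χ) := hχ.compact
  have hKK' : K ⊆ tsupport χ := fun z hz => subset_tsupport _ (by
    rw [Function.mem_support, hW1 z (hKW hz)]; exact one_ne_zero)
  have hχc : ContDiff ℝ ∞ (fun z => (χ z : ℂ)) := Complex.ofRealCLM.contDiff.comp hχ.smooth
  have hχcs : HasCompactSupport (fun z => (χ z : ℂ)) := hχ.compact.comp_left (g := fun x : ℝ => (x : ℂ)) (by simp)
  obtain ⟨M, hM⟩ := (hχc.continuous_fderiv (by simp)).bounded_above_of_compact_support (hχcs.fderiv (𝕜 := ℝ))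
  have hM0 : 0 ≤ M := (norm_nonneg _).trans (hM 0)
  have hMj : ∀ j z, ‖dzb j (fun w => (χ w : ℂ)) z‖ ≤ M := fun j z => (ci_norm_dzb_le _ z j).trans (hM z)
  set c₀ : ℝ := 2 * (Fintype.card ι : ℝ) ^ 2 with hc₀
  have hc₀0 : 0 ≤ c₀ := by positivity
  set n : ℝ := (Fintype.card ι : ℝ) with hn
  have hn0 : 0 ≤ n := by positivity
  refine ⟨tsupport χ, 1 + 4 * c₀ + 4 * c₀ * M ^ 2 * n, hK', hKK', hχ.supp, by positivity, fun Y hY => ?_⟩
  set f : ι → CE ι → ℂ := fun p z => (χ z : ℂ) * Y z p with hf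
  have hfs : ∀ p, ContDiffOn ℝ ∞ (f p) U := fun p => hχc.contDiffOn.mul (cr_contDiffOn_comp hY p)
  have hf0 : ∀ p, ∀ z ∈ U, z ∉ tsupport χ → f p z = 0 := fun p z _ hz => by
    simp only [hf]; rw [image_eq_zero_of_notMem_tsupport hz]; simp
  set g1 : CE ι → ℝ := fun z => ∑ p, ∑ j, ‖dz j (f p) z‖ ^ 2 with hg1
  set g2 : CE ι → ℝ := fun z => ∑ p, ∑ j, ‖dzb j (f p) z‖ ^ 2 with hg2
  set S : CE ι → ℝ := fun z => ∑ j, ‖Y z j‖ ^ 2 with hS
  set N : CE ι → ℝ := fun z => ∑ l, ∑ j, ‖cdbar Y z l j‖ ^ 2 with hN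
  have hdzc : ∀ p j, ContinuousOn (fun z => ‖dz j (f p) z‖ ^ 2) U := fun p j =>
    ((contDiffOn_dz hU (hfs p)).continuousOn.norm.pow 2)
  have hdzbc : ∀ p j, ContinuousOn (fun z => ‖dzb j (f p) z‖ ^ 2) U := fun p j =>
    ((contDiffOn_dzb hU (hfs p)).continuousOn.norm.pow 2)
  have hg1c : ContinuousOn g1 U := continuousOn_finsetSum _ fun p _ => continuousOn_finsetSum _ fun j _ => hdzc p j
  have hg2c : ContinuousOn g2 U := continuousOn_finsetSum _ fun p _ => continuousOn_finsetSum _ fun j _ => hdzbc p j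
  have hSc : ContinuousOn S U := continuousOn_finsetSum _ fun j _ =>
    ((cr_contDiffOn_comp hY j).continuousOn.norm.pow 2)
  have hNc : ContinuousOn N U := continuousOn_finsetSum _ fun l _ => continuousOn_finsetSum _ fun j _ =>
    ((contDiffOn_dzb hU (cr_contDiffOn_comp hY j)).continuousOn.norm.pow 2)
  have hdz0 : ∀ p j, ∀ z ∈ U, z ∉ tsupport χ → ‖dz j (f p) z‖ ^ 2 = 0 := fun p j z hz hzK => by
    rw [ci_dz_zero hU hK' (hf0 p) j z hz hzK]; simp
  have hdzb0 : ∀ p j, ∀ z ∈ U, z ∉ tsupport χ → ‖dzb j (f p) z‖ ^ 2 = 0 := fun p j z hz hzK => by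
    rw [ci_dzb_zero hU hK' (hf0 p) j z hz hzK]; simp
  have hi1 : ∀ p j, IntegrableOn (fun z => ‖dz j (f p) z‖ ^ 2) U := fun p j =>
    integrableOn_of_continuousOn_of_compact hU hK' hχ.supp (hdzc p j) (hdz0 p j)
  have hi2 : ∀ p j, IntegrableOn (fun z => ‖dzb j (f p) z‖ ^ 2) U := fun p j =>
    integrableOn_of_continuousOn_of_compact hU hK' hχ.supp (hdzbc p j) (hdzb0 p j)
  have hg1i : IntegrableOn g1 U := integrable_finsetSum _ fun p _ => integrable_finsetSum _ fun j _ => hi1 p j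
  have hg2i : IntegrableOn g2 U := integrable_finsetSum _ fun p _ => integrable_finsetSum _ fun j _ => hi2 p j
  have hg12 : ∫ z in U, g1 z = ∫ z in U, g2 z := by
    simp only [hg1, hg2]
    rw [integral_finsetSum _ fun p _ => integrable_finsetSum _ fun j _ => hi1 p j,
      integral_finsetSum _ fun p _ => integrable_finsetSum _ fun j _ => hi2 p j]
    refine Finset.sum_congr rfl fun p _ => ?_
    rw [integral_finsetSum _ fun j _ => hi1 p j, integral_finsetSum _ fun j _ => hi2 p j]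
    exact Finset.sum_congr rfl fun j _ => cr_integral_dz_sq_eq hU hK' hχ.supp (hfs p) (hf0 p) j
  have hg10 : ∀ z, 0 ≤ g1 z := fun z => Finset.sum_nonneg fun p _ => Finset.sum_nonneg fun j _ => by positivity
  have hg20 : ∀ z, 0 ≤ g2 z := fun z => Finset.sum_nonneg fun p _ => Finset.sum_nonneg fun j _ => by positivity
  have hS0 : ∀ z, 0 ≤ S z := fun z => Finset.sum_nonneg fun j _ => by positivity
  have hN0 : ∀ z, 0 ≤ N z := fun z => Finset.sum_nonneg fun p _ => Finset.sum_nonneg fun j _ => by positivity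
  have iK : ∀ {g : CE ι → ℝ}, ContinuousOn g U → IntegrableOn g K := fun hg => (hg.mono hKU).integrableOn_compact hK
  have iK' : ∀ {g : CE ι → ℝ}, ContinuousOn g U → IntegrableOn g (tsupport χ) := fun hg =>
    (hg.mono hχ.supp).integrableOn_compact hK'
  -- step 1
  have s1 : h1Sq K Y ≤ ∫ z in K, (S z + c₀ * (g1 z + g2 z)) := by
    refine setIntegral_mono_on (iK (cr_continuousOn_h1 hU hY)) (iK (hSc.add (continuousOn_const.mul (hg1c.add hg2c))))
      hK.measurableSet fun z hz => ?_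
    have hzW : W ∈ 𝓝 z := hW.mem_nhds (hKW hz)
    have hev : ∀ p, (fun w => Y w p) =ᶠ[𝓝 z] f p := fun p => by
      filter_upwards [hzW] with w hw
      simp only [hf]; rw [hW1 w hw]; simp
    have hd := cr_norm_fderiv_sq_le ((hY.contDiffAt (hU.mem_nhds (hKU hz))).differentiableAt (by simp))
    have he : ∑ p, ∑ j, (‖dz j (fun w => Y w p) z‖ ^ 2 + ‖dzb j (fun w => Y w p) z‖ ^ 2) = g1 z + g2 z := by
      simp only [hg1, hg2]
      rw [← Finset.sum_add_distrib]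
      refine Finset.sum_congr rfl fun p _ => ?_
      rw [← Finset.sum_add_distrib]
      refine Finset.sum_congr rfl fun j _ => ?_
      rw [dz_congr (hev p), dzb_congr (hev p)]
    rw [he] at hd
    exact add_le_add (cr_norm_sq_le _) hd
  have s2 : ∫ z in K, (S z + c₀ * (g1 z + g2 z)) = (∫ z in K, S z) + c₀ * ((∫ z in K, g1 z) + ∫ z in K, g2 z) := by
    have hh : IntegrableOn (fun z => g1 z + g2 z) K := iK (hg1c.add hg2c)
    rw [integral_add (iK hSc) (hh.const_mul c₀), integral_const_mul,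
      integral_add (iK hg1c) (iK hg2c)]
  have s3a : ∫ z in K, S z ≤ ∫ z in tsupport χ, S z :=
    setIntegral_mono_set (iK' hSc) (Eventually.of_forall hS0) (LE.le.eventuallyLE hKK')
  have s3b : ∫ z in K, g1 z ≤ ∫ z in U, g1 z :=
    setIntegral_mono_set hg1i (Eventually.of_forall hg10) (LE.le.eventuallyLE hKU)
  have s3c : ∫ z in K, g2 z ≤ ∫ z in U, g2 z :=
    setIntegral_mono_set hg2i (Eventually.of_forall hg20) (LE.le.eventuallyLE hKU)
  have s4 : ∫ z in U, g2 z = ∫ z in tsupport χ, g2 z := by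
    refine setIntegral_eq_of_subset_of_forall_sdiff_eq_zero hU.measurableSet hχ.supp fun z hz => ?_
    simp only [hg2]
    exact Finset.sum_eq_zero fun p _ => Finset.sum_eq_zero fun j _ => hdzb0 p j z hz.1 hz.2
  have s5 : ∫ z in tsupport χ, g2 z ≤ ∫ z in tsupport χ, (2 * N z + 2 * M ^ 2 * n * S z) := by
    refine setIntegral_mono_on (iK' hg2c) (iK' ((continuousOn_const.mul hNc).add (continuousOn_const.mul hSc)))
      hK'.measurableSet fun z hz => ?_
    have hzU := hχ.supp hz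
    have hp : ∀ p j, ‖dzb j (f p) z‖ ^ 2 ≤ 2 * ‖cdbar Y z j p‖ ^ 2 + 2 * M ^ 2 * ‖Y z p‖ ^ 2 := fun p j => by
      have e : dzb j (f p) z = dzb j (fun w => (χ w : ℂ)) z * Y z p + (χ z : ℂ) * cdbar Y z j p :=
        dzb_mul (hχc.differentiable (by simp) z)
          (((cr_contDiffOn_comp hY p).contDiffAt (hU.mem_nhds hzU)).differentiableAt (by simp))
      have h1 : ‖dzb j (f p) z‖ ≤ M * ‖Y z p‖ + ‖cdbar Y z j p‖ := by
        rw [e]
        refine (norm_add_le _ _).trans (add_le_add ?_ ?_)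
        · rw [norm_mul]; exact mul_le_mul_of_nonneg_right (hMj j z) (norm_nonneg _)
        · rw [norm_mul, Complex.norm_real, Real.norm_eq_abs, abs_of_nonneg (hχ01 z).1]
          exact mul_le_of_le_one_left (norm_nonneg _) (hχ01 z).2
      have h2 := norm_nonneg (dzb j (f p) z)
      nlinarith [sq_nonneg (M * ‖Y z p‖ - ‖cdbar Y z j p‖)]
    calc g2 z ≤ ∑ p, ∑ j, (2 * ‖cdbar Y z j p‖ ^ 2 + 2 * M ^ 2 * ‖Y z p‖ ^ 2) :=
          Finset.sum_le_sum fun p _ => Finset.sum_le_sum fun j _ => hp p j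
      _ = 2 * N z + 2 * M ^ 2 * n * S z := by
          simp only [Finset.sum_add_distrib, hN, hS, Finset.sum_const, Finset.card_univ, nsmul_eq_mul, ← Finset.mul_sum]
          rw [Finset.sum_comm]
          ring
  have s6 : ∫ z in tsupport χ, (2 * N z + 2 * M ^ 2 * n * S z)
      = 2 * (∫ z in tsupport χ, N z) + 2 * M ^ 2 * n * ∫ z in tsupport χ, S z := by
    rw [integral_add ((iK' hNc).const_mul _) ((iK' hSc).const_mul _), integral_const_mul, integral_const_mul]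
  have s7 : ∫ z in tsupport χ, (N z + S z) = (∫ z in tsupport χ, N z) + ∫ z in tsupport χ, S z :=
    integral_add (iK' hNc) (iK' hSc)
  have hIN : 0 ≤ ∫ z in tsupport χ, N z := integral_nonneg hN0
  have hIS : 0 ≤ ∫ z in tsupport χ, S z := integral_nonneg hS0
  show h1Sq K Y ≤ _ * ∫ z in tsupport χ, (N z + S z)
  rw [s7]
  have t1 : (∫ z in K, g1 z) + ∫ z in K, g2 z ≤ 2 * (2 * (∫ z in tsupport χ, N z) + 2 * M ^ 2 * n * ∫ z in tsupport χ, S z) := by
    rw [← s6]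
    linarith
  have t2 := mul_le_mul_of_nonneg_left t1 hc₀0
  have t3 : 0 ≤ c₀ * M ^ 2 * n * ∫ z in tsupport χ, N z := by positivity
  have t4 : 0 ≤ c₀ * ∫ z in tsupport χ, S z := by positivity
  nlinarith

theorem cr_norm_fderiv_comp_le {Y : CE ι → ι → ℂ} {z : CE ι} (hY : DifferentiableAt ℝ Y z) (p : ι) :
    ‖fderiv ℝ (fun w => Y w p) z‖ ≤ ‖fderiv ℝ Y z‖ := by
  refine ContinuousLinearMap.opNorm_le_bound _ (norm_nonneg _) fun v => ?_
  rw [← cr_fderiv_apply hY]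
  exact (norm_le_pi_norm _ p).trans (ContinuousLinearMap.le_opNorm _ _)

/-- first order operators with continuous coefficients are continuous `H¹(K) → L²(K)`: the case of `cdiv`. -/
theorem integral_cdiv_sq_le {U K : Set (CE ι)} (hU : IsOpen U) (hK : IsCompact K) (hKU : K ⊆ U) {η : CE ι → ℝ}
    (hη : ContDiffOn ℝ ∞ η U) :
    ∃ C : ℝ, 0 ≤ C ∧ ∀ Y : CE ι → ι → ℂ, ContDiffOn ℝ ∞ Y U → ∫ z in K, ‖cdiv η Y z‖ ^ 2 ≤ C * h1Sq K Y := by
  have hgc : ContinuousOn (fun z => ∑ j, ‖grad10 η z j‖) U := continuousOn_finsetSum _ fun j _ =>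
    (contDiffOn_grad10 hU hη (j := j)).continuousOn.norm
  obtain ⟨M, hM⟩ := hK.exists_bound_of_continuousOn (hgc.mono hKU)
  set n : ℝ := (Fintype.card ι : ℝ) with hn
  have hn0 : 0 ≤ n := by positivity
  refine ⟨2 * n ^ 2 + 2 * M ^ 2, by positivity, fun Y hY => ?_⟩
  have hcd : ContinuousOn (fun z => ‖cdiv η Y z‖ ^ 2) U := by
    refine ContinuousOn.pow (ContinuousOn.norm ?_) 2
    unfold cdiv
    refine continuousOn_finsetSum _ fun j _ => ?_
    exact (contDiffOn_dz hU (cr_contDiffOn_comp hY j)).continuousOn.sub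
      ((contDiffOn_grad10 hU hη (j := j)).continuousOn.mul (cr_contDiffOn_comp hY j).continuousOn)
  unfold h1Sq
  rw [← integral_const_mul]
  refine setIntegral_mono_on ((hcd.mono hKU).integrableOn_compact hK)
    ((((cr_continuousOn_h1 hU hY).mono hKU).integrableOn_compact hK).const_mul _) hK.measurableSet fun z hz => ?_
  have hd : DifferentiableAt ℝ Y z := (hY.contDiffAt (hU.mem_nhds (hKU hz))).differentiableAt (by simp)
  have hMz : ∑ j, ‖grad10 η z j‖ ≤ M := by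
    have := hM z hz
    rwa [Real.norm_eq_abs, abs_of_nonneg (Finset.sum_nonneg fun j _ => norm_nonneg _)] at this
  have h1 : ‖cdiv η Y z‖ ≤ n * ‖fderiv ℝ Y z‖ + M * ‖Y z‖ := by
    unfold cdiv
    rw [Finset.sum_sub_distrib]
    refine (norm_sub_le _ _).trans (add_le_add ?_ ?_)
    · refine (norm_sum_le _ _).trans ?_
      calc ∑ j, ‖dz j (fun w => Y w j) z‖ ≤ ∑ _j : ι, ‖fderiv ℝ Y z‖ :=
            Finset.sum_le_sum fun j _ => (ci_norm_dz_le _ z j).trans (cr_norm_fderiv_comp_le hd j)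
        _ = n * ‖fderiv ℝ Y z‖ := by simp [hn]
    · refine (norm_sum_le _ _).trans ?_
      calc ∑ j, ‖grad10 η z j * Y z j‖ ≤ ∑ j, ‖grad10 η z j‖ * ‖Y z‖ :=
            Finset.sum_le_sum fun j _ => by
              rw [norm_mul]; exact mul_le_mul_of_nonneg_left (norm_le_pi_norm _ j) (norm_nonneg _)
        _ = (∑ j, ‖grad10 η z j‖) * ‖Y z‖ := by rw [Finset.sum_mul]
        _ ≤ M * ‖Y z‖ := mul_le_mul_of_nonneg_right hMz (norm_nonneg _)
  have h2 := norm_nonneg (cdiv η Y z)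
  have h3 : ‖cdiv η Y z‖ ^ 2 ≤ (n * ‖fderiv ℝ Y z‖ + M * ‖Y z‖) ^ 2 := by nlinarith
  have h4 : 0 ≤ n ^ 2 * ‖Y z‖ ^ 2 := by positivity
  have h5 : 0 ≤ M ^ 2 * ‖fderiv ℝ Y z‖ ^ 2 := by positivity
  nlinarith [sq_nonneg (n * ‖fderiv ℝ Y z‖ - M * ‖Y z‖)]

theorem contDiffOn_cdiv {U : Set (CE ι)} (hU : IsOpen U) {η : CE ι → ℝ} (hη : ContDiffOn ℝ ∞ η U)
    {W : CE ι → ι → ℂ} (hW : ContDiffOn ℝ ∞ W U) : ContDiffOn ℝ ∞ (cdiv η W) U := by
  unfold cdiv
  refine ContDiffOn.sum fun j _ => ?_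
  exact (contDiffOn_dz hU (cr_contDiffOn_comp hW j)).sub
    ((contDiffOn_grad10 hU hη (j := j)).mul (cr_contDiffOn_comp hW j))

theorem cdiv_sub {U : Set (CE ι)} (hU : IsOpen U) (η : CE ι → ℝ) {Y W : CE ι → ι → ℂ}
    (hY : ContDiffOn ℝ ∞ Y U) (hW : ContDiffOn ℝ ∞ W U) {z : CE ι} (hz : z ∈ U) :
    cdiv η (Y - W) z = cdiv η Y z - cdiv η W z := by
  unfold cdiv
  rw [← Finset.sum_sub_distrib]
  refine Finset.sum_congr rfl fun j _ => ?_
  have e : dz j (fun w => (Y - W) w j) z = dz j (fun w => Y w j) z - dz j (fun w => W w j) z :=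
    dz_sub (((cr_contDiffOn_comp hY j).contDiffAt (hU.mem_nhds hz)).differentiableAt (by simp))
      (((cr_contDiffOn_comp hW j).contDiffAt (hU.mem_nhds hz)).differentiableAt (by simp))
  rw [e]
  simp only [Pi.sub_apply]
  ring

/-- two `H¹_loc` (even `L²_loc`) limits of the same sequence agree. -/
theorem eqOn_of_h1Sq_tendsto {U : Set (CE ι)} (hU : IsOpen U) {Y : ℕ → CE ι → ι → ℂ} {W W' : CE ι → ι → ℂ}
    (hY : ∀ m, ContDiffOn ℝ ∞ (Y m) U) (hW : ContDiffOn ℝ ∞ W U) (hW' : ContDiffOn ℝ ∞ W' U)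
    (h1 : ∀ K : Set (CE ι), IsCompact K → K ⊆ U → Tendsto (fun m => h1Sq K (Y m - W)) atTop (𝓝 0))
    (h2 : ∀ K : Set (CE ι), IsCompact K → K ⊆ U → Tendsto (fun m => h1Sq K (Y m - W')) atTop (𝓝 0)) :
    Set.EqOn W W' U := by
  intro z hz
  obtain ⟨r, hr, hrU⟩ := Metric.nhds_basis_closedBall.mem_iff.1 (hU.mem_nhds hz)
  set K := Metric.closedBall z r with hKdef
  have hK : IsCompact K := isCompact_closedBall z r
  have hc : ContinuousOn (fun w => ‖W w - W' w‖ ^ 2) U := (hW.continuousOn.sub hW'.continuousOn).norm.pow 2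
  have hle : ∀ m, ∫ w in K, ‖W w - W' w‖ ^ 2 ≤ 2 * h1Sq K (Y m - W) + 2 * h1Sq K (Y m - W') := fun m => by
    unfold h1Sq
    have i1 : IntegrableOn (fun a => 2 * (‖(Y m - W) a‖ ^ 2 + ‖fderiv ℝ (Y m - W) a‖ ^ 2)) K :=
      (((cr_continuousOn_h1 hU ((hY m).sub hW)).mono hrU).integrableOn_compact hK).const_mul _
    have i2 : IntegrableOn (fun a => 2 * (‖(Y m - W') a‖ ^ 2 + ‖fderiv ℝ (Y m - W') a‖ ^ 2)) K :=
      (((cr_continuousOn_h1 hU ((hY m).sub hW')).mono hrU).integrableOn_compact hK).const_mul _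
    rw [← integral_const_mul, ← integral_const_mul, ← integral_add i1 i2]
    refine setIntegral_mono_on ((hc.mono hrU).integrableOn_compact hK) (i1.add i2)
      hK.measurableSet fun w _ => ?_
    have e : W w - W' w = (Y m - W') w - (Y m - W) w := by simp
    have t := norm_sub_le ((Y m - W') w) ((Y m - W) w)
    rw [← e] at t
    have t0 := norm_nonneg (W w - W' w)
    have t1 : ‖W w - W' w‖ ^ 2 ≤ (‖(Y m - W') w‖ + ‖(Y m - W) w‖) ^ 2 := by nlinarith
    have t2 := sq_nonneg (‖fderiv ℝ (Y m - W) w‖)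
    have t3 := sq_nonneg (‖fderiv ℝ (Y m - W') w‖)
    nlinarith [sq_nonneg (‖(Y m - W') w‖ - ‖(Y m - W) w‖)]
  have hlim : Tendsto (fun m => 2 * h1Sq K (Y m - W) + 2 * h1Sq K (Y m - W')) atTop (𝓝 0) := by
    have := ((h1 K hK hrU).const_mul 2).add ((h2 K hK hrU).const_mul 2)
    simpa using this
  have h0 : ∫ w in K, ‖W w - W' w‖ ^ 2 = 0 :=
    le_antisymm (ge_of_tendsto' hlim hle) (integral_nonneg fun w => by positivity)
  have hae : ∀ᵐ w ∂(volume.restrict K), ‖W w - W' w‖ ^ 2 = 0 :=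
    (integral_eq_zero_iff_of_nonneg (fun w => by positivity) ((hc.mono hrU).integrableOn_compact hK)).1 h0
  have hbU : Metric.ball z r ⊆ U := Metric.ball_subset_closedBall.trans hrU
  have hae' : ∀ᵐ w ∂(volume.restrict (Metric.ball z r)), W w = W' w := by
    refine (ae_restrict_of_ae_restrict_of_subset Metric.ball_subset_closedBall hae).mono fun w hw => ?_
    have : ‖W w - W' w‖ = 0 := by simpa using hw
    exact sub_eq_zero.1 (norm_eq_zero.1 this)
  exact Lib.Sob.eqOn_of_ae_eq volume Metric.isOpen_ball (hW.continuousOn.mono hbU) (hW'.continuousOn.mono hbU) hae'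
    (Metric.mem_ball_self hr)

/-- compact exhaustion of an open subset of a finite dimensional space. -/
theorem cr_exists_exhaustion {E : Type*} [NormedAddCommGroup E] [NormedSpace ℝ E] [FiniteDimensional ℝ E]
    {U : Set E} (hU : IsOpen U) :
    ∃ Kn : ℕ → Set E, (∀ j, IsCompact (Kn j)) ∧ (∀ j, Kn j ⊆ U) ∧ Monotone Kn ∧
      ∀ K : Set E, IsCompact K → K ⊆ U → ∃ j, K ⊆ Kn j := by
  have := FiniteDimensional.proper_real E
  have : LocallyCompactSpace U := hU.locallyCompactSpace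
  let ce : CompactExhaustion U := CompactExhaustion.choice U
  refine ⟨fun j => Subtype.val '' (ce j), fun j => (ce.isCompact j).image continuous_subtype_val, ?_, ?_, ?_⟩
  · rintro j _ ⟨x, _, rfl⟩
    exact x.2
  · intro i j hij
    exact Set.image_mono (ce.subset hij)
  · intro K hK hKU
    have hK' : IsCompact (Subtype.val ⁻¹' K : Set U) := by
      rw [Topology.IsEmbedding.subtypeVal.isCompact_iff]
      rwa [Subtype.image_preimage_coe, Set.inter_eq_right.2 hKU]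
    obtain ⟨j, hj⟩ := ce.exists_superset_of_isCompact hK'
    exact ⟨j, fun x hx => ⟨⟨x, hKU hx⟩, hj hx, rfl⟩⟩

/-- completeness of `L²(ν)` in `eLpNorm` form. -/
theorem cr_exists_l2_limit {α F : Type*} [MeasurableSpace α] [NormedAddCommGroup F] [CompleteSpace F]
    (ν : Measure α) {f : ℕ → α → F} (hf : ∀ n, MemLp (f n) 2 ν)
    (hc : ∀ ε : ENNReal, 0 < ε → ∃ N : ℕ, ∀ n m : ℕ, N ≤ n → N ≤ m →
      eLpNorm (fun x => f n x - f m x) 2 ν ≤ ε) :
    ∃ g : α → F, MemLp g 2 ν ∧ Tendsto (fun n => eLpNorm (fun x => f n x - g x) 2 ν) atTop (𝓝 0) := by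
  have : Fact ((1 : ENNReal) ≤ 2) := ⟨by norm_num⟩
  set Fn : ℕ → Lp F 2 ν := fun n => (hf n).toLp (f n) with hFn
  have hd : ∀ n m, dist (Fn n) (Fn m) = (eLpNorm (fun x => f n x - f m x) 2 ν).toReal := fun n m => by
    rw [dist_eq_norm, hFn]
    simp only
    rw [← MemLp.toLp_sub, Lp.norm_toLp]
    rfl
  have hcs : CauchySeq Fn := by
    rw [Metric.cauchySeq_iff]
    intro ε hε
    obtain ⟨N, hN⟩ := hc (ENNReal.ofReal (ε / 2)) (by simpa using half_pos hε)
    refine ⟨N, fun n hn m hm => ?_⟩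
    rw [hd]
    have := ENNReal.toReal_mono ENNReal.ofReal_ne_top (hN n m hn hm)
    rw [ENNReal.toReal_ofReal (half_pos hε).le] at this
    linarith
  obtain ⟨G, hG⟩ := cauchySeq_tendsto_of_complete hcs
  refine ⟨G, Lp.memLp G, ?_⟩
  have h1 : ∀ n, eLpNorm (fun x => f n x - G x) 2 ν = ENNReal.ofReal (dist (Fn n) G) := fun n => by
    rw [dist_eq_norm, Lp.norm_def, ENNReal.ofReal_toReal (Lp.eLpNorm_ne_top _)]
    refine eLpNorm_congr_ae ?_
    filter_upwards [Lp.coeFn_sub (Fn n) G, (hf n).coeFn_toLp] with x h1 h2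
    rw [h1, Pi.sub_apply, h2]
  simp only [h1]
  have := (tendsto_iff_dist_tendsto_zero.1 hG)
  simpa using ENNReal.tendsto_ofReal this

/-- completeness of `L²_loc`. -/
theorem exists_l2loc_limit {E F : Type*} [NormedAddCommGroup E] [NormedSpace ℝ E] [FiniteDimensional ℝ E]
    [MeasurableSpace E] [BorelSpace E] [NormedAddCommGroup F] [NormedSpace ℝ F] [FiniteDimensional ℝ F]
    (μ : Measure E) [μ.IsAddHaarMeasure] {U : Set E} (hU : IsOpen U) {un : ℕ → E → F}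
    (hun : ∀ n, ContinuousOn (un n) U)
    (hc : ∀ K : Set E, IsCompact K → K ⊆ U → ∀ ε : ENNReal, 0 < ε → ∃ N : ℕ, ∀ n m : ℕ, N ≤ n → N ≤ m →
      eLpNorm (fun x => un n x - un m x) 2 (μ.restrict K) ≤ ε) :
    ∃ u : E → F, Lib.Sob.L2Loc μ U u ∧ ∀ K : Set E, IsCompact K → K ⊆ U →
      Tendsto (fun n => eLpNorm (fun x => un n x - u x) 2 (μ.restrict K)) atTop (𝓝 0) := by
  classical
  have : CompleteSpace F := FiniteDimensional.complete ℝ F
  obtain ⟨Kn, hKc, hKU, hKm, hKex⟩ := cr_exists_exhaustion hU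
  have hmem : ∀ n j, MemLp (un n) 2 (μ.restrict (Kn j)) := fun n j =>
    Lib.Sob.l2Loc_of_continuousOn (hun n) (Kn j) (hKc j) (hKU j)
  choose g hg2 hglim using fun j => cr_exists_l2_limit (μ.restrict (Kn j)) (fun n => hmem n j) (hc (Kn j) (hKc j) (hKU j))
  -- compatibility
  have hcomp : ∀ i j, i ≤ j → g i =ᵐ[μ.restrict (Kn i)] g j := fun i j hij => by
    have hle : μ.restrict (Kn i) ≤ μ.restrict (Kn j) := Measure.restrict_mono (hKm hij) le_rfl
    have h1 : Tendsto (fun n => eLpNorm (fun x => un n x - g j x) 2 (μ.restrict (Kn i))) atTop (𝓝 0) :=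
      tendsto_of_tendsto_of_tendsto_of_le_of_le tendsto_const_nhds (hglim j) (fun _ => zero_le)
        (fun n => eLpNorm_mono_measure _ hle)
    have h2 : ∀ n, eLpNorm (fun x => g i x - g j x) 2 (μ.restrict (Kn i)) ≤
        eLpNorm (fun x => un n x - g i x) 2 (μ.restrict (Kn i)) + eLpNorm (fun x => un n x - g j x) 2 (μ.restrict (Kn i)) := fun n => by
      have e : (fun x => g i x - g j x) = (fun x => un n x - g j x) - (fun x => un n x - g i x) := by
        funext x; simp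
      rw [e, add_comm]
      exact eLpNorm_sub_le (((hmem n j).mono_measure hle).sub ((hg2 j).mono_measure hle)).1
        ((hmem n i).sub (hg2 i)).1 (by norm_num)
    have h3 : eLpNorm (fun x => g i x - g j x) 2 (μ.restrict (Kn i)) = 0 := by
      have := ge_of_tendsto' ((hglim i).add h1) h2
      simpa using this
    have h3' : eLpNorm (g i - g j) 2 (μ.restrict (Kn i)) = 0 := h3
    rw [eLpNorm_eq_zero_iff ((hg2 i).sub ((hg2 j).mono_measure hle)).1 (by norm_num)] at h3'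
    filter_upwards [h3'] with x hx
    exact sub_eq_zero.1 hx
  have hall : ∀ᵐ x ∂μ, ∀ i j, i ≤ j → x ∈ Kn i → g i x = g j x := by
    rw [ae_all_iff]; intro i
    rw [ae_all_iff]; intro j
    by_cases hij : i ≤ j
    · have := (ae_restrict_iff' (hKc i).measurableSet).1 (hcomp i j hij)
      filter_upwards [this] with x hx _ hxi
      exact hx hxi
    · exact Eventually.of_forall fun x h => absurd h hij
  set u : E → F := fun x => if h : ∃ j, x ∈ Kn j then g (Nat.find h) x else 0 with hu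
  have hug : ∀ j, u =ᵐ[μ.restrict (Kn j)] g j := fun j => by
    rw [Filter.EventuallyEq, ae_restrict_iff' (hKc j).measurableSet]
    filter_upwards [hall] with x hx hxj
    have hex : ∃ j, x ∈ Kn j := ⟨j, hxj⟩
    simp only [hu, dif_pos hex]
    exact hx _ _ (Nat.find_min' hex hxj) (Nat.find_spec hex)
  refine ⟨u, fun K hK hKU' => ?_, fun K hK hKU' => ?_⟩
  · obtain ⟨j, hj⟩ := hKex K hK hKU'
    exact ((hg2 j).ae_eq (hug j).symm).mono_measure (Measure.restrict_mono hj le_rfl)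
  · obtain ⟨j, hj⟩ := hKex K hK hKU'
    refine tendsto_of_tendsto_of_tendsto_of_le_of_le tendsto_const_nhds (hglim j) (fun _ => zero_le) fun n => ?_
    calc eLpNorm (fun x => un n x - u x) 2 (μ.restrict K)
        ≤ eLpNorm (fun x => un n x - u x) 2 (μ.restrict (Kn j)) :=
          eLpNorm_mono_measure _ (Measure.restrict_mono hj le_rfl)
      _ = eLpNorm (fun x => un n x - g j x) 2 (μ.restrict (Kn j)) := by
          refine eLpNorm_congr_ae ?_
          filter_upwards [hug j] with x hx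
          rw [hx]

end Claimed.Agent.R316
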