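import Claimed.Agent.R316.Base.L2M.CR1

/-!
# Row 316, `BP-G11`: one chart: Gårding inequality for `∂̄`, `H¹_loc` limits, interior regularity of the Dirichlet form

NO manifold in this file: `U ⊆ ℂ^ι` open, `G` a smooth positive definite Hermitian matrix function, `Θ` a smooth matrix function, `η` a smooth weight.
Vector functions `Y : CE ι → ι → ℂ` (values in the real normed space `ι → ℂ`).

Leaves: `G11-CR-A` (`garding_dbar`), `G11-CR-B` (`exists_l2loc_limit`, general), `G11-CR-C` (`chart_weak_form`), `G11-CR-D` (`chart_regularity`).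

## `garding_dbar`
`χ` a test function, `= 1` on `K`, `K' = tsupport χ ⊆ U`.  For a compactly supported `C²` (or smooth) `f : CE ι → ℂ`: `∫ |∂_j f|² = ∫ |∂_{\bar j} f|²` (two integrations by parts,
`CW/Integral.lean`; `∂_j ∂_{\bar j} = ∂_{\bar j} ∂_j`).  `‖fderiv ℝ f z‖² ≤ C ∑_j (|∂_j f|² + |∂_{\bar j} f|²)`.  Apply to `f = χ Y^p`: `∂_{\bar j}(χ Y^p) = χ N_{jp} + ∂_{\bar j}χ Y^p`.

## `chart_regularity`
1. `exists_l2loc_limit` + `Lib.Sob.exists_hasWeakFDeriv_of_cauchy`: `W₀ ∈ L²_loc`, weak derivative `G₀ ∈ L²_loc`, `Y_m → W₀`, `D Y_m → G₀` in `L²(K)`.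
2. test with `Z = φ · conj c · e^{η} G⁻¹ e_p` (`φ` a real test function, `c ∈ {1, i}`, `p : ι`; extended by `0`, smooth): `∑_q G_{qj} conj (Z^q) e^{-η} = c φ δ_{jp}`, so for smooth `Y`
   `(nbIP G (∂̄Y)(∂̄Z) + qfB Θ Y Z) e^{-η} = Re (c [ ∑_{a,l} G⁻¹_{al} ∂_{\bar l} Y^p ∂_a φ + φ (L₁(DY) + L₀ Y)_p ])`, `fvIP β Z e^{-η} = Re (c φ (G⁻¹ β)_p)`, `L₁, L₀` smooth coefficients.
3. symmetrisation: for smooth `Y`, `∫ G⁻¹_{al} ∂_{\bar l}Y ∂_aφ = ½ ∫ G⁻¹_{al} (∂_{\bar l}Y ∂_aφ + ∂_aY ∂_{\bar l}φ) + ½ ∫ Y (∂_a G⁻¹_{al} ∂_{\bar l}φ - ∂_{\bar l}G⁻¹_{al} ∂_aφ)`, and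
   `½ ∑ G⁻¹_{al} (∂_{\bar l}Y ∂_aφ + ∂_aY ∂_{\bar l}φ) = DY (A dφ)` with the REAL principal part `A_z ξ = ½ G⁻¹ ξ^{0,1}`, `ξ^{0,1}_l = ½ (ξ e_l + i ξ (i e_l))`; `ξ (A ξ) = (ξ^{0,1})ᴴ… > 0`.
   This is `chart_weak_form`: it gives `A, b, c, d, f` smooth with: for every smooth `Y` and test `φ`, the `ι → ℂ`-valued identity.
4. pass to the limit `m → ∞` (all terms are continuous for `H¹(K)`-convergence, `K = tsupport φ`): `IsWeakSol volume U A G₀ (f + b G₀ + c W₀) (d W₀)`; `Lib.Sob.smooth_of_weakSol` gives `W` smooth, `W = W₀` a.e.;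
   `fderiv ℝ W = G₀` a.e. (uniqueness of weak derivatives: `hasWeakFDeriv_of_contDiffOn` + fundamental lemma).
-/

set_option autoImplicit false
set_option linter.unusedSectionVars false
set_option maxSynthPendingDepth 6
open scoped ContDiff ComplexOrder ComplexConjugate Topology Matrix
open MeasureTheory Filter

namespace Claimed.Agent.R316

variable {ι : Type} [Fintype ι] [DecidableEq ι]

/-- `ξ ↦ ξ^{1,0}_a = ½ (ξ e_a - i ξ (i e_a))`. -/
noncomputable def cwfCov10 (a : ι) : (CE ι →L[ℝ] ℝ) →L[ℝ] ℂ :=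
  LinearMap.toContinuousLinearMap
    { toFun := fun ξ => (1 / 2 : ℂ) * ((ξ (eb a) : ℂ) - Complex.I * (ξ (Complex.I • eb a) : ℂ))
      map_add' := by intro x y; simp only [_root_.add_apply]; push_cast; ring
      map_smul' := by
        intro r x
        simp only [_root_.smul_apply, smul_eq_mul, RingHom.id_apply, Complex.real_smul]
        push_cast; ring }

/-- `ξ ↦ ξ^{0,1}_a = ½ (ξ e_a + i ξ (i e_a))`. -/
noncomputable def cwfCov01 (a : ι) : (CE ι →L[ℝ] ℝ) →L[ℝ] ℂ :=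
  LinearMap.toContinuousLinearMap
    { toFun := fun ξ => (1 / 2 : ℂ) * ((ξ (eb a) : ℂ) + Complex.I * (ξ (Complex.I • eb a) : ℂ))
      map_add' := by intro x y; simp only [_root_.add_apply]; push_cast; ring
      map_smul' := by
        intro r x
        simp only [_root_.smul_apply, smul_eq_mul, RingHom.id_apply, Complex.real_smul]
        push_cast; ring }

/-- `D ↦ ½ (D e_a - i D (i e_a))_p`. -/
noncomputable def cwfDer10 (a p : ι) : (CE ι →L[ℝ] (ι → ℂ)) →L[ℝ] ℂ :=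
  LinearMap.toContinuousLinearMap
    { toFun := fun D => (1 / 2 : ℂ) * (D (eb a) p - Complex.I * D (Complex.I • eb a) p)
      map_add' := by intro x y; simp only [_root_.add_apply, Pi.add_apply]; ring
      map_smul' := by
        intro r x
        simp only [_root_.smul_apply, Pi.smul_apply, RingHom.id_apply, Complex.real_smul]
        ring }

/-- `D ↦ ½ (D e_a + i D (i e_a))_p`. -/
noncomputable def cwfDer01 (a p : ι) : (CE ι →L[ℝ] (ι → ℂ)) →L[ℝ] ℂ :=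
  LinearMap.toContinuousLinearMap
    { toFun := fun D => (1 / 2 : ℂ) * (D (eb a) p + Complex.I * D (Complex.I • eb a) p)
      map_add' := by intro x y; simp only [_root_.add_apply, Pi.add_apply]; ring
      map_smul' := by
        intro r x
        simp only [_root_.smul_apply, Pi.smul_apply, RingHom.id_apply, Complex.real_smul]
        ring }

theorem cwfCov10_apply (a : ι) (ξ : CE ι →L[ℝ] ℝ) :
    cwfCov10 a ξ = (1 / 2 : ℂ) * ((ξ (eb a) : ℂ) - Complex.I * (ξ (Complex.I • eb a) : ℂ)) := rfl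

theorem cwfCov01_apply (a : ι) (ξ : CE ι →L[ℝ] ℝ) :
    cwfCov01 a ξ = (1 / 2 : ℂ) * ((ξ (eb a) : ℂ) + Complex.I * (ξ (Complex.I • eb a) : ℂ)) := rfl

theorem cwfDer10_apply (a p : ι) (D : CE ι →L[ℝ] (ι → ℂ)) :
    cwfDer10 a p D = (1 / 2 : ℂ) * (D (eb a) p - Complex.I * D (Complex.I • eb a) p) := rfl

theorem cwfDer01_apply (a p : ι) (D : CE ι →L[ℝ] (ι → ℂ)) :
    cwfDer01 a p D = (1 / 2 : ℂ) * (D (eb a) p + Complex.I * D (Complex.I • eb a) p) := rfl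

theorem cwfCov10_fderiv {φ : CE ι → ℝ} {z : CE ι} (hφ : DifferentiableAt ℝ φ z) (a : ι) :
    cwfCov10 a (fderiv ℝ φ z) = dz a (fun w => (φ w : ℂ)) z := by
  rw [cwfCov10_apply, dz_def, fderiv_ofReal_apply hφ, fderiv_ofReal_apply hφ]

theorem cwfCov01_fderiv {φ : CE ι → ℝ} {z : CE ι} (hφ : DifferentiableAt ℝ φ z) (a : ι) :
    cwfCov01 a (fderiv ℝ φ z) = dzb a (fun w => (φ w : ℂ)) z := by
  rw [cwfCov01_apply, dzb_def, fderiv_ofReal_apply hφ, fderiv_ofReal_apply hφ]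

theorem cwfDer10_fderiv {Y : CE ι → ι → ℂ} {z : CE ι} (hY : DifferentiableAt ℝ Y z) (a p : ι) :
    cwfDer10 a p (fderiv ℝ Y z) = dz a (fun w => Y w p) z := by
  rw [cwfDer10_apply, dz_def, cr_fderiv_apply hY, cr_fderiv_apply hY]

theorem cwfDer01_fderiv {Y : CE ι → ι → ℂ} {z : CE ι} (hY : DifferentiableAt ℝ Y z) (a p : ι) :
    cwfDer01 a p (fderiv ℝ Y z) = dzb a (fun w => Y w p) z := by
  rw [cwfDer01_apply, dzb_def, cr_fderiv_apply hY, cr_fderiv_apply hY]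

theorem cwfCov01_conj (a : ι) (ξ : CE ι →L[ℝ] ℝ) : conj (cwfCov01 a ξ) = cwfCov10 a ξ := by
  rw [cwfCov01_apply, cwfCov10_apply]
  simp only [map_mul, map_add, Complex.conj_ofReal, Complex.conj_I, map_div₀, map_one, map_ofNat]
  ring

/-- a covector in terms of its `(1,0)`-part. -/
theorem cwf_cov_apply (ξ : CE ι →L[ℝ] ℝ) (v : CE ι) : ξ v = 2 * (∑ a, cwfCov10 a ξ * v a).re := by
  conv_lhs => rw [CE_eq_sum v]
  rw [map_sum, Complex.re_sum, Finset.mul_sum]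
  refine Finset.sum_congr rfl fun a _ => ?_
  rw [map_add, map_smul, map_smul, cwfCov10_apply]
  simp only [smul_eq_mul, Complex.mul_re, Complex.sub_re, Complex.ofReal_re, Complex.I_re, Complex.I_im,
    Complex.ofReal_im, Complex.sub_im, Complex.mul_im, Complex.div_ofNat_re, Complex.div_ofNat_im, Complex.one_re,
    Complex.one_im]
  ring

/-- a family of complex functionals with vector coefficients. -/
noncomputable def cwfFam {X V κ : Type*} [Fintype κ] [NormedAddCommGroup X] [NormedSpace ℝ X]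
    [NormedAddCommGroup V] [NormedSpace ℂ V] (L : κ → X →L[ℝ] ℂ) (B : κ → V) : X →L[ℝ] V :=
  ∑ k, (L k).smulRight (B k)

theorem cwfFam_apply {X V κ : Type*} [Fintype κ] [NormedAddCommGroup X] [NormedSpace ℝ X]
    [NormedAddCommGroup V] [NormedSpace ℂ V] (L : κ → X →L[ℝ] ℂ) (B : κ → V) (x : X) :
    cwfFam L B x = ∑ k, L k x • B k := by
  simp [cwfFam]

theorem contDiffOn_cwfFam {E X V κ : Type*} [Fintype κ] [NormedAddCommGroup E] [NormedSpace ℝ E]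
    [NormedAddCommGroup X] [NormedSpace ℝ X] [FiniteDimensional ℝ X]
    [NormedAddCommGroup V] [NormedSpace ℂ V] (L : κ → X →L[ℝ] ℂ) {B : κ → E → V} {U : Set E}
    (hB : ∀ k, ContDiffOn ℝ ∞ (B k) U) : ContDiffOn ℝ ∞ (fun z => cwfFam L (fun k => B k z)) U := by
  refine contDiffOn_clm_apply.2 fun x => ?_
  simp only [cwfFam_apply]
  exact ContDiffOn.sum fun k _ => (hB k).const_smul (L k x)

/-- the symmetrisation identity, pointwise. -/
theorem cwf_sym_pointwise {f h y : CE ι → ℂ} {z : CE ι} (hf : DifferentiableAt ℝ f z)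
    (hh : DifferentiableAt ℝ h z) (hy : ContDiffAt ℝ 2 y z) (a l : ι) :
    dz a f z * h z * dzb l y z
      = (1 / 2) * (h z * (dz a y z * dzb l f z + dzb l y z * dz a f z))
        + (1 / 2) * (f z * (dzb l h z * dz a y z - dz a h z * dzb l y z))
        + (1 / 2) * (dz a (fun w => f w * h w * dzb l y w) z - dzb l (fun w => f w * h w * dz a y w) z) := by
  have hy1 : DifferentiableAt ℝ (dzb l y) z :=
    (contDiffAt_dzb (m := 1) hy (by norm_num)).differentiableAt (by norm_num)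
  have hy2 : DifferentiableAt ℝ (dz a y) z :=
    (contDiffAt_dz (m := 1) hy (by norm_num)).differentiableAt (by norm_num)
  have e1 : dz a (fun w => f w * h w * dzb l y w) z
      = (dz a f z * h z + f z * dz a h z) * dzb l y z + f z * h z * dz a (dzb l y) z := by
    have hfh : DifferentiableAt ℝ (fun w => f w * h w) z := hf.mul hh
    rw [dz_mul hfh hy1, dz_mul hf hh]
  have e2 : dzb l (fun w => f w * h w * dz a y w) z
      = (dzb l f z * h z + f z * dzb l h z) * dz a y z + f z * h z * dzb l (dz a y) z := by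
    have hfh : DifferentiableAt ℝ (fun w => f w * h w) z := hf.mul hh
    rw [dzb_mul hfh hy2, dzb_mul hf hh]
  rw [e1, e2, dz_dzb_comm hy]
  ring

/-- a continuous function on `U` vanishing off a compact subset is integrable. -/
theorem cwf_integrable {V : Type} [NormedAddCommGroup V] {U K : Set (CE ι)} (hU : IsOpen U) (hK : IsCompact K)
    (hKU : K ⊆ U) {g : CE ι → V} (hg : ContinuousOn g U) (h0 : ∀ z, z ∉ K → g z = 0) : Integrable g := by
  have h1 : IntegrableOn g U := integrableOn_of_continuousOn_of_compact hU hK hKU hg fun z _ hz => h0 z hz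
  exact h1.integrable_of_forall_notMem_eq_zero fun z hz => h0 z fun h => hz (hKU h)

/-- the divergence remainder. -/
noncomputable def cwfDiv (f : CE ι → ℂ) (h : ι → ι → CE ι → ℂ) (y : CE ι → ℂ) (z : CE ι) : ℂ :=
  (1 / 2) * ∑ a, ∑ l, (dz a (fun w => f w * h a l w * dzb l y w) z - dzb l (fun w => f w * h a l w * dz a y w) z)

theorem cwfDiv_integral {U K : Set (CE ι)} (hU : IsOpen U) (hK : IsCompact K) (hKU : K ⊆ U)
    {f : CE ι → ℂ} {h : ι → ι → CE ι → ℂ} {y : CE ι → ℂ} (hf : ContDiffOn ℝ ∞ f U)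
    (hh : ∀ a l, ContDiffOn ℝ ∞ (h a l) U) (hy : ContDiffOn ℝ ∞ y U) (h0 : ∀ z, z ∉ K → f z = 0) :
    IntegrableOn (cwfDiv f h y) U ∧ ∫ z in U, cwfDiv f h y z = 0 := by
  have s1 : ∀ a l, ContDiffOn ℝ ∞ (fun w => f w * h a l w * dzb l y w) U := fun a l =>
    (hf.mul (hh a l)).mul (contDiffOn_dzb hU hy)
  have s2 : ∀ a l, ContDiffOn ℝ ∞ (fun w => f w * h a l w * dz a y w) U := fun a l =>
    (hf.mul (hh a l)).mul (contDiffOn_dz hU hy)
  have z1 : ∀ a l, ∀ z ∈ U, z ∉ K → f z * h a l z * dzb l y z = 0 := fun a l z _ hz => by rw [h0 z hz]; ring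
  have z2 : ∀ a l, ∀ z ∈ U, z ∉ K → f z * h a l z * dz a y z = 0 := fun a l z _ hz => by rw [h0 z hz]; ring
  have i1 : ∀ a l, IntegrableOn (dz a (fun w => f w * h a l w * dzb l y w)) U := fun a l =>
    integrableOn_of_continuousOn_of_compact hU hK hKU (contDiffOn_dz hU (s1 a l)).continuousOn
      (ci_dz_zero hU hK (z1 a l) a)
  have i2 : ∀ a l, IntegrableOn (dzb l (fun w => f w * h a l w * dz a y w)) U := fun a l =>
    integrableOn_of_continuousOn_of_compact hU hK hKU (contDiffOn_dzb hU (s2 a l)).continuousOn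
      (ci_dzb_zero hU hK (z2 a l) l)
  have i12 : ∀ a l, Integrable (fun z => dz a (fun w => f w * h a l w * dzb l y w) z
      - dzb l (fun w => f w * h a l w * dz a y w) z) (volume.restrict U) := fun a l => (i1 a l).sub (i2 a l)
  have i3 : ∀ a, Integrable (fun z => ∑ l, (dz a (fun w => f w * h a l w * dzb l y w) z
      - dzb l (fun w => f w * h a l w * dz a y w) z)) (volume.restrict U) := fun a =>
    integrable_finsetSum _ fun l _ => i12 a l
  refine ⟨(integrable_finsetSum _ fun a _ => i3 a).const_mul _, ?_⟩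
  unfold cwfDiv
  rw [integral_const_mul, integral_finsetSum _ fun a _ => i3 a]
  rw [Finset.sum_eq_zero, mul_zero]
  intro a _
  rw [integral_finsetSum _ fun l _ => i12 a l]
  refine Finset.sum_eq_zero fun l _ => ?_
  rw [integral_sub (i1 a l) (i2 a l),
    setIntegral_dz_eq_zero hU hK hKU ((s1 a l).of_le (by exact_mod_cast le_top)) (z1 a l) a,
    setIntegral_dzb_eq_zero hU hK hKU ((s2 a l).of_le (by exact_mod_cast le_top)) (z2 a l) l, sub_zero]

/-- the real principal part `A ξ = ½ G⁻¹ ξ^{0,1}`. -/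
noncomputable def cwfA (G : CE ι → Matrix ι ι ℂ) (z : CE ι) : (CE ι →L[ℝ] ℝ) →L[ℝ] CE ι :=
  cwfFam cwfCov01 (fun l => ∑ a, ((1 / 2 : ℂ) * (G z)⁻¹ a l) • (eb a : CE ι))

theorem cwfA_apply (G : CE ι → Matrix ι ι ℂ) (z : CE ι) (ξ : CE ι →L[ℝ] ℝ) (a : ι) :
    cwfA G z ξ a = (1 / 2) * ∑ l, (G z)⁻¹ a l * cwfCov01 l ξ := by
  unfold cwfA
  rw [cwfFam_apply]
  simp only [WithLp.ofLp_sum, Finset.sum_apply, WithLp.ofLp_smul, Pi.smul_apply, eb_apply, smul_eq_mul,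
    mul_ite, mul_one, mul_zero, Finset.sum_ite_eq, Finset.mem_univ, if_true, Finset.mul_sum]
  refine Finset.sum_congr rfl fun l _ => ?_
  ring

theorem contDiffOn_cwfA {U : Set (CE ι)} {G : CE ι → Matrix ι ι ℂ}
    (hH : ∀ j l, ContDiffOn ℝ ∞ (fun z => (G z)⁻¹ j l) U) : ContDiffOn ℝ ∞ (cwfA G) U := by
  refine contDiffOn_cwfFam (B := fun l z => ∑ a, ((1 / 2 : ℂ) * (G z)⁻¹ a l) • (eb a : CE ι)) cwfCov01 fun l => ?_
  refine ContDiffOn.sum fun a _ => ?_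
  exact ((ContinuousLinearMap.toSpanSingleton ℂ (eb a : CE ι)).restrictScalars ℝ).contDiff.comp_contDiffOn
    (contDiffOn_const.mul (hH a l))

theorem cwfA_elliptic {G : CE ι → Matrix ι ι ℂ} {z : CE ι} (hG : (G z).PosDef) (ξ : CE ι →L[ℝ] ℝ) (hξ : ξ ≠ 0) :
    0 < ξ (cwfA G z ξ) := by
  have e : ξ (cwfA G z ξ) = qf (G z)⁻¹ (fun l => cwfCov01 l ξ) := by
    have h2 : ∀ w : ℂ, 2 * w.re = ((2 : ℂ) * w).re := fun w => by simp
    rw [cwf_cov_apply, qf_eq_sum, h2]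
    congr 1
    rw [Finset.mul_sum]
    refine Finset.sum_congr rfl fun a _ => ?_
    rw [cwfA_apply, cwfCov01_conj, Finset.mul_sum, Finset.mul_sum, Finset.mul_sum]
    refine Finset.sum_congr rfl fun l _ => ?_
    ring
  rw [e]
  refine qf_pos hG.inv fun h0 => hξ ?_
  ext v
  rw [cwf_cov_apply]
  have : ∀ a, cwfCov10 a ξ = 0 := fun a => by
    rw [← cwfCov01_conj, show cwfCov01 a ξ = 0 from congrFun h0 a, map_zero]
  simp [this]

theorem cwf_principal {Y : CE ι → ι → ℂ} {z : CE ι} (hY : DifferentiableAt ℝ Y z) {G : CE ι → Matrix ι ι ℂ}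
    (hG : (G z).IsHermitian) (ξ : CE ι →L[ℝ] ℝ) (p : ι) :
    fderiv ℝ Y z (cwfA G z ξ) p = (1 / 2) * ∑ a, ∑ l, ((G z)⁻¹ a l *
      (dz a (fun w => Y w p) z * cwfCov01 l ξ + dzb l (fun w => Y w p) z * cwfCov10 a ξ)) := by
  have hH : ∀ a l, conj ((G z)⁻¹ a l) = (G z)⁻¹ l a := fun a l => hG.inv.apply l a
  rw [cr_fderiv_apply hY, fderiv_eq_sum]
  simp only [cwfA_apply, map_mul, map_sum, hH, cwfCov01_conj, mul_add, Finset.sum_add_distrib, Finset.mul_sum,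
    map_div₀, map_one, map_ofNat]
  congr 1
  · refine Finset.sum_congr rfl fun a _ => Finset.sum_congr rfl fun l _ => ?_
    ring
  · rw [Finset.sum_comm]
    refine Finset.sum_congr rfl fun a _ => Finset.sum_congr rfl fun l _ => ?_
    ring

/-- the field `e^η G⁻¹ e_p`. -/
noncomputable def cwfZ0 (G : CE ι → Matrix ι ι ℂ) (η : CE ι → ℝ) (p : ι) (w : CE ι) : ι → ℂ :=
  fun q => (Real.exp (η w) : ℂ) * (G w)⁻¹ q p

noncomputable def cwfB1 (G : CE ι → Matrix ι ι ℂ) (η : CE ι → ℝ) (q : ι × ι) (z : CE ι) : ι → ℂ :=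
  fun p => -((Real.exp (-η z) : ℂ) * ((G z)ᵀ * (cdbar (cwfZ0 G η p) z)ᴴ * (G z)⁻¹) q.2 q.1)
    + (if q.2 = p then (1 / 2) * ∑ a, dz a (fun w => (G w)⁻¹ a q.1) z else 0)

noncomputable def cwfB2 (G : CE ι → Matrix ι ι ℂ) (q : ι × ι) (z : CE ι) : ι → ℂ :=
  fun p => if q.2 = p then -((1 / 2) * ∑ l, dzb l (fun w => (G w)⁻¹ q.1 l) z) else 0

noncomputable def cwfb (G : CE ι → Matrix ι ι ℂ) (η : CE ι → ℝ) (z : CE ι) :
    (CE ι →L[ℝ] (ι → ℂ)) →L[ℝ] (ι → ℂ) :=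
  cwfFam (fun q : ι × ι => cwfDer01 q.1 q.2) (fun q => cwfB1 G η q z)
    + cwfFam (fun q : ι × ι => cwfDer10 q.1 q.2) (fun q => cwfB2 G q z)

noncomputable def cwfc (G Θ : CE ι → Matrix ι ι ℂ) (z : CE ι) : (ι → ℂ) →L[ℝ] (ι → ℂ) :=
  cwfFam (fun k : ι => (ContinuousLinearMap.proj k : (ι → ℂ) →L[ℝ] ℂ)) (fun k p => -((G z)⁻¹ * Θ z) p k)

theorem cwfb_apply (G : CE ι → Matrix ι ι ℂ) (η : CE ι → ℝ) {Y : CE ι → ι → ℂ} {z : CE ι}
    (hY : DifferentiableAt ℝ Y z) (p : ι) :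
    cwfb G η z (fderiv ℝ Y z) p =
      -((Real.exp (-η z) : ℂ) * ((G z)⁻¹ * cdbar Y z * (G z)ᵀ * (cdbar (cwfZ0 G η p) z)ᴴ).trace)
      - (1 / 2) * ∑ a, ∑ l, (dzb l (fun w => (G w)⁻¹ a l) z * dz a (fun w => Y w p) z
          - dz a (fun w => (G w)⁻¹ a l) z * dzb l (fun w => Y w p) z) := by
  unfold cwfb
  rw [_root_.add_apply, cwfFam_apply, cwfFam_apply, Pi.add_apply, Finset.sum_apply, Finset.sum_apply]
  simp only [Pi.smul_apply, smul_eq_mul, cwfDer01_fderiv hY, cwfDer10_fderiv hY, cwfB1, cwfB2,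
    Fintype.sum_prod_type, mul_add, Finset.sum_add_distrib, mul_ite, mul_zero, Finset.sum_ite_eq',
    Finset.mem_univ, if_true]
  have e1 : ((G z)⁻¹ * cdbar Y z * (G z)ᵀ * (cdbar (cwfZ0 G η p) z)ᴴ).trace
      = ∑ l, ∑ j, cdbar Y z l j * ((G z)ᵀ * (cdbar (cwfZ0 G η p) z)ᴴ * (G z)⁻¹) j l := by
    rw [Matrix.mul_assoc, Matrix.mul_assoc, Matrix.trace_mul_comm, Matrix.mul_assoc,
      Matrix.trace]
    simp only [Matrix.diag_apply, Matrix.mul_apply (M := cdbar Y z)]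
  rw [e1]
  simp only [Finset.mul_sum, Finset.sum_sub_distrib, mul_sub, cdbar, mul_neg, Finset.sum_neg_distrib]
  have e2 : ∑ l, ∑ a, dzb l (fun w => Y w p) z * (1 / 2 * dz a (fun w => (G w)⁻¹ a l) z)
      = ∑ a, ∑ l, 1 / 2 * (dz a (fun w => (G w)⁻¹ a l) z * dzb l (fun w => Y w p) z) := by
    rw [Finset.sum_comm]
    refine Finset.sum_congr rfl fun a _ => Finset.sum_congr rfl fun l _ => ?_
    ring
  have e3 : ∑ a, ∑ l, dz a (fun w => Y w p) z * (1 / 2 * dzb l (fun w => (G w)⁻¹ a l) z)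
      = ∑ a, ∑ l, 1 / 2 * (dzb l (fun w => (G w)⁻¹ a l) z * dz a (fun w => Y w p) z) := by
    refine Finset.sum_congr rfl fun a _ => Finset.sum_congr rfl fun l _ => ?_
    ring
  have e4 : ∑ l, ∑ j, dzb l (fun w => Y w j) z *
        ((Real.exp (-η z) : ℂ) * ((G z)ᵀ * (cdbar (cwfZ0 G η p) z)ᴴ * (G z)⁻¹) j l)
      = ∑ l, ∑ j, (Real.exp (-η z) : ℂ) * (dzb l (fun w => Y w j) z *
        ((G z)ᵀ * (cdbar (cwfZ0 G η p) z)ᴴ * (G z)⁻¹) j l) := by
    refine Finset.sum_congr rfl fun a _ => Finset.sum_congr rfl fun l _ => ?_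
    ring
  rw [e2, e3, e4]
  ring

theorem cwfc_apply (G Θ : CE ι → Matrix ι ι ℂ) (z : CE ι) (y : ι → ℂ) (p : ι) :
    cwfc G Θ z y p = -(((G z)⁻¹ * Θ z) *ᵥ y) p := by
  unfold cwfc
  rw [cwfFam_apply, Finset.sum_apply, Matrix.mulVec, dotProduct, ← Finset.sum_neg_distrib]
  refine Finset.sum_congr rfl fun k _ => ?_
  simp only [Pi.smul_apply, smul_eq_mul, ContinuousLinearMap.proj_apply]
  ring

theorem cwf_contDiffOn_exp {U : Set (CE ι)} {η : CE ι → ℝ} (hη : ContDiffOn ℝ ∞ η U) :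
    ContDiffOn ℝ ∞ (fun w => (Real.exp (η w) : ℂ)) U :=
  Complex.ofRealCLM.contDiff.comp_contDiffOn (Real.contDiff_exp.comp_contDiffOn hη)

theorem contDiffOn_cwfZ0 {U : Set (CE ι)} {G : CE ι → Matrix ι ι ℂ} {η : CE ι → ℝ}
    (hH : ∀ j l, ContDiffOn ℝ ∞ (fun z => (G z)⁻¹ j l) U) (hη : ContDiffOn ℝ ∞ η U) (p : ι) :
    ContDiffOn ℝ ∞ (cwfZ0 G η p) U :=
  contDiffOn_pi.2 fun q => (cwf_contDiffOn_exp hη).mul (hH q p)

theorem contDiffOn_cwfb {U : Set (CE ι)} (hU : IsOpen U) {G : CE ι → Matrix ι ι ℂ} {η : CE ι → ℝ}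
    (hG : ∀ j l, ContDiffOn ℝ ∞ (fun z => G z j l) U)
    (hH : ∀ j l, ContDiffOn ℝ ∞ (fun z => (G z)⁻¹ j l) U) (hη : ContDiffOn ℝ ∞ η U) :
    ContDiffOn ℝ ∞ (cwfb G η) U := by
  refine ContDiffOn.add
    (contDiffOn_cwfFam (B := fun q z => cwfB1 G η q z) (fun q : ι × ι => cwfDer01 q.1 q.2) fun q => ?_)
    (contDiffOn_cwfFam (B := fun q z => cwfB2 G q z) (fun q : ι × ι => cwfDer10 q.1 q.2) fun q => ?_)
  · refine contDiffOn_pi.2 fun p => ?_
    unfold cwfB1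
    refine ContDiffOn.add (ContDiffOn.neg (ContDiffOn.mul (cwf_contDiffOn_exp hη.neg) ?_)) ?_
    · refine contDiffOn_matMul (contDiffOn_matMul (A := fun z => (G z)ᵀ) (fun j k => hG k j)
        (contDiffOn_conjTranspose (A := fun z => cdbar (cwfZ0 G η p) z) fun j k => ?_)) hH q.2 q.1
      exact contDiffOn_dzb hU (cr_contDiffOn_comp (contDiffOn_cwfZ0 hH hη p) k)
    · by_cases hq : q.2 = p
      · simp only [hq, if_true]
        exact contDiffOn_const.mul (ContDiffOn.sum fun a _ => contDiffOn_dz hU (hH a q.1))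
      · simp only [hq, if_false]
        exact contDiffOn_const
  · refine contDiffOn_pi.2 fun p => ?_
    unfold cwfB2
    by_cases hq : q.2 = p
    · simp only [hq, if_true]
      exact (contDiffOn_const.mul (ContDiffOn.sum fun l _ => contDiffOn_dzb hU (hH q.1 l))).neg
    · simp only [hq, if_false]
      exact contDiffOn_const

theorem contDiffOn_cwfc {U : Set (CE ι)} {G Θ : CE ι → Matrix ι ι ℂ}
    (hH : ∀ j l, ContDiffOn ℝ ∞ (fun z => (G z)⁻¹ j l) U) (hΘ : ∀ j l, ContDiffOn ℝ ∞ (fun z => Θ z j l) U) :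
    ContDiffOn ℝ ∞ (cwfc G Θ) U := by
  refine contDiffOn_cwfFam (B := fun k z p => -((G z)⁻¹ * Θ z) p k)
    (fun k : ι => (ContinuousLinearMap.proj k : (ι → ℂ) →L[ℝ] ℂ)) fun k => ?_
  exact contDiffOn_pi.2 fun p => (contDiffOn_matMul hH hΘ p k).neg

/-- the test field `φ · conj c · e^η G⁻¹ e_p`. -/
noncomputable def cwfZ (G : CE ι → Matrix ι ι ℂ) (η : CE ι → ℝ) (φ : CE ι → ℝ) (c : ℂ) (p : ι) (z : CE ι) : ι → ℂ :=
  φ z • (conj c • cwfZ0 G η p z)

theorem cwfZ_apply (G : CE ι → Matrix ι ι ℂ) (η : CE ι → ℝ) (φ : CE ι → ℝ) (c : ℂ) (p : ι) (z : CE ι) (j : ι) :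
    cwfZ G η φ c p z j = (φ z : ℂ) * (conj c * cwfZ0 G η p z j) := by
  simp [cwfZ]

theorem cwf_cdbar_Z {G : CE ι → Matrix ι ι ℂ} {η : CE ι → ℝ} {φ : CE ι → ℝ} (c : ℂ) (p : ι) {z : CE ι}
    (hφ : DifferentiableAt ℝ φ z) (hZ : DifferentiableAt ℝ (cwfZ0 G η p) z) :
    cdbar (cwfZ G η φ c p) z = conj c • (Matrix.vecMulVec (fun l => dzb l (fun w => (φ w : ℂ)) z) (cwfZ0 G η p z)
      + (φ z : ℂ) • cdbar (cwfZ0 G η p) z) := by
  ext l j
  have hj : DifferentiableAt ℝ (fun w => cwfZ0 G η p w j) z := (differentiableAt_pi.1 hZ) j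
  have e : cdbar (cwfZ G η φ c p) z l j = dzb l (fun w => (φ w : ℂ) * (conj c * cwfZ0 G η p w j)) z := by
    unfold cdbar
    simp only [cwfZ_apply]
  rw [e, dzb_mul (differentiableAt_ofReal hφ) (hj.const_mul _), dzb_const_mul _ hj]
  simp only [Matrix.smul_apply, Matrix.add_apply, Matrix.vecMulVec_apply, smul_eq_mul, cdbar]
  ring

theorem cwf_trace_principal {G : Matrix ι ι ℂ} (hG : G.PosDef) (N : Matrix ι ι ℂ) (t : ι → ℂ) (s : ℂ)
    (hs : conj s = s) (p : ι) :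
    (G⁻¹ * N * Gᵀ * (Matrix.vecMulVec t (fun q => s * G⁻¹ q p))ᴴ).trace
      = s * ∑ a, ∑ l, conj (t a) * G⁻¹ a l * N l p := by
  have hH : ∀ a l, conj (G⁻¹ a l) = G⁻¹ l a := fun a l => hG.isHermitian.inv.apply l a
  have h1 : Gᵀ *ᵥ star (fun q => s * G⁻¹ q p) = s • Pi.single p 1 := by
    ext j
    have h2 : (G⁻¹ * G) p j = (1 : Matrix ι ι ℂ) p j := by rw [inv_mul_cancel_of_posDef hG]
    rw [Matrix.mul_apply] at h2
    simp only [Matrix.mulVec, dotProduct, Matrix.transpose_apply, Pi.star_apply, RCLike.star_def, map_mul, hs, hH,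
      Pi.smul_apply, smul_eq_mul]
    calc ∑ q, G q j * (s * G⁻¹ p q) = s * ∑ q, G⁻¹ p q * G q j := by
          rw [Finset.mul_sum]; exact Finset.sum_congr rfl fun q _ => by ring
      _ = s * (Pi.single p 1 : ι → ℂ) j := by
          rw [h2, Matrix.one_apply, Pi.single_apply]
          by_cases h : p = j
          · simp [h]
          · simp [h, Ne.symm h]
  rw [Matrix.conjTranspose_vecMulVec, Matrix.mul_vecMulVec, Matrix.trace_vecMulVec, ← Matrix.mulVec_mulVec, h1,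
    Matrix.mulVec_smul, Matrix.mulVec_single_one, smul_dotProduct, smul_eq_mul]
  congr 1
  simp only [dotProduct, Matrix.col_apply, Matrix.mul_apply, Pi.star_apply, RCLike.star_def, Finset.sum_mul]
  refine Finset.sum_congr rfl fun a _ => Finset.sum_congr rfl fun l _ => ?_
  ring

/-- the integrand of the weak expression. -/
noncomputable def cwfX (G Θ : CE ι → Matrix ι ι ℂ) (η : CE ι → ℝ) (φ : CE ι → ℝ) (Y : CE ι → ι → ℂ) (z : CE ι) : ι → ℂ :=
  fderiv ℝ Y z (cwfA G z (fderiv ℝ φ z)) - φ z • (cwfb G η z (fderiv ℝ Y z) + cwfc G Θ z (Y z))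

theorem cwf_pointwise {G Θ : CE ι → Matrix ι ι ℂ} {η : CE ι → ℝ} {φ : CE ι → ℝ} {Y : CE ι → ι → ℂ} {z : CE ι}
    (hGp : (G z).PosDef) (hH : ∀ j l, DifferentiableAt ℝ (fun w => (G w)⁻¹ j l) z)
    (hZ : ∀ p, DifferentiableAt ℝ (cwfZ0 G η p) z)
    (hφ : DifferentiableAt ℝ φ z) (hY : ContDiffAt ℝ 2 Y z) (c : ℂ) (p : ι) :
    (nbIP (G z) (cdbar Y z) (cdbar (cwfZ G η φ c p) z) + qfB (Θ z) (Y z) (cwfZ G η φ c p z)) * Real.exp (-η z)
      = (c * (cwfX G Θ η φ Y z p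
          + cwfDiv (fun w => (φ w : ℂ)) (fun a l w => (G w)⁻¹ a l) (fun w => Y w p) z)).re := by
  have hYd : DifferentiableAt ℝ Y z := hY.differentiableAt (by norm_num)
  have hYp : ContDiffAt ℝ 2 (fun w => Y w p) z := (contDiffAt_pi.1 hY) p
  have hHh : ∀ a l, conj ((G z)⁻¹ a l) = (G z)⁻¹ l a := fun a l => hGp.isHermitian.inv.apply l a
  set E : ℂ := (Real.exp (η z) : ℂ) with hE
  set E' : ℂ := (Real.exp (-η z) : ℂ) with hE'
  have hEE : E * E' = 1 := by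
    rw [hE, hE', ← Complex.ofReal_mul, ← Real.exp_add]; simp
  have hEc : conj E = E := Complex.conj_ofReal _
  set T1 : ℂ := ∑ a, ∑ l, dz a (fun w => (φ w : ℂ)) z * (G z)⁻¹ a l * dzb l (fun w => Y w p) z with hT1
  set T2 : ℂ := ((G z)⁻¹ * cdbar Y z * (G z)ᵀ * (cdbar (cwfZ0 G η p) z)ᴴ).trace with hT2
  set T3 : ℂ := (((G z)⁻¹ * Θ z) *ᵥ Y z) p with hT3
  -- the form
  have h1 : nbIP (G z) (cdbar Y z) (cdbar (cwfZ G η φ c p) z) = (c * (E * T1 + (φ z : ℂ) * T2)).re := by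
    unfold nbIP
    rw [cwf_cdbar_Z c p hφ (hZ p), Matrix.conjTranspose_smul, Matrix.conjTranspose_add, Matrix.conjTranspose_smul,
      Matrix.mul_smul, Matrix.mul_add, Matrix.mul_smul, Matrix.trace_smul, Matrix.trace_add, Matrix.trace_smul]
    have e := cwf_trace_principal hGp (cdbar Y z) (fun l => dzb l (fun w => (φ w : ℂ)) z) E hEc p
    have e' : (fun q => E * (G z)⁻¹ q p) = cwfZ0 G η p z := rfl
    rw [e'] at e
    rw [e]
    simp only [RCLike.star_def, Complex.conj_conj, Complex.conj_ofReal, smul_eq_mul, ← dz_ofReal, cdbar]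
    rfl
  have h2 : qfB (Θ z) (Y z) (cwfZ G η φ c p z) = (c * ((φ z : ℂ) * E * T3)).re := by
    unfold qfB
    congr 1
    rw [hT3, ← Matrix.mulVec_mulVec]
    simp only [dotProduct, Pi.star_apply, RCLike.star_def, cwfZ_apply, cwfZ0, map_mul, Complex.conj_conj,
      Complex.conj_ofReal, hHh, Matrix.mulVec, Finset.mul_sum]
    refine Finset.sum_congr rfl fun j _ => Finset.sum_congr rfl fun k _ => ?_
    rw [hE]
    ring
  -- the weak expression
  have h3 : T1 = (1 / 2) * ∑ a, ∑ l, ((G z)⁻¹ a l * (dz a (fun w => Y w p) z * dzb l (fun w => (φ w : ℂ)) z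
        + dzb l (fun w => Y w p) z * dz a (fun w => (φ w : ℂ)) z))
      + (1 / 2) * ((φ z : ℂ) * ∑ a, ∑ l, (dzb l (fun w => (G w)⁻¹ a l) z * dz a (fun w => Y w p) z
          - dz a (fun w => (G w)⁻¹ a l) z * dzb l (fun w => Y w p) z))
      + cwfDiv (fun w => (φ w : ℂ)) (fun a l w => (G w)⁻¹ a l) (fun w => Y w p) z := by
    unfold cwfDiv
    simp only [Finset.mul_sum, ← Finset.sum_add_distrib, hT1]
    refine Finset.sum_congr rfl fun a _ => Finset.sum_congr rfl fun l _ => ?_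
    exact cwf_sym_pointwise (differentiableAt_ofReal hφ) (hH a l) hYp a l
  have h4 : cwfX G Θ η φ Y z p + cwfDiv (fun w => (φ w : ℂ)) (fun a l w => (G w)⁻¹ a l) (fun w => Y w p) z
      = T1 + (φ z : ℂ) * E' * T2 + (φ z : ℂ) * T3 := by
    unfold cwfX
    rw [Pi.sub_apply, Pi.smul_apply, Pi.add_apply, cwf_principal hYd hGp.isHermitian, cwfb_apply G η hYd,
      cwfc_apply, h3]
    simp only [cwfCov01_fderiv hφ, cwfCov10_fderiv hφ, Complex.real_smul]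
    ring
  rw [h1, h2, h4, ← Complex.add_re, ← Complex.re_mul_ofReal]
  congr 1
  rw [← hE']
  linear_combination (c * T1 + c * (φ z : ℂ) * T3) * hEE

theorem cwf_pointwise_L {G : CE ι → Matrix ι ι ℂ} {η : CE ι → ℝ} {φ : CE ι → ℝ} {z : CE ι}
    (hGp : (G z).PosDef) (β : ι → ℂ) (c : ℂ) (p : ι) :
    fvIP β (cwfZ G η φ c p z) * Real.exp (-η z) = (c * (φ z • ((G z)⁻¹ *ᵥ β)) p).re := by
  have hHh : ∀ a l, conj ((G z)⁻¹ a l) = (G z)⁻¹ l a := fun a l => hGp.isHermitian.inv.apply l a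
  have hEE : (Real.exp (η z) : ℂ) * (Real.exp (-η z) : ℂ) = 1 := by
    rw [← Complex.ofReal_mul, ← Real.exp_add]; simp
  unfold fvIP
  rw [← Complex.re_mul_ofReal]
  congr 1
  simp only [cwfZ_apply, cwfZ0, map_mul, Complex.conj_conj, Complex.conj_ofReal, hHh, Pi.smul_apply,
    Complex.real_smul, Matrix.mulVec, dotProduct, Finset.mul_sum, Finset.sum_mul]
  refine Finset.sum_congr rfl fun j _ => ?_
  linear_combination (β j * (φ z : ℂ) * c * (G z)⁻¹ p j) * hEE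

/-- `w ↦ Re (c w)`. -/
noncomputable def cwfRe (c : ℂ) : ℂ →L[ℝ] ℝ := Complex.reCLM.comp (ContinuousLinearMap.mul ℝ ℂ c)

theorem cwfRe_apply (c w : ℂ) : cwfRe c w = (c * w).re := rfl

theorem cwf_tendsto_complex {α : Type*} {l : Filter α} {u : α → ℂ} {w : ℂ}
    (h : ∀ c : ℂ, Tendsto (fun m => (c * u m).re) l (𝓝 (c * w).re)) : Tendsto u l (𝓝 w) := by
  have h1 : Tendsto (fun m => (u m).re) l (𝓝 w.re) := by simpa using h 1
  have h2 : Tendsto (fun m => (u m).im) l (𝓝 w.im) := by simpa using h (-Complex.I)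
  have h3 := ((Complex.continuous_ofReal.tendsto _).comp h1).add
    (((Complex.continuous_ofReal.tendsto _).comp h2).mul_const Complex.I)
  simpa [Complex.re_add_im] using h3

/-- the chart Dirichlet form. -/
noncomputable def chartQ (U : Set (CE ι)) (G Θ : CE ι → Matrix ι ι ℂ) (η : CE ι → ℝ) (Y Z : CE ι → ι → ℂ) : ℝ :=
  ∫ z in U, (nbIP (G z) (cdbar Y z) (cdbar Z z) + qfB (Θ z) (Y z) (Z z)) * Real.exp (-η z)

/-- the chart functional. -/
noncomputable def chartL (U : Set (CE ι)) (η : CE ι → ℝ) (β Z : CE ι → ι → ℂ) : ℝ :=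
  ∫ z in U, fvIP (β z) (Z z) * Real.exp (-η z)

theorem cwf_key {U : Set (CE ι)} (hU : IsOpen U) {G Θ : CE ι → Matrix ι ι ℂ} {η : CE ι → ℝ}
    (hG : ∀ j l, ContDiffOn ℝ ∞ (fun z => G z j l) U) (hGp : ∀ z ∈ U, (G z).PosDef)
    (hΘ : ∀ j l, ContDiffOn ℝ ∞ (fun z => Θ z j l) U) (hη : ContDiffOn ℝ ∞ η U)
    {Y : CE ι → ι → ℂ} (hY : ContDiffOn ℝ ∞ Y U) {φ : CE ι → ℝ} (hφ : Lib.Sob.IsTest U φ) (c : ℂ) (p : ι) :
    (c * ((∫ z, fderiv ℝ Y z (cwfA G z (fderiv ℝ φ z))) -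
      (∫ z, φ z • (cwfb G η z (fderiv ℝ Y z) + cwfc G Θ z (Y z)))) p).re
      = chartQ U G Θ η Y (cwfZ G η φ c p) := by
  have hH := contDiffOn_matInv_of_posDef hG hGp
  have hK : IsCompact (tsupport φ) := hφ.compact
  have hDY : ContinuousOn (fderiv ℝ Y) U := hY.continuousOn_fderiv_of_isOpen hU (by simp)
  have hDφ : ContinuousOn (fderiv ℝ φ) U := (hφ.smooth.continuous_fderiv (by simp)).continuousOn
  have c1 : ContinuousOn (fun z => fderiv ℝ Y z (cwfA G z (fderiv ℝ φ z))) U :=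
    hDY.clm_apply ((contDiffOn_cwfA hH).continuousOn.clm_apply hDφ)
  have c2 : ContinuousOn (fun z => φ z • (cwfb G η z (fderiv ℝ Y z) + cwfc G Θ z (Y z))) U :=
    hφ.smooth.continuous.continuousOn.smul (((contDiffOn_cwfb hU hG hH hη).continuousOn.clm_apply hDY).add
      ((contDiffOn_cwfc hH hΘ).continuousOn.clm_apply hY.continuousOn))
  have z1 : ∀ z, z ∉ tsupport φ → fderiv ℝ Y z (cwfA G z (fderiv ℝ φ z)) = 0 := fun z hz => by
    rw [fderiv_of_notMem_tsupport ℝ hz, map_zero, map_zero]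
  have z2 : ∀ z, z ∉ tsupport φ → φ z • (cwfb G η z (fderiv ℝ Y z) + cwfc G Θ z (Y z)) = 0 := fun z hz => by
    rw [image_eq_zero_of_notMem_tsupport hz, zero_smul]
  have i1 := cwf_integrable hU hK hφ.supp c1 z1
  have i2 := cwf_integrable hU hK hφ.supp c2 z2
  have iX : Integrable (cwfX G Θ η φ Y) := i1.sub i2
  have e1 : (∫ z, fderiv ℝ Y z (cwfA G z (fderiv ℝ φ z))) -
      (∫ z, φ z • (cwfb G η z (fderiv ℝ Y z) + cwfc G Θ z (Y z))) = ∫ z, cwfX G Θ η φ Y z :=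
    (integral_sub i1 i2).symm
  set ℓ : (ι → ℂ) →L[ℝ] ℝ := (cwfRe c).comp (ContinuousLinearMap.proj p) with hℓ
  have hℓa : ∀ x : ι → ℂ, ℓ x = (c * x p).re := fun x => rfl
  rw [e1, ← hℓa, ← ContinuousLinearMap.integral_comp_comm ℓ iX]
  have e2 : ∫ z, ℓ (cwfX G Θ η φ Y z) = ∫ z in U, ℓ (cwfX G Θ η φ Y z) := by
    refine (setIntegral_eq_integral_of_forall_compl_eq_zero fun z hz => ?_).symm
    have hz' : z ∉ tsupport φ := fun h => hz (hφ.supp h)
    unfold cwfX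
    rw [z1 z hz', z2 z hz', sub_zero, map_zero]
  obtain ⟨iD, hD0⟩ := cwfDiv_integral (f := fun w => (φ w : ℂ)) (h := fun a l w => (G w)⁻¹ a l)
    (y := fun w => Y w p) hU hK hφ.supp (Complex.ofRealCLM.contDiff.comp hφ.smooth).contDiffOn hH
    (cr_contDiffOn_comp hY p) (fun z hz => by rw [image_eq_zero_of_notMem_tsupport hz]; simp)
  have e3 : ∫ z in U, cwfRe c (cwfDiv (fun w => (φ w : ℂ)) (fun a l w => (G w)⁻¹ a l) (fun w => Y w p) z) = 0 := by
    rw [ContinuousLinearMap.integral_comp_comm _ iD, hD0, map_zero]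
  have e4 : chartQ U G Θ η Y (cwfZ G η φ c p) = ∫ z in U, (ℓ (cwfX G Θ η φ Y z)
      + cwfRe c (cwfDiv (fun w => (φ w : ℂ)) (fun a l w => (G w)⁻¹ a l) (fun w => Y w p) z)) := by
    unfold chartQ
    refine setIntegral_congr_fun hU.measurableSet fun z hz => ?_
    have hn := hU.mem_nhds hz
    show _ = ℓ (cwfX G Θ η φ Y z) + cwfRe c _
    rw [hℓa, cwfRe_apply, ← Complex.add_re, ← mul_add]
    exact cwf_pointwise (hGp z hz) (fun j l => ((hH j l).contDiffAt hn).differentiableAt (by simp))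
      (fun p => ((contDiffOn_cwfZ0 hH hη p).contDiffAt hn).differentiableAt (by simp))
      (hφ.smooth.differentiable (by simp) z) ((hY.contDiffAt hn).of_le (by norm_cast)) c p
  rw [e4, integral_add (ℓ.integrable_comp iX).integrableOn ((cwfRe c).integrable_comp iD), e3, add_zero, e2]

theorem cwf_contDiffOn_f {U : Set (CE ι)} {G : CE ι → Matrix ι ι ℂ} {β : CE ι → ι → ℂ}
    (hG : ∀ j l, ContDiffOn ℝ ∞ (fun z => G z j l) U) (hGp : ∀ z ∈ U, (G z).PosDef)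
    (hβ : ContDiffOn ℝ ∞ β U) : ContDiffOn ℝ ∞ (fun z => (G z)⁻¹ *ᵥ β z) U := by
  have hH := contDiffOn_matInv_of_posDef hG hGp
  refine contDiffOn_pi.2 fun q => ?_
  simp only [Matrix.mulVec, dotProduct]
  exact ContDiffOn.sum fun j _ => (hH q j).mul (cr_contDiffOn_comp hβ j)

theorem cwf_key_L {U : Set (CE ι)} (hU : IsOpen U) {G : CE ι → Matrix ι ι ℂ} {η : CE ι → ℝ} {β : CE ι → ι → ℂ}
    (hG : ∀ j l, ContDiffOn ℝ ∞ (fun z => G z j l) U) (hGp : ∀ z ∈ U, (G z).PosDef)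
    (hβ : ContDiffOn ℝ ∞ β U) {φ : CE ι → ℝ} (hφ : Lib.Sob.IsTest U φ) (c : ℂ) (p : ι) :
    (c * (∫ z, φ z • ((G z)⁻¹ *ᵥ β z)) p).re = chartL U η β (cwfZ G η φ c p) := by
  have hf := cwf_contDiffOn_f hG hGp hβ
  have z2 : ∀ z, z ∉ tsupport φ → φ z • ((G z)⁻¹ *ᵥ β z) = 0 := fun z hz => by
    rw [image_eq_zero_of_notMem_tsupport hz, zero_smul]
  have i2 : Integrable (fun z => φ z • ((G z)⁻¹ *ᵥ β z)) :=
    cwf_integrable hU hφ.compact hφ.supp (hφ.smooth.continuous.continuousOn.smul hf.continuousOn) z2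
  set ℓ : (ι → ℂ) →L[ℝ] ℝ := (cwfRe c).comp (ContinuousLinearMap.proj p) with hℓ
  have hℓa : ∀ x : ι → ℂ, ℓ x = (c * x p).re := fun x => rfl
  rw [← hℓa, ← ContinuousLinearMap.integral_comp_comm ℓ i2]
  have e2 : ∫ z, ℓ (φ z • ((G z)⁻¹ *ᵥ β z)) = ∫ z in U, ℓ (φ z • ((G z)⁻¹ *ᵥ β z)) := by
    refine (setIntegral_eq_integral_of_forall_compl_eq_zero fun z hz => ?_).symm
    rw [z2 z fun h => hz (hφ.supp h), map_zero]
  rw [e2]
  unfold chartL
  refine setIntegral_congr_fun hU.measurableSet fun z hz => ?_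
  exact (cwf_pointwise_L (hGp z hz) (β z) c p).symm

theorem chart_weak_form {U : Set (CE ι)} (hU : IsOpen U) {G Θ : CE ι → Matrix ι ι ℂ} {η : CE ι → ℝ}
    {β : CE ι → ι → ℂ} (hG : ∀ j l, ContDiffOn ℝ ∞ (fun z => G z j l) U) (hGp : ∀ z ∈ U, (G z).PosDef)
    (hΘ : ∀ j l, ContDiffOn ℝ ∞ (fun z => Θ z j l) U) (hη : ContDiffOn ℝ ∞ η U)
    (hβ : ContDiffOn ℝ ∞ β U) :
    ∃ (A : CE ι → (CE ι →L[ℝ] ℝ) →L[ℝ] CE ι) (b : CE ι → (CE ι →L[ℝ] (ι → ℂ)) →L[ℝ] (ι → ℂ))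
      (c : CE ι → (ι → ℂ) →L[ℝ] (ι → ℂ)) (d : CE ι → (ι → ℂ) →L[ℝ] ((CE ι →L[ℝ] ℝ) →L[ℝ] (ι → ℂ)))
      (f : CE ι → ι → ℂ),
      ContDiffOn ℝ ∞ A U ∧ ContDiffOn ℝ ∞ b U ∧ ContDiffOn ℝ ∞ c U ∧ ContDiffOn ℝ ∞ d U ∧ ContDiffOn ℝ ∞ f U ∧
      (∀ z ∈ U, ∀ ξ : CE ι →L[ℝ] ℝ, ξ ≠ 0 → 0 < ξ (A z ξ)) ∧
      ∀ Y : ℕ → CE ι → ι → ℂ, (∀ m, ContDiffOn ℝ ∞ (Y m) U) →
        (∀ Z : CE ι → ι → ℂ, ContDiff ℝ ∞ Z → HasCompactSupport Z → tsupport Z ⊆ U →
          Tendsto (fun m => chartQ U G Θ η (Y m) Z) atTop (𝓝 (chartL U η β Z))) →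
        ∀ φ : CE ι → ℝ, Lib.Sob.IsTest U φ →
          Tendsto (fun m => (∫ z, fderiv ℝ (Y m) z (A z (fderiv ℝ φ z))) -
              (∫ z, φ z • (b z (fderiv ℝ (Y m) z) + c z (Y m z))) - ∫ z, d z (Y m z) (fderiv ℝ φ z))
            atTop (𝓝 (∫ z, φ z • f z)) := by
  have hH := contDiffOn_matInv_of_posDef hG hGp
  refine ⟨cwfA G, cwfb G η, cwfc G Θ, fun _ => 0, fun z => (G z)⁻¹ *ᵥ β z, contDiffOn_cwfA hH,
    contDiffOn_cwfb hU hG hH hη, contDiffOn_cwfc hH hΘ, contDiffOn_const,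
    cwf_contDiffOn_f hG hGp hβ,
    fun z hz ξ hξ => cwfA_elliptic (hGp z hz) ξ hξ, fun Y hY hweak φ hφ => ?_⟩
  simp only [_root_.zero_apply, integral_zero, sub_zero]
  refine tendsto_pi_nhds.2 fun p => cwf_tendsto_complex fun c => ?_
  have hZ : Lib.Sob.IsTestV U (cwfZ G η φ c p) :=
    hφ.smul_of_contDiffOn hU ((contDiffOn_cwfZ0 hH hη p).const_smul (conj c))
  have := hweak _ hZ.1 hZ.2 hZ.3
  rw [cwf_key_L (η := η) hU hG hGp hβ hφ c p]
  simp only [cwf_key hU hG hGp hΘ hη (hY _) hφ c p]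
  exact this

/-- pairing with a continuous compactly supported operator field is continuous for `L²(K)` convergence. -/
theorem creg_pair {V V' : Type} [NormedAddCommGroup V] [NormedSpace ℝ V] [FiniteDimensional ℝ V]
    [NormedAddCommGroup V'] [NormedSpace ℝ V'] [FiniteDimensional ℝ V']
    {U K : Set (CE ι)} (hK : IsCompact K) (hKU : K ⊆ U) {T : CE ι → V →L[ℝ] V'}
    (hT : ContinuousOn T U) (h0 : ∀ z, z ∉ K → T z = 0) :
    (∀ x : CE ι → V, MemLp x 2 (volume.restrict K) → Integrable (fun z => T z (x z))) ∧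
    ∀ (xn : ℕ → CE ι → V) (x : CE ι → V), (∀ n, MemLp (xn n) 2 (volume.restrict K)) →
      MemLp x 2 (volume.restrict K) →
      Tendsto (fun n => eLpNorm (fun z => xn n z - x z) 2 (volume.restrict K)) atTop (𝓝 0) →
      Tendsto (fun n => ∫ z, T z (xn n z)) atTop (𝓝 (∫ z, T z (x z))) := by
  have : CompleteSpace V' := FiniteDimensional.complete ℝ V'
  have hT2 : MemLp T 2 (volume.restrict K) := Lib.Sob.l2Loc_of_continuousOn hT K hK hKU
  have hz : ∀ x : CE ι → V, ∀ z, z ∉ K → T z (x z) = 0 := fun x z hz => by rw [h0 z hz]; rfl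
  have he : ∀ x : CE ι → V, ∫ z, T z (x z) = ∫ z in K, T z (x z) := fun x =>
    (setIntegral_eq_integral_of_forall_compl_eq_zero (hz x)).symm
  refine ⟨fun x hx => ?_, fun xn x hxn hx h => ?_⟩
  · have := (Lib.Sob.l2Le_l2n hT2).integrableOn_clm_apply (Lib.Sob.l2Le_l2n hx)
    exact this.integrable_of_forall_notMem_eq_zero (hz x)
  · simp only [he]
    exact Lib.Sob.tendsto_setIntegral_clm_apply hT2 hxn hx h

theorem creg_h1Sq_eq {U K : Set (CE ι)} (hU : IsOpen U) (hK : IsCompact K) (hKU : K ⊆ U)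
    {Y W : CE ι → ι → ℂ} (hY : ContDiffOn ℝ ∞ Y U) (hW : ContDiffOn ℝ ∞ W U) :
    h1Sq K (Y - W) = Lib.Sob.l2n volume K (fun z => Y z - W z) ^ 2
      + Lib.Sob.l2n volume K (fun z => fderiv ℝ Y z - fderiv ℝ W z) ^ 2 := by
  have hDY : ContinuousOn (fderiv ℝ Y) U := hY.continuousOn_fderiv_of_isOpen hU (by simp)
  have hDW : ContinuousOn (fderiv ℝ W) U := hW.continuousOn_fderiv_of_isOpen hU (by simp)
  have m1 : MemLp (fun z => Y z - W z) 2 (volume.restrict K) :=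
    Lib.Sob.l2Loc_of_continuousOn (hY.continuousOn.sub hW.continuousOn) K hK hKU
  have m2 : MemLp (fun z => fderiv ℝ Y z - fderiv ℝ W z) 2 (volume.restrict K) :=
    Lib.Sob.l2Loc_of_continuousOn (hDY.sub hDW) K hK hKU
  rw [Lib.Sob.l2n_sq m1, Lib.Sob.l2n_sq m2, ← integral_add (Lib.Sob.MemLp_two_integrable_sq m1)
    (Lib.Sob.MemLp_two_integrable_sq m2)]
  unfold h1Sq
  refine setIntegral_congr_fun hK.measurableSet fun z hz => ?_
  have hn := hU.mem_nhds (hKU hz)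
  have e : fderiv ℝ (Y - W) z = fderiv ℝ Y z - fderiv ℝ W z :=
    fderiv_sub ((hY.contDiffAt hn).differentiableAt (by simp)) ((hW.contDiffAt hn).differentiableAt (by simp))
  show ‖(Y - W) z‖ ^ 2 + ‖fderiv ℝ (Y - W) z‖ ^ 2 = _
  rw [e]
  rfl

theorem creg_eLpNorm_le {V : Type} [NormedAddCommGroup V] [NormedSpace ℝ V] {K : Set (CE ι)} {u : CE ι → V}
    (hu : MemLp u 2 (volume.restrict K)) {δ : ℝ} (hδ : 0 ≤ δ) (h : Lib.Sob.l2n volume K u ^ 2 ≤ δ ^ 2) :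
    eLpNorm u 2 (volume.restrict K) ≤ ENNReal.ofReal δ := by
  rw [ENNReal.le_ofReal_iff_toReal_le hu.2.ne hδ]
  exact (pow_le_pow_iff_left₀ Lib.Sob.l2n_nonneg hδ two_ne_zero).1 h

/-- **interior regularity**: an `H¹_loc`-Cauchy sequence of smooth fields which solves the equation of the Dirichlet form in the limit converges in `H¹_loc` to a SMOOTH field. -/
theorem chart_regularity {U : Set (CE ι)} (hU : IsOpen U) {G Θ : CE ι → Matrix ι ι ℂ} {η : CE ι → ℝ}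
    {β : CE ι → ι → ℂ} (hG : ∀ j l, ContDiffOn ℝ ∞ (fun z => G z j l) U) (hGp : ∀ z ∈ U, (G z).PosDef)
    (hΘ : ∀ j l, ContDiffOn ℝ ∞ (fun z => Θ z j l) U) (hη : ContDiffOn ℝ ∞ η U)
    (hβ : ContDiffOn ℝ ∞ β U) {Y : ℕ → CE ι → ι → ℂ} (hY : ∀ m, ContDiffOn ℝ ∞ (Y m) U)
    (hcauchy : ∀ K : Set (CE ι), IsCompact K → K ⊆ U → ∀ ε : ℝ, 0 < ε →
      ∃ M : ℕ, ∀ m ≥ M, ∀ l ≥ M, h1Sq K (Y m - Y l) ≤ ε)
    (hweak : ∀ Z : CE ι → ι → ℂ, ContDiff ℝ ∞ Z → HasCompactSupport Z → tsupport Z ⊆ U →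
      Tendsto (fun m => chartQ U G Θ η (Y m) Z) atTop (𝓝 (chartL U η β Z))) :
    ∃ W : CE ι → ι → ℂ, ContDiffOn ℝ ∞ W U ∧
      ∀ K : Set (CE ι), IsCompact K → K ⊆ U → Tendsto (fun m => h1Sq K (Y m - W)) atTop (𝓝 0) := by
  obtain ⟨A, b, c, d, f, hA, hb, hc, hd, hf, hell, hlim⟩ := chart_weak_form hU hG hGp hΘ hη hβ
  have hYc : ∀ m, ContinuousOn (Y m) U := fun m => (hY m).continuousOn
  have hDYc : ∀ m, ContinuousOn (fderiv ℝ (Y m)) U := fun m => (hY m).continuousOn_fderiv_of_isOpen hU (by simp)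
  have hY2 : ∀ m, Lib.Sob.L2Loc volume U (Y m) := fun m => Lib.Sob.l2Loc_of_continuousOn (hYc m)
  have hDY2 : ∀ m, Lib.Sob.L2Loc volume U (fderiv ℝ (Y m)) := fun m => Lib.Sob.l2Loc_of_continuousOn (hDYc m)
  -- Cauchy in `L²(K)`
  have hcc : ∀ K : Set (CE ι), IsCompact K → K ⊆ U → ∀ ε : ENNReal, 0 < ε → ∃ N : ℕ, ∀ n m : ℕ, N ≤ n → N ≤ m →
      eLpNorm (fun x => Y n x - Y m x) 2 (volume.restrict K) ≤ ε ∧
      eLpNorm (fun x => fderiv ℝ (Y n) x - fderiv ℝ (Y m) x) 2 (volume.restrict K) ≤ ε := by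
    intro K hK hKU ε hε
    by_cases htop : ε = ⊤
    · exact ⟨0, fun n m _ _ => by rw [htop]; exact ⟨le_top, le_top⟩⟩
    have hδ : 0 < ε.toReal := ENNReal.toReal_pos hε.ne' htop
    obtain ⟨M, hM⟩ := hcauchy K hK hKU (ε.toReal ^ 2) (by positivity)
    refine ⟨M, fun n m hn hm => ?_⟩
    have h := hM n hn m hm
    rw [creg_h1Sq_eq hU hK hKU (hY n) (hY m)] at h
    rw [← ENNReal.ofReal_toReal htop]
    constructor
    · refine creg_eLpNorm_le (u := fun z => Y n z - Y m z) ((hY2 n K hK hKU).sub (hY2 m K hK hKU)) hδ.le ?_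
      nlinarith [sq_nonneg (Lib.Sob.l2n volume K (fun z => fderiv ℝ (Y n) z - fderiv ℝ (Y m) z))]
    · refine creg_eLpNorm_le (u := fun z => fderiv ℝ (Y n) z - fderiv ℝ (Y m) z)
        ((hDY2 n K hK hKU).sub (hDY2 m K hK hKU)) hδ.le ?_
      nlinarith [sq_nonneg (Lib.Sob.l2n volume K (fun z => Y n z - Y m z))]
  obtain ⟨W₀, hW₀, hW₀lim⟩ := exists_l2loc_limit volume hU hYc (fun K hK hKU ε hε => by
    obtain ⟨N, hN⟩ := hcc K hK hKU ε hε
    exact ⟨N, fun n m hn hm => (hN n m hn hm).1⟩)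
  obtain ⟨G₀, hG₀w, hG₀, hG₀lim⟩ := Lib.Sob.exists_hasWeakFDeriv_of_cauchy volume hU
    (fun m => (hY m).of_le (by exact_mod_cast le_top)) hW₀ hW₀lim (fun K hK hKU ε hε => by
    obtain ⟨N, hN⟩ := hcc K hK hKU ε hε
    exact ⟨N, fun n m hn hm => (hN n m hn hm).2⟩)
  -- the weak equation
  have hsol : Lib.Sob.IsWeakSol volume U A G₀ (fun x => f x + b x (G₀ x) + c x (W₀ x))
      (fun x => (fun _ => 0) x + d x (W₀ x)) := by
    intro φ hφ
    have hK : IsCompact (tsupport φ) := hφ.compact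
    have hKU := hφ.supp
    have hφc : ContinuousOn φ U := hφ.smooth.continuous.continuousOn
    have hDφ : ContinuousOn (fderiv ℝ φ) U := (hφ.smooth.continuous_fderiv (by simp)).continuousOn
    have hφ0 : ∀ z, z ∉ tsupport φ → φ z = 0 := fun z hz => image_eq_zero_of_notMem_tsupport hz
    have hDφ0 : ∀ z, z ∉ tsupport φ → fderiv ℝ φ z = 0 := fun z hz => fderiv_of_notMem_tsupport ℝ hz
    obtain ⟨ia, ta⟩ := creg_pair (T := fun z => ContinuousLinearMap.apply ℝ (ι → ℂ) (A z (fderiv ℝ φ z))) hK hKU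
      ((ContinuousLinearMap.apply ℝ (ι → ℂ)).continuous.comp_continuousOn (hA.continuousOn.clm_apply hDφ))
      (fun z hz => by rw [hDφ0 z hz, map_zero, map_zero])
    obtain ⟨ib, tb⟩ := creg_pair (T := fun z => φ z • b z) hK hKU (hφc.smul hb.continuousOn)
      (fun z hz => by rw [hφ0 z hz, zero_smul])
    obtain ⟨ic, tc⟩ := creg_pair (T := fun z => φ z • c z) hK hKU (hφc.smul hc.continuousOn)
      (fun z hz => by rw [hφ0 z hz, zero_smul])
    obtain ⟨id', td⟩ := creg_pair (T := fun z => (d z).flip (fderiv ℝ φ z)) hK hKU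
      (((ContinuousLinearMap.flipₗᵢ ℝ (ι → ℂ) (CE ι →L[ℝ] ℝ) (ι → ℂ)).continuous.comp_continuousOn
        hd.continuousOn).clm_apply hDφ)
      (fun z hz => by rw [hDφ0 z hz, map_zero])
    have l1 := ta _ _ (fun m => hDY2 m _ hK hKU) (hG₀ _ hK hKU) (hG₀lim _ hK hKU)
    have l2 := tb _ _ (fun m => hDY2 m _ hK hKU) (hG₀ _ hK hKU) (hG₀lim _ hK hKU)
    have l3 := tc _ _ (fun m => hY2 m _ hK hKU) (hW₀ _ hK hKU) (hW₀lim _ hK hKU)
    have l4 := td _ _ (fun m => hY2 m _ hK hKU) (hW₀ _ hK hKU) (hW₀lim _ hK hKU)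
    have hsplit : ∀ (D : CE ι → CE ι →L[ℝ] (ι → ℂ)) (y : CE ι → ι → ℂ), MemLp D 2 (volume.restrict (tsupport φ)) →
        MemLp y 2 (volume.restrict (tsupport φ)) →
        ∫ z, φ z • (b z (D z) + c z (y z)) = (∫ z, (φ z • b z) (D z)) + ∫ z, (φ z • c z) (y z) := fun D y hD hy => by
      rw [← integral_add (ib D hD) (ic y hy)]
      refine integral_congr_ae (Eventually.of_forall fun z => ?_)
      simp only [smul_add, _root_.smul_apply]
    have l5 := ((l1.sub (l2.add l3)).sub l4)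
    have l6 := hlim Y hY hweak φ hφ
    have e6 : (fun m => (∫ z, fderiv ℝ (Y m) z (A z (fderiv ℝ φ z))) -
              (∫ z, φ z • (b z (fderiv ℝ (Y m) z) + c z (Y m z))) - ∫ z, d z (Y m z) (fderiv ℝ φ z))
        = fun m => (∫ z, ContinuousLinearMap.apply ℝ (ι → ℂ) (A z (fderiv ℝ φ z)) (fderiv ℝ (Y m) z)) -
              ((∫ z, (φ z • b z) (fderiv ℝ (Y m) z)) + ∫ z, (φ z • c z) (Y m z))
              - ∫ z, (d z).flip (fderiv ℝ φ z) (Y m z) := by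
      funext m
      rw [hsplit _ _ (hDY2 m _ hK hKU) (hY2 m _ hK hKU)]
      rfl
    rw [e6] at l6
    have huniq := tendsto_nhds_unique l5 l6
    have if' : Integrable (fun z => φ z • f z) :=
      cwf_integrable hU hK hKU (hφc.smul hf.continuousOn) (fun z hz => by rw [hφ0 z hz, zero_smul])
    have e7 : ∫ z, φ z • (f z + b z (G₀ z) + c z (W₀ z))
        = (∫ z, φ z • f z) + ((∫ z, (φ z • b z) (G₀ z)) + ∫ z, (φ z • c z) (W₀ z)) := by
      have iBC : Integrable (fun z => (φ z • b z) (G₀ z) + (φ z • c z) (W₀ z)) :=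
        (ib G₀ (hG₀ _ hK hKU)).add (ic W₀ (hW₀ _ hK hKU))
      rw [← integral_add (ib G₀ (hG₀ _ hK hKU)) (ic W₀ (hW₀ _ hK hKU)), ← integral_add if' iBC]
      refine integral_congr_ae (Eventually.of_forall fun z => ?_)
      simp only [smul_add, _root_.smul_apply, add_assoc]
    have e8 : ∫ z, ((fun _ => 0) z + d z (W₀ z)) (fderiv ℝ φ z) = ∫ z, (d z).flip (fderiv ℝ φ z) (W₀ z) := by
      refine integral_congr_ae (Eventually.of_forall fun z => ?_)
      simp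
    have e9 : ∫ z, G₀ z (A z (fderiv ℝ φ z))
        = ∫ z, ContinuousLinearMap.apply ℝ (ι → ℂ) (A z (fderiv ℝ φ z)) (G₀ z) := rfl
    rw [e7, e8, e9, ← huniq]
    abel
  obtain ⟨W, hW, hWae⟩ := Lib.Sob.smooth_of_weakSol volume hU hA hb hc hd hf
    (H := fun _ => 0) contDiffOn_const hell hG₀w hW₀ hG₀ hsol
  have hDae : ∀ᵐ x ∂(volume.restrict U), G₀ x = fderiv ℝ W x :=
    (hG₀w.congr_ae hU hWae (Eventually.of_forall fun _ => rfl)).unique hU
      (Lib.Sob.hasWeakFDeriv_of_contDiffOn volume hU (hW.of_le (by exact_mod_cast le_top)))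
  refine ⟨W, hW, fun K hK hKU => ?_⟩
  have hWK := ae_restrict_of_ae_restrict_of_subset hKU hWae
  have hDK := ae_restrict_of_ae_restrict_of_subset hKU hDae
  have e1 : ∀ m, Lib.Sob.l2n volume K (fun z => Y m z - W z) = Lib.Sob.l2n volume K (fun z => Y m z - W₀ z) := fun m => by
    unfold Lib.Sob.l2n
    congr 1
    refine eLpNorm_congr_ae ?_
    filter_upwards [hWK] with z hz
    rw [hz]
  have e2 : ∀ m, Lib.Sob.l2n volume K (fun z => fderiv ℝ (Y m) z - fderiv ℝ W z)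
      = Lib.Sob.l2n volume K (fun z => fderiv ℝ (Y m) z - G₀ z) := fun m => by
    unfold Lib.Sob.l2n
    congr 1
    refine eLpNorm_congr_ae ?_
    filter_upwards [hDK] with z hz
    rw [hz]
  simp only [creg_h1Sq_eq hU hK hKU (hY _) hW, e1, e2]
  have t1 := (Lib.Sob.l2_tendsto_l2n_sub (hW₀lim K hK hKU)).pow 2
  have t2 := (Lib.Sob.l2_tendsto_l2n_sub (hG₀lim K hK hKU)).pow 2
  simpa using t1.add t2

end Claimed.Agent.R316
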