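import Claimed.Agent.R316.Base.L2M.Int1

/-!
# Row 316, `BP-G11`: the integrals `kInt`; bilinearity of `dirQ`, `divQ`, `pairQ`; the bound of the functional

Leaves: `G11-INT-A` (section 1: general API of `kDens`/`kInt`), `G11-INT-B` (section 2: the forms on `testKV`), `G11-INT-C` (section 3: `L²_loc` convergence of sections).

All integrands are `kDens 𝓜 h φ k F x = 𝓜.scal (kw · F) x · e^{-φ x}` with `kw · F` INVARIANT (`Inv.lean`), so `kDens … (Φ z) = kw h k Φ z · F Φ z · e^{-φ(Φ z)}` in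
every chart (`CMfd.scal_eq`); continuity on the carrier from continuity in charts (`CMfd.continuousOn_iff`); integrability from `integrable_hvol_of_csupp`.
Pointwise identities (additivity…) are checked in the chosen chart `𝓜.pΦ x` at `𝓜.co x` (`CMfd.isHol_pΦ`, `co_mem`): `𝓜.scal F x = F (𝓜.pΦ x) (𝓜.co x)` by definition.
-/

set_option autoImplicit false
set_option linter.unusedSectionVars false
open scoped ContDiff ComplexOrder ComplexConjugate Topology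
open MeasureTheory Filter

namespace Claimed.Agent.R316

variable {V : Type} [NormedAddCommGroup V] [NormedSpace ℝ V] [MeasurableSpace V] [BorelSpace V]
  [FiniteDimensional ℝ V]
variable {ι : Type} [Fintype ι] [DecidableEq ι]
variable {𝓜 : CMfd V ι} {g h : HFam V ι} {φ : V → ℝ} {k : ℤ}
variable {s s' : SFam V ι} {β B B' : VFam V ι}

/-! ### 3. `L²_loc` convergence of sections -/

section conv

/-- `s_m → v` in `L²` on the compact subsets of the manifold. -/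
def TendstoL2Loc (𝓜 : CMfd V ι) (h : HFam V ι) (φ : V → ℝ) (k : ℤ) (s : ℕ → SFam V ι) (v : SFam V ι) : Prop :=
  ∀ K : Set V, IsCompact K → K ⊆ 𝓜.carrier →
    Tendsto (fun m => ∫ x in K, kDens 𝓜 h φ k (fun Φ z => ‖s m Φ z - v Φ z‖ ^ 2) x ∂(hvol 𝓜 h)) atTop (𝓝 0)

variable {sq : ℕ → SFam V ι} {v t : SFam V ι}

/-- Cauchy-Schwarz in density form. -/
theorem l2m_integral_sq_le {α : Type*} [MeasurableSpace α] {μ : Measure α} {p a b : α → ℝ}
    (hp : Integrable p μ) (ha : Integrable a μ) (hb : Integrable b μ) (ha0 : ∀ᵐ x ∂μ, 0 ≤ a x)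
    (hb0 : ∀ᵐ x ∂μ, 0 ≤ b x) (h : ∀ᵐ x ∂μ, p x ^ 2 ≤ a x * b x) :
    (∫ x, p x ∂μ) ^ 2 ≤ (∫ x, a x ∂μ) * ∫ x, b x ∂μ := by
  have key : ∀ t : ℝ, 0 ≤ (∫ x, a x ∂μ) * (t * t) + (-2 * ∫ x, p x ∂μ) * t + ∫ x, b x ∂μ := by
    intro t
    have hpt : ∀ᵐ x ∂μ, 2 * t * p x ≤ t ^ 2 * a x + b x := by
      filter_upwards [ha0, hb0, h] with x h1 h2 h3
      exact l2m_amgm h1 h2 h3
    have h3 := integral_mono_ae (hp.const_mul (2 * t)) ((ha.const_mul (t ^ 2)).add hb) hpt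
    rw [integral_const_mul, integral_add' (ha.const_mul (t ^ 2)) hb, integral_const_mul] at h3
    nlinarith
  have hd := discrim_le_zero key
  rw [discrim] at hd
  nlinarith

/-- the integral of a nonnegative function over a set covered by finitely many sets. -/
theorem l2m_setIntegral_le_sum {α : Type*} [MeasurableSpace α] {μ : Measure α} {f : α → ℝ} {n : ℕ}
    {K : Set α} {A : Fin n → Set α} (hKm : MeasurableSet K) (hA : ∀ i, MeasurableSet (A i))
    (hcov : K ⊆ ⋃ i, A i)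
    (hf : ∀ i, IntegrableOn f (A i) μ) (h0 : ∀ᵐ x ∂μ, 0 ≤ f x) :
    ∫ x in K, f x ∂μ ≤ ∑ i, ∫ x in A i, f x ∂μ := by
  have hU : IntegrableOn f (⋃ i, A i) μ := by
    rw [integrableOn_finite_iUnion]
    exact hf
  have h1 : ∫ x in K, f x ∂μ = ∫ x, K.indicator f x ∂μ := (integral_indicator hKm).symm
  have h2 : ∀ i, ∫ x in A i, f x ∂μ = ∫ x, (A i).indicator f x ∂μ := fun i => (integral_indicator (hA i)).symm
  rw [h1]
  simp only [h2]
  rw [← integral_finsetSum _ fun i _ => (hf i).integrable_indicator (hA i)]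
  refine integral_mono_ae ((hU.mono_set hcov).integrable_indicator hKm)
    (integrable_finsetSum _ fun i _ => (hf i).integrable_indicator (hA i)) ?_
  filter_upwards [h0] with x hx
  by_cases hxK : x ∈ K
  · obtain ⟨i, hi⟩ := Set.mem_iUnion.1 (hcov hxK)
    rw [Set.indicator_of_mem hxK]
    calc f x = (A i).indicator f x := (Set.indicator_of_mem hi f).symm
      _ ≤ ∑ j, (A j).indicator f x :=
        Finset.single_le_sum (f := fun j => (A j).indicator f x)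
          (fun j _ => Set.indicator_apply_nonneg (fun _ => hx)) (Finset.mem_univ i)
  · rw [Set.indicator_of_notMem hxK]
    exact Finset.sum_nonneg fun j _ => Set.indicator_apply_nonneg (fun _ => hx)

theorem continuousOn_kDens_normSq (hh : IsMetric 𝓜 h) (hφ : 𝓜.Smooth φ) (hs : IsKSec 𝓜 k s) :
    ContinuousOn (kDens 𝓜 h φ k (fun Φ z => ‖s Φ z‖ ^ 2)) 𝓜.carrier :=
  continuousOn_kDens hh hφ (invariant_kw_normSq hh hs) fun Φ U hΦ => (hs.smooth hΦ).continuousOn.norm.pow 2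

theorem kDens_normSq_nonneg (hh : IsMetric 𝓜 h) (s : SFam V ι) {x : V} (hx : x ∈ 𝓜.carrier) :
    0 ≤ kDens 𝓜 h φ k (fun Φ z => ‖s Φ z‖ ^ 2) x :=
  kDens_nonneg hh (fun _ _ _ _ _ => by positivity) hx

/-- it suffices to check the convergence on compact subsets of charts. -/
theorem tendstoL2Loc_of_charts (hh : IsMetric 𝓜 h) (hφ : 𝓜.Smooth φ) (hs : ∀ m, IsKSec 𝓜 k (sq m))
    (hv : IsKSec 𝓜 k v)
    (hloc : ∀ (Φ : CE ι → V) (U : Set (CE ι)), 𝓜.IsHol Φ U → ∀ C : Set (CE ι), IsCompact C → C ⊆ U →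
      Tendsto (fun m => ∫ z in C, ‖sq m Φ z - v Φ z‖ ^ 2) atTop (𝓝 0)) :
    TendstoL2Loc 𝓜 h φ k sq v := by
  intro K hK hKM
  obtain ⟨n, Φ, r, hr, hΦ, hcov⟩ := 𝓜.exists_finite_cover hK hKM
  have hsub : ∀ i, Metric.closedBall (0 : CE ι) (r i) ⊆ Metric.ball 0 (2 * r i) := fun i =>
    Metric.closedBall_subset_ball (by linarith [hr i])
  have hcpt : ∀ i, IsCompact (Metric.closedBall (0 : CE ι) (r i)) := fun i => isCompact_closedBall _ _
  have hd : ∀ m, IsKSec 𝓜 k (sq m - v) := fun m => (hs m).sub hv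
  have hbd : ∀ i, ∃ C : ℝ, ∀ z ∈ Metric.closedBall (0 : CE ι) (r i),
      ‖Real.exp (-(wt h φ k (Φ i) z))‖ ≤ C := fun i =>
    (hcpt i).exists_bound_of_continuousOn (Real.continuous_exp.comp_continuousOn
      ((contDiffOn_wt hh hφ (hΦ i) k).continuousOn.mono (hsub i)).neg)
  choose C hC using hbd
  have hlim : Tendsto (fun m => ∑ i, C i * ∫ z in Metric.closedBall (0 : CE ι) (r i),
      ‖sq m (Φ i) z - v (Φ i) z‖ ^ 2) atTop (𝓝 0) := by
    have : Tendsto (fun m => ∑ i, C i * ∫ z in Metric.closedBall (0 : CE ι) (r i),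
        ‖sq m (Φ i) z - v (Φ i) z‖ ^ 2) atTop (𝓝 (∑ i : Fin n, C i * 0)) :=
      tendsto_finsetSum _ fun i _ => (hloc (Φ i) _ (hΦ i) _ (hcpt i) (hsub i)).const_mul (C i)
    simpa using this
  refine squeeze_zero (fun m => ?_) (fun m => ?_) hlim
  · exact setIntegral_nonneg_ae hK.isClosed.measurableSet
      (ae_hvol_of_forall_mem fun x hx _ => kDens_normSq_nonneg hh (sq m - v) hx)
  · have hcont := continuousOn_kDens_normSq hh hφ (hd m)
    have hA : ∀ i, Φ i '' Metric.closedBall 0 (r i) ⊆ 𝓜.carrier := fun i =>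
      (Set.image_mono (hsub i)).trans (𝓜.isParam (hΦ i)).image_subset
    have hAc : ∀ i, IsCompact (Φ i '' Metric.closedBall 0 (r i)) := fun i =>
      (hcpt i).image_of_continuousOn ((𝓜.isParam (hΦ i)).continuousOn.mono (hsub i))
    have h1 := l2m_setIntegral_le_sum (μ := hvol 𝓜 h)
      (f := kDens 𝓜 h φ k (fun Φ z => ‖(sq m - v) Φ z‖ ^ 2)) (K := K)
      (A := fun i => Φ i '' Metric.closedBall 0 (r i)) hK.isClosed.measurableSet
      (fun i => (hAc i).isClosed.measurableSet)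
      (hcov.trans (Set.iUnion_mono fun i => Set.image_mono Metric.ball_subset_closedBall))
      (fun i => integrableOn_hvol_of_continuousOn hh (hAc i) (hA i) (hcont.mono (hA i)))
      (ae_hvol_of_forall_mem fun x hx => kDens_normSq_nonneg hh (sq m - v) hx)
    refine h1.trans (Finset.sum_le_sum fun i _ => ?_)
    rw [setIntegral_kDens_image hh (invariant_kw_normSq hh (hd m)) (hΦ i) (hsub i)
      (hcpt i).isClosed.measurableSet, ← integral_const_mul]
    have hc1 : ContinuousOn (fun z => ‖(sq m - v) (Φ i) z‖ ^ 2) (Metric.closedBall 0 (r i)) :=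
      (((hd m).smooth (hΦ i)).continuousOn.mono (hsub i)).norm.pow 2
    have hc2 : ContinuousOn (fun z => Real.exp (-(wt h φ k (Φ i) z))) (Metric.closedBall 0 (r i)) :=
      Real.continuous_exp.comp_continuousOn ((contDiffOn_wt hh hφ (hΦ i) k).continuousOn.mono (hsub i)).neg
    refine setIntegral_mono_on ((hc1.mul hc2).integrableOn_compact (hcpt i))
      ((hc1.integrableOn_compact (hcpt i)).const_mul (C i)) (hcpt i).isClosed.measurableSet fun z hz => ?_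
    have h2 := hC i z hz
    rw [Real.norm_eq_abs, abs_of_pos (Real.exp_pos _)] at h2
    rw [mul_comm]
    exact mul_le_mul_of_nonneg_right h2 (by positivity)

theorem l2m_normSq_le (a b : ℂ) {δ : ℝ} (hδ : 0 < δ) :
    ‖b‖ ^ 2 ≤ (1 + δ) * ‖a‖ ^ 2 + (1 + δ⁻¹) * ‖a - b‖ ^ 2 := by
  have h1 : ‖b‖ ≤ ‖a‖ + ‖a - b‖ := by
    have := norm_sub_le a (a - b)
    simpa using this
  have h2 : ‖b‖ ^ 2 ≤ (‖a‖ + ‖a - b‖) ^ 2 := pow_le_pow_left₀ (norm_nonneg _) h1 2
  have h3 : 2 * ‖a‖ * ‖a - b‖ ≤ δ * ‖a‖ ^ 2 + δ⁻¹ * ‖a - b‖ ^ 2 := by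
    have h4 : 0 ≤ (δ * ‖a‖ - ‖a - b‖) ^ 2 * δ⁻¹ := by positivity
    have h5 : (δ * ‖a‖ - ‖a - b‖) ^ 2 * δ⁻¹ = δ * ‖a‖ ^ 2 - 2 * ‖a‖ * ‖a - b‖ + δ⁻¹ * ‖a - b‖ ^ 2 := by
      field_simp
      ring
    linarith
  nlinarith

/-- lower semicontinuity of the norm.  PLAN: on a compact `K`: `√∫_K |v|² ≤ √∫_K |s_m|² + √∫_K |s_m - v|²` (Minkowski in `L²(K)`), so `∫_K |v|² ≤ I`;
exhaust the carrier by compact sets (`CMfd.isSigmaCompact_carrier`), monotone convergence (`integrable_of_…`/`lintegral`). -/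
theorem secQ_le_of_tendstoL2Loc (hh : IsMetric 𝓜 h) (hφ : 𝓜.Smooth φ) (hs : ∀ m, IsKSec 𝓜 k (sq m))
    (hsi : ∀ m, Integrable (kDens 𝓜 h φ k (fun Φ z => ‖sq m Φ z‖ ^ 2)) (hvol 𝓜 h))
    (hv : IsKSec 𝓜 k v) (hconv : TendstoL2Loc 𝓜 h φ k sq v) {I : ℝ}
    (hI : ∀ ε : ℝ, 0 < ε → ∀ᶠ m in atTop, kInt 𝓜 h φ k (fun Φ z => ‖sq m Φ z‖ ^ 2) ≤ I + ε) :
    Integrable (kDens 𝓜 h φ k (fun Φ z => ‖v Φ z‖ ^ 2)) (hvol 𝓜 h) ∧
      kInt 𝓜 h φ k (fun Φ z => ‖v Φ z‖ ^ 2) ≤ I := by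
  have hd : ∀ m, IsKSec 𝓜 k (sq m - v) := fun m => (hs m).sub hv
  have hcv := continuousOn_kDens_normSq (φ := φ) hh hφ hv
  have hnn : ∀ᵐ x ∂(hvol 𝓜 h), 0 ≤ kDens 𝓜 h φ k (fun Φ z => ‖v Φ z‖ ^ 2) x :=
    ae_hvol_of_forall_mem fun x hx => kDens_normSq_nonneg hh v hx
  -- step 1: the bound on compact sets
  have hK : ∀ K : Set V, IsCompact K → K ⊆ 𝓜.carrier →
      ∫ x in K, kDens 𝓜 h φ k (fun Φ z => ‖v Φ z‖ ^ 2) x ∂(hvol 𝓜 h) ≤ I := by
    intro K hKc hKM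
    have hKm := hKc.isClosed.measurableSet
    have hstep : ∀ ε : ℝ, 0 < ε →
        ∫ x in K, kDens 𝓜 h φ k (fun Φ z => ‖v Φ z‖ ^ 2) x ∂(hvol 𝓜 h) ≤ (1 + ε) * (I + ε) := by
      intro ε hε
      have hlim : Tendsto (fun m => (1 + ε) * (I + ε) + (1 + ε⁻¹) *
          ∫ x in K, kDens 𝓜 h φ k (fun Φ z => ‖sq m Φ z - v Φ z‖ ^ 2) x ∂(hvol 𝓜 h)) atTop
          (𝓝 ((1 + ε) * (I + ε) + (1 + ε⁻¹) * 0)) :=
        ((hconv K hKc hKM).const_mul _).const_add _
      rw [mul_zero, add_zero] at hlim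
      refine ge_of_tendsto hlim ((hI ε hε).mono fun m hm => ?_)
      have i1 : IntegrableOn (kDens 𝓜 h φ k (fun Φ z => ‖v Φ z‖ ^ 2)) K (hvol 𝓜 h) :=
        integrableOn_hvol_of_continuousOn hh hKc hKM (hcv.mono hKM)
      have i2 : IntegrableOn (kDens 𝓜 h φ k (fun Φ z => ‖sq m Φ z‖ ^ 2)) K (hvol 𝓜 h) :=
        (hsi m).integrableOn
      have i3 : IntegrableOn (kDens 𝓜 h φ k (fun Φ z => ‖(sq m - v) Φ z‖ ^ 2)) K (hvol 𝓜 h) :=
        integrableOn_hvol_of_continuousOn hh hKc hKM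
          ((continuousOn_kDens_normSq hh hφ (hd m)).mono hKM)
      have hpt : ∀ x ∈ K, kDens 𝓜 h φ k (fun Φ z => ‖v Φ z‖ ^ 2) x ≤
          (1 + ε) * kDens 𝓜 h φ k (fun Φ z => ‖sq m Φ z‖ ^ 2) x +
            (1 + ε⁻¹) * kDens 𝓜 h φ k (fun Φ z => ‖(sq m - v) Φ z‖ ^ 2) x := by
        intro x hx
        rw [← kDens_const_mul, ← kDens_const_mul, ← kDens_add]
        exact kDens_mono hh (fun Φ U _ z _ => l2m_normSq_le (sq m Φ z) (v Φ z) hε) (hKM hx)
      have h1 := setIntegral_mono_on i1 ((i2.const_mul (1 + ε)).add (i3.const_mul (1 + ε⁻¹))) hKm hpt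
      rw [integral_add' (i2.const_mul (1 + ε)) (i3.const_mul (1 + ε⁻¹)), integral_const_mul,
        integral_const_mul] at h1
      have h2 : ∫ x in K, kDens 𝓜 h φ k (fun Φ z => ‖sq m Φ z‖ ^ 2) x ∂(hvol 𝓜 h) ≤
          kInt 𝓜 h φ k (fun Φ z => ‖sq m Φ z‖ ^ 2) :=
        setIntegral_le_integral (hsi m)
          (ae_hvol_of_forall_mem fun x hx => kDens_normSq_nonneg hh (sq m) hx)
      have h3 : (1 + ε) * ∫ x in K, kDens 𝓜 h φ k (fun Φ z => ‖sq m Φ z‖ ^ 2) x ∂(hvol 𝓜 h) ≤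
          (1 + ε) * (I + ε) := mul_le_mul_of_nonneg_left (h2.trans hm) (by positivity)
      exact h1.trans (add_le_add h3 le_rfl)
    have hlim0 : Tendsto (fun ε : ℝ => (1 + ε) * (I + ε)) (𝓝[>] 0) (𝓝 ((1 + 0) * (I + 0))) := by
      have : Continuous fun ε : ℝ => (1 + ε) * (I + ε) := by fun_prop
      exact (this.tendsto 0).mono_left nhdsWithin_le_nhds
    rw [add_zero, add_zero, one_mul] at hlim0
    exact ge_of_tendsto hlim0 (Filter.eventually_of_mem self_mem_nhdsWithin fun ε hε => hstep ε hε)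
  -- step 2: exhaustion
  obtain ⟨K, hKc, hKu⟩ := 𝓜.isSigmaCompact_carrier
  have hAc : ∀ n, IsCompact (Set.accumulate K n) := fun n => isCompact_accumulate hKc n
  have hAM : ∀ n, Set.accumulate K n ⊆ 𝓜.carrier := fun n => by
    rw [← hKu]
    exact Set.iUnion₂_subset fun i _ => Set.subset_iUnion K i
  have hcover : AECover (hvol 𝓜 h) atTop (Set.accumulate K) := by
    refine ⟨ae_hvol_of_forall_mem fun x hx => ?_, fun n => (hAc n).isClosed.measurableSet⟩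
    rw [← hKu] at hx
    obtain ⟨n, hn⟩ := Set.mem_iUnion.1 hx
    filter_upwards [eventually_ge_atTop n] with i hi
    exact Set.mem_accumulate.2 ⟨n, hi, hn⟩
  have hint : Integrable (kDens 𝓜 h φ k (fun Φ z => ‖v Φ z‖ ^ 2)) (hvol 𝓜 h) :=
    hcover.integrable_of_integral_bounded_of_nonneg_ae I
      (fun n => integrableOn_hvol_of_continuousOn hh (hAc n) (hAM n) (hcv.mono (hAM n))) hnn
      (Filter.Eventually.of_forall fun n => hK _ (hAc n) (hAM n))
  exact ⟨hint, le_of_tendsto' (hcover.integral_tendsto_of_countably_generated hint)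
    fun n => hK _ (hAc n) (hAM n)⟩

/-- integrability of the integrand of `secQ`, second factor compactly supported. -/
theorem integrable_kDens_sec' (hh : IsMetric 𝓜 h) (hφ : 𝓜.Smooth φ) (hs : IsKSec 𝓜 k s) (hs' : IsKSec 𝓜 k s')
    {K : Set V} (hK : IsCompact K) (hKM : K ⊆ 𝓜.carrier) (h0 : SFamSuppIn 𝓜 s' K) :
    Integrable (kDens 𝓜 h φ k fun Φ z => (s Φ z * conj (s' Φ z)).re) (hvol 𝓜 h) := by
  have e : (fun (Φ : CE ι → V) z => (s Φ z * conj (s' Φ z)).re) = fun Φ z => (s' Φ z * conj (s Φ z)).re := by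
    funext Φ z
    rw [← Complex.conj_re, map_mul, Complex.conj_conj, mul_comm]
  rw [e]
  exact integrable_kDens_sec hh hφ hs' hs hK hKM h0

/-- pairing with a compactly supported section. -/
theorem tendsto_secQ_of_tendstoL2Loc (hh : IsMetric 𝓜 h) (hφ : 𝓜.Smooth φ) (hs : ∀ m, IsKSec 𝓜 k (sq m))
    (hv : IsKSec 𝓜 k v) (hconv : TendstoL2Loc 𝓜 h φ k sq v) (ht : IsKSec 𝓜 k t) {K : Set V}
    (hK : IsCompact K) (hKM : K ⊆ 𝓜.carrier) (htK : SFamSuppIn 𝓜 t K) :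
    Tendsto (fun m => secQ 𝓜 h φ k (sq m) t) atTop (𝓝 (secQ 𝓜 h φ k v t)) := by
  have hd : ∀ m, IsKSec 𝓜 k (sq m - v) := fun m => (hs m).sub hv
  have hKm := hK.isClosed.measurableSet
  set b := ∫ x in K, kDens 𝓜 h φ k (fun Φ z => ‖t Φ z‖ ^ 2) x ∂(hvol 𝓜 h) with hb
  have hkey : ∀ m, (secQ 𝓜 h φ k (sq m) t - secQ 𝓜 h φ k v t) ^ 2 ≤
      (∫ x in K, kDens 𝓜 h φ k (fun Φ z => ‖sq m Φ z - v Φ z‖ ^ 2) x ∂(hvol 𝓜 h)) * b := by
    intro m
    have i1 := integrable_kDens_sec' hh hφ (hs m) ht hK hKM htK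
    have i2 := integrable_kDens_sec' hh hφ hv ht hK hKM htK
    have i3 := integrable_kDens_sec' hh hφ (hd m) ht hK hKM htK
    have e1 : secQ 𝓜 h φ k (sq m) t - secQ 𝓜 h φ k v t =
        ∫ x in K, kDens 𝓜 h φ k (fun Φ z => ((sq m - v) Φ z * conj (t Φ z)).re) x ∂(hvol 𝓜 h) := by
      simp only [secQ, kInt]
      rw [← integral_sub i1 i2, setIntegral_eq_integral_of_ae_compl_eq_zero]
      · refine integral_congr_ae (Filter.Eventually.of_forall fun x => ?_)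
        simp only []
        rw [← kDens_sub]
        simp only [Pi.sub_apply, sub_mul, Complex.sub_re]
      · refine ae_hvol_of_forall_mem fun x hx hxK => ?_
        simp only [kDens, CMfd.scal]
        rw [htK _ _ (𝓜.isHol_pΦ hx) _ (𝓜.co_mem hx) (by rw [𝓜.pΦ_co hx]; exact hxK)]
        simp
    rw [e1]
    refine l2m_integral_sq_le i3.integrableOn
      (integrableOn_hvol_of_continuousOn hh hK hKM ((continuousOn_kDens_normSq hh hφ (hd m)).mono hKM))
      (integrableOn_hvol_of_continuousOn hh hK hKM ((continuousOn_kDens_normSq hh hφ ht).mono hKM))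
      ?_ ?_ ?_
    · exact ae_restrict_of_ae (ae_hvol_of_forall_mem fun x hx => kDens_normSq_nonneg hh (sq m - v) hx)
    · exact ae_restrict_of_ae (ae_hvol_of_forall_mem fun x hx => kDens_normSq_nonneg hh t hx)
    · refine ae_restrict_of_ae (Filter.Eventually.of_forall fun x => ?_)
      simp only [kDens, CMfd.scal]
      set w := kw h k (𝓜.pΦ x) (𝓜.co x)
      set a := (sq m - v) (𝓜.pΦ x) (𝓜.co x)
      set c := t (𝓜.pΦ x) (𝓜.co x)
      have h1 : (a * conj c).re ^ 2 ≤ ‖a‖ ^ 2 * ‖c‖ ^ 2 := by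
        have h2 := Complex.abs_re_le_norm (a * conj c)
        rw [norm_mul, Complex.norm_conj] at h2
        calc (a * conj c).re ^ 2 = |(a * conj c).re| ^ 2 := (sq_abs _).symm
          _ ≤ (‖a‖ * ‖c‖) ^ 2 := pow_le_pow_left₀ (abs_nonneg _) h2 2
          _ = _ := by ring
      calc (w * (a * conj c).re * Real.exp (-φ x)) ^ 2
          = (w * Real.exp (-φ x)) ^ 2 * (a * conj c).re ^ 2 := by ring
        _ ≤ (w * Real.exp (-φ x)) ^ 2 * (‖a‖ ^ 2 * ‖c‖ ^ 2) :=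
          mul_le_mul_of_nonneg_left h1 (sq_nonneg _)
        _ = w * ‖a‖ ^ 2 * Real.exp (-φ x) * (w * ‖c‖ ^ 2 * Real.exp (-φ x)) := by ring
  have hlim : Tendsto (fun m => Real.sqrt
      ((∫ x in K, kDens 𝓜 h φ k (fun Φ z => ‖sq m Φ z - v Φ z‖ ^ 2) x ∂(hvol 𝓜 h)) * b)) atTop (𝓝 0) := by
    have h1 := ((hconv K hK hKM).mul_const b)
    rw [zero_mul] at h1
    have h2 := (Real.continuous_sqrt.tendsto 0).comp h1
    rw [Real.sqrt_zero] at h2
    exact h2
  rw [← tendsto_sub_nhds_zero_iff]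
  exact squeeze_zero_norm (fun m => by
    rw [Real.norm_eq_abs]
    exact Real.abs_le_sqrt (hkey m)) hlim

theorem secQ_self (s : SFam V ι) : secQ 𝓜 h φ k s s = kInt 𝓜 h φ k (fun Φ z => ‖s Φ z‖ ^ 2) := by
  simp only [secQ]
  congr 1
  funext Φ z
  rw [Complex.mul_conj, Complex.ofReal_re, Complex.normSq_eq_norm_sq]

end conv

end Claimed.Agent.R316
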