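import Claimed.Agent.R316.Base.L2M.Inv

/-!
# Row 316, `BP-G11`: the integrals `kInt`; bilinearity of `dirQ`, `divQ`, `pairQ`; the bound of the functional

Leaves: `G11-INT-A` (section 1: general API of `kDens`/`kInt`), `G11-INT-B` (section 2: the forms on `testKV`), `G11-INT-C` (section 3: `L²_loc` convergence of sections).

All integrands are `kDens 𝓜 h φ k F x = 𝓜.scal (kw · F) x · e^{-φ x}` with `kw · F` INVARIANT (`Inv.lean`), so `kDens … (Φ z) = kw h k Φ z · F Φ z · e^{-φ(Φ z)}` in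
every chart (`CMfd.scal_eq`); continuity on the carrier from continuity in charts (`CMfd.continuousOn_iff`); integrability from `integrable_hvol_of_csupp`.
Pointwise identities (additivity…) are checked in the chosen chart `𝓜.pΦ x` at `𝓜.co x` (`CMfd.isHol_pΦ`, `co_mem`): `𝓜.scal F x = F (𝓜.pΦ x) (𝓜.co x)` by definition.
-/

set_option autoImplicit false
set_option linter.unusedSectionVars false
open scoped ContDiff ComplexOrder ComplexConjugate Topology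
open MeasureTheory Filter

namespace Claimed.Agent.R316

variable {V : Type} [NormedAddCommGroup V] [NormedSpace ℝ V] [MeasurableSpace V] [BorelSpace V]
  [FiniteDimensional ℝ V]
variable {ι : Type} [Fintype ι] [DecidableEq ι]
variable {𝓜 : CMfd V ι} {g h : HFam V ι} {φ : V → ℝ} {k : ℤ}
variable {s s' : SFam V ι} {β B B' : VFam V ι}

/-! ### 1. general API -/

section general

variable {F F' : (CE ι → V) → CE ι → ℝ}

theorem kDens_eq (hF : 𝓜.Invariant (fun Φ z => kw h k Φ z * F Φ z)) {Φ : CE ι → V} {U : Set (CE ι)}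
    (hΦ : 𝓜.IsHol Φ U) {z : CE ι} (hz : z ∈ U) :
    kDens 𝓜 h φ k F (Φ z) = kw h k Φ z * F Φ z * Real.exp (-φ (Φ z)) := by
  simp only [kDens]
  rw [CMfd.scal_eq hF hΦ hz]

theorem kDens_nonneg (hh : IsMetric 𝓜 h)
    (h0 : ∀ (Φ : CE ι → V) (U : Set (CE ι)), 𝓜.IsHol Φ U → ∀ z ∈ U, 0 ≤ F Φ z) {x : V} (hx : x ∈ 𝓜.carrier) :
    0 ≤ kDens 𝓜 h φ k F x := by
  simp only [kDens, CMfd.scal]
  have h1 := kw_pos hh (𝓜.isHol_pΦ hx) (𝓜.co_mem hx) k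
  have h2 := h0 _ _ (𝓜.isHol_pΦ hx) _ (𝓜.co_mem hx)
  positivity

theorem kDens_mono (hh : IsMetric 𝓜 h)
    (h0 : ∀ (Φ : CE ι → V) (U : Set (CE ι)), 𝓜.IsHol Φ U → ∀ z ∈ U, F Φ z ≤ F' Φ z) {x : V} (hx : x ∈ 𝓜.carrier) :
    kDens 𝓜 h φ k F x ≤ kDens 𝓜 h φ k F' x := by
  simp only [kDens, CMfd.scal]
  have h1 := kw_pos hh (𝓜.isHol_pΦ hx) (𝓜.co_mem hx) k
  have h2 := h0 _ _ (𝓜.isHol_pΦ hx) _ (𝓜.co_mem hx)
  exact mul_le_mul_of_nonneg_right (mul_le_mul_of_nonneg_left h2 h1.le) (Real.exp_pos _).le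

theorem kDens_congr
    (h0 : ∀ (Φ : CE ι → V) (U : Set (CE ι)), 𝓜.IsHol Φ U → ∀ z ∈ U, F Φ z = F' Φ z) {x : V} (hx : x ∈ 𝓜.carrier) :
    kDens 𝓜 h φ k F x = kDens 𝓜 h φ k F' x := by
  simp only [kDens, CMfd.scal]
  rw [h0 _ _ (𝓜.isHol_pΦ hx) _ (𝓜.co_mem hx)]

theorem kDens_add (F F' : (CE ι → V) → CE ι → ℝ) (x : V) :
    kDens 𝓜 h φ k (fun Φ z => F Φ z + F' Φ z) x = kDens 𝓜 h φ k F x + kDens 𝓜 h φ k F' x := by
  simp only [kDens, CMfd.scal]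
  ring

theorem kDens_sub (F F' : (CE ι → V) → CE ι → ℝ) (x : V) :
    kDens 𝓜 h φ k (fun Φ z => F Φ z - F' Φ z) x = kDens 𝓜 h φ k F x - kDens 𝓜 h φ k F' x := by
  simp only [kDens, CMfd.scal]
  ring

theorem kDens_const_mul (t : ℝ) (F : (CE ι → V) → CE ι → ℝ) (x : V) :
    kDens 𝓜 h φ k (fun Φ z => t * F Φ z) x = t * kDens 𝓜 h φ k F x := by
  simp only [kDens, CMfd.scal]
  ring

/-- multiplication by a function on the manifold. -/
theorem kDens_fmul (χ : V → ℝ) (F : (CE ι → V) → CE ι → ℝ) {x : V} (hx : x ∈ 𝓜.carrier) :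
    kDens 𝓜 h φ k (fun Φ z => χ (Φ z) * F Φ z) x = χ x * kDens 𝓜 h φ k F x := by
  simp only [kDens, CMfd.scal]
  rw [𝓜.pΦ_co hx]
  ring

theorem continuousOn_kDens (hh : IsMetric 𝓜 h) (hφ : 𝓜.Smooth φ)
    (hF : 𝓜.Invariant (fun Φ z => kw h k Φ z * F Φ z))
    (hc : ∀ (Φ : CE ι → V) (U : Set (CE ι)), 𝓜.IsHol Φ U → ContinuousOn (F Φ) U) :
    ContinuousOn (kDens 𝓜 h φ k F) 𝓜.carrier := by
  refine CMfd.continuousOn_iff.2 fun Φ U hΦ => ?_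
  have h1 : ContinuousOn (fun z => kw h k Φ z * F Φ z * Real.exp (-φ (Φ z))) U :=
    ((contDiffOn_kw hh hΦ k).continuousOn.mul (hc Φ U hΦ)).mul
      (Real.continuous_exp.comp_continuousOn (hφ Φ U hΦ).continuousOn.neg)
  exact h1.congr fun z hz => kDens_eq hF hΦ hz

/-- continuous + compactly supported ⟹ integrable. -/
theorem integrable_kDens (hh : IsMetric 𝓜 h) (hφ : 𝓜.Smooth φ)
    (hF : 𝓜.Invariant (fun Φ z => kw h k Φ z * F Φ z))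
    (hc : ∀ (Φ : CE ι → V) (U : Set (CE ι)), 𝓜.IsHol Φ U → ContinuousOn (F Φ) U)
    {K : Set V} (hK : IsCompact K) (hKM : K ⊆ 𝓜.carrier)
    (h0 : ∀ (Φ : CE ι → V) (U : Set (CE ι)), 𝓜.IsHol Φ U → ∀ z ∈ U, Φ z ∉ K → F Φ z = 0) :
    Integrable (kDens 𝓜 h φ k F) (hvol 𝓜 h) := by
  refine integrable_hvol_of_csupp hh (continuousOn_kDens hh hφ hF hc) ⟨K, hK, hKM, fun x hx hxK => ?_⟩
  simp only [kDens, CMfd.scal]
  rw [h0 _ _ (𝓜.isHol_pΦ hx) _ (𝓜.co_mem hx) (by rw [𝓜.pΦ_co hx]; exact hxK)]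
  simp

/-- **the integral in one chart**: `∫_M F (det h)^k e^{-φ} dV_h = ∫_U F_Φ e^{-η_Φ} dλ` if `F` vanishes outside `Φ '' U`. -/
theorem kInt_of_support (hh : IsMetric 𝓜 h) (hF : 𝓜.Invariant (fun Φ z => kw h k Φ z * F Φ z))
    {Φ : CE ι → V} {U : Set (CE ι)} (hΦ : 𝓜.IsHol Φ U)
    (h0 : ∀ (Ψ : CE ι → V) (W : Set (CE ι)), 𝓜.IsHol Ψ W → ∀ w ∈ W, Ψ w ∉ Φ '' U → F Ψ w = 0) :
    kInt 𝓜 h φ k F = ∫ z in U, F Φ z * Real.exp (-(wt h φ k Φ z)) := by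
  have h0' : ∀ x ∈ 𝓜.carrier, x ∉ Φ '' U → kDens 𝓜 h φ k F x = 0 := by
    intro x hx hxU
    simp only [kDens, CMfd.scal]
    rw [h0 _ _ (𝓜.isHol_pΦ hx) _ (𝓜.co_mem hx) (by rw [𝓜.pΦ_co hx]; exact hxU)]
    simp
  rw [kInt, integral_hvol_of_support_real hh hΦ _ h0']
  refine setIntegral_congr_fun (CMfd.isOpen_dom hΦ).measurableSet fun z hz => ?_
  rw [kDens_eq hF hΦ hz, exp_neg_wt hh hΦ hz]
  ring

/-- the integral over the image of a measurable subset of a chart. -/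
theorem setIntegral_kDens_image (hh : IsMetric 𝓜 h) (hF : 𝓜.Invariant (fun Φ z => kw h k Φ z * F Φ z))
    {Φ : CE ι → V} {U : Set (CE ι)} (hΦ : 𝓜.IsHol Φ U) {A : Set (CE ι)} (hA : A ⊆ U) (hm : MeasurableSet A) :
    ∫ x in Φ '' A, kDens 𝓜 h φ k F x ∂(hvol 𝓜 h) = ∫ z in A, F Φ z * Real.exp (-(wt h φ k Φ z)) := by
  rw [integral_hvol_image hh hΦ hA hm]
  refine setIntegral_congr_fun hm fun z hz => ?_
  simp only [smul_eq_mul]
  rw [kDens_eq hF hΦ (hA hz), exp_neg_wt hh hΦ (hA hz)]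
  ring

end general

/-! ### 2. the forms on `testKV` -/

section forms

theorem contDiffOn_dbarV (hB : IsKVec 𝓜 k B) {Φ : CE ι → V} {U : Set (CE ι)} (hΦ : 𝓜.IsHol Φ U) (l j : ι) :
    ContDiffOn ℝ ∞ (fun z => dbarV B Φ z l j) U :=
  contDiffOn_dzb (CMfd.isOpen_dom hΦ) (hB.smooth hΦ j)

theorem contDiffOn_nbIP (hg : IsMetric 𝓜 g) (hB : IsKVec 𝓜 k B) (hB' : IsKVec 𝓜 k B') {Φ : CE ι → V}
    {U : Set (CE ι)} (hΦ : 𝓜.IsHol Φ U) :
    ContDiffOn ℝ ∞ (fun z => nbIP (g Φ z) (dbarV B Φ z) (dbarV B' Φ z)) U := by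
  unfold nbIP
  refine Complex.reCLM.contDiff.comp_contDiffOn (contDiffOn_matTrace fun a c => ?_)
  refine contDiffOn_matMul (fun a c => contDiffOn_matMul (fun a c => contDiffOn_matMul
    (fun a c => contDiffOn_matInv_of_posDef (fun a c => hg.smooth hΦ a c) (fun w hw => hg.posDef hΦ w hw) a c)
    (fun a c => contDiffOn_dbarV hB hΦ a c) a c) (fun a c => hg.smooth hΦ c a) a c)
    (fun a c => contDiffOn_conjTranspose (fun a c => contDiffOn_dbarV hB' hΦ a c) a c) a c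

theorem contDiffOn_swIP (hB : IsKVec 𝓜 k B) (hB' : IsKVec 𝓜 k B') {Φ : CE ι → V}
    {U : Set (CE ι)} (hΦ : 𝓜.IsHol Φ U) :
    ContDiffOn ℝ ∞ (fun z => swIP (dbarV B Φ z) (dbarV B' Φ z)) U := by
  unfold swIP
  refine Complex.reCLM.contDiff.comp_contDiffOn (ContDiffOn.sum fun j _ => ContDiffOn.sum fun l _ => ?_)
  exact (contDiffOn_dbarV hB hΦ l j).mul
    (Complex.conjCLE.contDiff.comp_contDiffOn (contDiffOn_dbarV hB' hΦ j l))

theorem contDiffOn_qfB {A : HFam V ι} (hA : IsHForm 𝓜 A) (hB : IsKVec 𝓜 k B) (hB' : IsKVec 𝓜 k B')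
    {Φ : CE ι → V} {U : Set (CE ι)} (hΦ : 𝓜.IsHol Φ U) :
    ContDiffOn ℝ ∞ (fun z => qfB (A Φ z) (B Φ z) (B' Φ z)) U := by
  unfold qfB
  simp only [dotProduct, Matrix.mulVec, Pi.star_apply]
  refine Complex.reCLM.contDiff.comp_contDiffOn (ContDiffOn.sum fun j _ => ?_)
  exact (Complex.conjCLE.contDiff.comp_contDiffOn (hB'.smooth hΦ j)).mul
    (ContDiffOn.sum fun l _ => (hA.smooth hΦ j l).mul (hB.smooth hΦ l))

theorem contDiffOn_fvIP (hβ : IsKForm 𝓜 k β) (hB : IsKVec 𝓜 k B) {Φ : CE ι → V} {U : Set (CE ι)}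
    (hΦ : 𝓜.IsHol Φ U) : ContDiffOn ℝ ∞ (fun z => fvIP (β Φ z) (B Φ z)) U := by
  unfold fvIP
  refine Complex.reCLM.contDiff.comp_contDiffOn (ContDiffOn.sum fun j _ => ?_)
  exact (hβ.smooth hΦ j).mul (Complex.conjCLE.contDiff.comp_contDiffOn (hB.smooth hΦ j))

theorem CMfd.Invariant.kw_add {F F' : (CE ι → V) → CE ι → ℝ}
    (hF : 𝓜.Invariant (fun Φ z => kw h k Φ z * F Φ z)) (hF' : 𝓜.Invariant (fun Φ z => kw h k Φ z * F' Φ z)) :
    𝓜.Invariant (fun Φ z => kw h k Φ z * (F Φ z + F' Φ z)) := by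
  intro Φ Ψ U W hΦ hΨ z hz w hw e
  have h1 : kw h k Φ z * F Φ z = kw h k Ψ w * F Ψ w := hF hΦ hΨ z hz w hw e
  have h2 : kw h k Φ z * F' Φ z = kw h k Ψ w * F' Ψ w := hF' hΦ hΨ z hz w hw e
  simp only [mul_add]
  rw [h1, h2]

theorem CMfd.Invariant.kw_sub {F F' : (CE ι → V) → CE ι → ℝ}
    (hF : 𝓜.Invariant (fun Φ z => kw h k Φ z * F Φ z)) (hF' : 𝓜.Invariant (fun Φ z => kw h k Φ z * F' Φ z)) :
    𝓜.Invariant (fun Φ z => kw h k Φ z * (F Φ z - F' Φ z)) := by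
  intro Φ Ψ U W hΦ hΨ z hz w hw e
  have h1 : kw h k Φ z * F Φ z = kw h k Ψ w * F Ψ w := hF hΦ hΨ z hz w hw e
  have h2 : kw h k Φ z * F' Φ z = kw h k Ψ w * F' Ψ w := hF' hΦ hΨ z hz w hw e
  simp only [mul_sub]
  rw [h1, h2]

theorem nbIP_zero_left (G N' : Matrix ι ι ℂ) : nbIP G 0 N' = 0 := by simp [nbIP]

theorem swIP_zero_left (N' : Matrix ι ι ℂ) : swIP 0 N' = 0 := by simp [swIP]

theorem qfB_zero_left (A : Matrix ι ι ℂ) (b : ι → ℂ) : qfB A 0 b = 0 := by simp [qfB]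

theorem fvIP_zero_right (β : ι → ℂ) : fvIP β 0 = 0 := by simp [fvIP]

/-- integrability of the integrand of `dirQ`. -/
theorem integrable_kDens_dir (S : L2Setting 𝓜 g h φ k) (hB : IsTestKV 𝓜 k B) (hB' : IsKVec 𝓜 k B') :
    Integrable (kDens 𝓜 h φ k fun Φ z => nbIP (g Φ z) (dbarV B Φ z) (dbarV B' Φ z) +
      qfB (curvF h φ k Φ z) (B Φ z) (B' Φ z)) (hvol 𝓜 h) := by
  obtain ⟨K, hK, hKM, h0⟩ := hB.2
  have hA := isHForm_curvF S.metric S.smooth k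
  refine integrable_kDens S.metric S.smooth
    (CMfd.Invariant.kw_add (invariant_kw_nbIP S.metric S.kahler.toIsMetric hB.1 hB')
      (invariant_kw_qfB S.metric hA hB.1 hB'))
    (fun Φ U hΦ => ((contDiffOn_nbIP S.kahler.toIsMetric hB.1 hB' hΦ).add
      (contDiffOn_qfB hA hB.1 hB' hΦ)).continuousOn) hK hKM fun Φ U hΦ z hz hzK => ?_
  rw [VFamSuppIn.dbarV hK.isClosed h0 hΦ hz hzK, h0 Φ U hΦ z hz hzK, nbIP_zero_left, qfB_zero_left, add_zero]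

/-- integrability of the integrand of `secQ`, one factor compactly supported. -/
theorem integrable_kDens_sec (hh : IsMetric 𝓜 h) (hφ : 𝓜.Smooth φ) (hs : IsKSec 𝓜 k s) (hs' : IsKSec 𝓜 k s')
    {K : Set V} (hK : IsCompact K) (hKM : K ⊆ 𝓜.carrier) (h0 : SFamSuppIn 𝓜 s K) :
    Integrable (kDens 𝓜 h φ k fun Φ z => (s Φ z * conj (s' Φ z)).re) (hvol 𝓜 h) := by
  refine integrable_kDens hh hφ (invariant_kw_sec hh hs hs')
    (fun Φ U hΦ => (Complex.reCLM.contDiff.comp_contDiffOn ((hs.smooth hΦ).mul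
      (Complex.conjCLE.contDiff.comp_contDiffOn (hs'.smooth hΦ)))).continuousOn) hK hKM
    fun Φ U hΦ z hz hzK => ?_
  rw [h0 Φ U hΦ z hz hzK]
  simp

/-- integrability of the integrand of `pairQ`. -/
theorem integrable_kDens_pair (hh : IsMetric 𝓜 h) (hφ : 𝓜.Smooth φ) (hβ : IsKForm 𝓜 k β)
    (hB : IsTestKV 𝓜 k B) :
    Integrable (kDens 𝓜 h φ k fun Φ z => fvIP (β Φ z) (B Φ z)) (hvol 𝓜 h) := by
  obtain ⟨K, hK, hKM, h0⟩ := hB.2
  refine integrable_kDens hh hφ (invariant_kw_fvIP hh hβ hB.1)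
    (fun Φ U hΦ => (contDiffOn_fvIP hβ hB.1 hΦ).continuousOn) hK hKM fun Φ U hΦ z hz hzK => ?_
  rw [h0 Φ U hΦ z hz hzK, fvIP_zero_right]

/-- a general principle: forms given by integrals of pointwise forms. -/
theorem isPsdOn_kInt (hh : IsMetric 𝓜 h) {E : VFam V ι → VFam V ι → (CE ι → V) → CE ι → ℝ}
    (hadd : ∀ a b c, IsTestKV 𝓜 k a → IsTestKV 𝓜 k b → IsTestKV 𝓜 k c →
      ∀ (Φ : CE ι → V) (U : Set (CE ι)), 𝓜.IsHol Φ U → ∀ z ∈ U, E (a + b) c Φ z = E a c Φ z + E b c Φ z)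
    (hsmul : ∀ (t : ℝ) a c, IsTestKV 𝓜 k a → IsTestKV 𝓜 k c →
      ∀ (Φ : CE ι → V) (U : Set (CE ι)), 𝓜.IsHol Φ U → ∀ z ∈ U, E (t • a) c Φ z = t * E a c Φ z)
    (hsymm : ∀ a c, IsTestKV 𝓜 k a → IsTestKV 𝓜 k c →
      ∀ (Φ : CE ι → V) (U : Set (CE ι)), 𝓜.IsHol Φ U → ∀ z ∈ U, E a c Φ z = E c a Φ z)
    (hnn : ∀ a, IsTestKV 𝓜 k a →
      ∀ (Φ : CE ι → V) (U : Set (CE ι)), 𝓜.IsHol Φ U → ∀ z ∈ U, 0 ≤ E a a Φ z)
    (hint : ∀ a c, IsTestKV 𝓜 k a → IsTestKV 𝓜 k c → Integrable (kDens 𝓜 h φ k (E a c)) (hvol 𝓜 h)) :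
    IsPsdOn (testKV 𝓜 k) (fun a b => kInt 𝓜 h φ k (E a b)) := by
  refine ⟨fun a ha b hb c hc => ?_, fun t a ha c hc => ?_, fun a ha b hb => ?_, fun a ha => ?_⟩
  · simp only [kInt]
    rw [← integral_add (hint a c ha hc) (hint b c hb hc)]
    refine integral_hvol_congr fun x hx => ?_
    rw [← kDens_add]
    exact kDens_congr (hadd a b c ha hb hc) hx
  · simp only [kInt]
    rw [← integral_const_mul]
    refine integral_hvol_congr fun x hx => ?_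
    rw [← kDens_const_mul]
    exact kDens_congr (hsmul t a c ha hc) hx
  · exact integral_hvol_congr fun x hx => kDens_congr (hsymm a b ha hb) hx
  · exact integral_hvol_nonneg fun x hx => kDens_nonneg hh (hnn a ha) hx

theorem isPsdOn_dirQ (S : L2Setting 𝓜 g h φ k) : IsPsdOn (testKV 𝓜 k) (dirQ 𝓜 g h φ k) := by
  have hA := isHForm_curvF S.metric S.smooth k
  refine isPsdOn_kInt S.metric (E := fun B B' Φ z => nbIP (g Φ z) (dbarV B Φ z) (dbarV B' Φ z) +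
    qfB (curvF h φ k Φ z) (B Φ z) (B' Φ z)) ?_ ?_ ?_ ?_ (fun a c ha hc => integrable_kDens_dir S ha hc.1)
  · intro a b c ha hb hc Φ U hΦ z hz
    rw [dbarV_add ha.1 hb.1 hΦ hz, nbIP_add_left]
    simp only [Pi.add_apply]
    rw [qfB_add_left]
    ring
  · intro t a c ha hc Φ U hΦ z hz
    rw [dbarV_smul_real t ha.1 hΦ hz, nbIP_smul_left]
    simp only [Pi.smul_apply]
    rw [qfB_smul_left]
    ring
  · intro a c ha hc Φ U hΦ z hz
    rw [nbIP_symm (S.kahler.herm hΦ z hz), qfB_symm (hA.herm hΦ z hz)]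
  · intro a ha Φ U hΦ z hz
    exact add_nonneg (nbIP_self_nonneg (S.kahler.posDef hΦ z hz) _)
      (qf_nonneg (S.pos Φ U hΦ z hz).posSemidef _)

theorem isPsdOn_divQ (S : L2Setting 𝓜 g h φ k) : IsPsdOn (testKV 𝓜 k) (divQ 𝓜 h φ k) := by
  refine isPsdOn_kInt S.metric (E := fun B B' Φ z => (kdiv h φ k B Φ z * conj (kdiv h φ k B' Φ z)).re)
    ?_ ?_ ?_ ?_ ?_
  · intro a b c ha hb hc Φ U hΦ z hz
    rw [kdiv_add ha.1 hb.1 hΦ hz, add_mul, Complex.add_re]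
  · intro t a c ha hc Φ U hΦ z hz
    rw [kdiv_smul_real t ha.1 hΦ hz, mul_assoc, Complex.re_ofReal_mul]
  · intro a c ha hc Φ U hΦ z hz
    rw [← Complex.conj_re, map_mul, Complex.conj_conj, mul_comm]
  · intro a ha Φ U hΦ z hz
    rw [Complex.mul_conj, Complex.ofReal_re]
    exact Complex.normSq_nonneg _
  · intro a c ha hc
    obtain ⟨K, hK, hKM, h0⟩ := ha.2
    exact integrable_kDens_sec S.metric S.smooth (ha.1.kdiv S.metric S.smooth) (hc.1.kdiv S.metric S.smooth)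
      hK hKM (VFamSuppIn.kdiv hK.isClosed h0)

theorem isLinOn_pairQ (S : L2Setting 𝓜 g h φ k) (hβ : IsKForm 𝓜 k β) :
    IsLinOn (testKV 𝓜 k) (pairQ 𝓜 h φ k β) := by
  refine ⟨fun a ha b hb => ?_, fun t a ha => ?_⟩
  · simp only [pairQ, kInt]
    rw [← integral_add (integrable_kDens_pair S.metric S.smooth hβ ha)
      (integrable_kDens_pair S.metric S.smooth hβ hb)]
    refine integral_hvol_congr fun x hx => ?_
    rw [← kDens_add]
    refine kDens_congr (fun Φ U hΦ z hz => ?_) hx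
    simp only [Pi.add_apply]
    rw [fvIP_add_right]
  · simp only [pairQ, kInt]
    rw [← integral_const_mul]
    refine integral_hvol_congr fun x hx => ?_
    rw [← kDens_const_mul]
    refine kDens_congr (fun Φ U hΦ z hz => ?_) hx
    simp only [Pi.smul_apply]
    rw [fvIP_smul_right]

theorem pairQ_neg_left (β B : VFam V ι) : pairQ 𝓜 h φ k (-β) B = - pairQ 𝓜 h φ k β B := by
  simp only [pairQ, kInt]
  rw [← integral_neg]
  refine integral_congr_ae (Filter.Eventually.of_forall fun x => ?_)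
  simp only [kDens, CMfd.scal, fvIP, Pi.neg_apply, neg_mul, Finset.sum_neg_distrib, Complex.neg_re,
    mul_neg]

theorem dbarS_neg (s : SFam V ι) : dbarS (-s) = - dbarS s := by
  funext Φ z j
  simp only [dbarS, Pi.neg_apply]
  exact dzb_neg

theorem secQ_symm (s s' : SFam V ι) : secQ 𝓜 h φ k s s' = secQ 𝓜 h φ k s' s := by
  simp only [secQ]
  congr 1
  funext Φ z
  rw [← Complex.conj_re, map_mul, Complex.conj_conj, mul_comm]

theorem curlQ_nonneg (S : L2Setting 𝓜 g h φ k) (B : VFam V ι) : 0 ≤ curlQ 𝓜 g h φ k B := by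
  refine integral_hvol_nonneg fun x hx => kDens_nonneg S.metric (fun Φ U hΦ z hz => ?_) hx
  exact sub_nonneg.2 (swIP_le_nbIP (S.kahler.posDef hΦ z hz) _)

theorem l2m_amgm {p n M t : ℝ} (hn : 0 ≤ n) (hM : 0 ≤ M) (h : p ^ 2 ≤ n * M) :
    2 * t * p ≤ t ^ 2 * n + M := by
  have h1 : (2 * t * p) ^ 2 ≤ (t ^ 2 * n + M) ^ 2 := by
    nlinarith [sq_nonneg (t ^ 2 * n - M), mul_le_mul_of_nonneg_left h (sq_nonneg t)]
  exact (abs_le_of_sq_le_sq' h1 (by positivity)).2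

/-- **the functional is bounded by the Dirichlet form** (pointwise `fvIP_mul_le_sqrt`, then Cauchy-Schwarz in `L²(dV_h)`:
`(∫ √(N e^{-φ}) √(w Θ(B,B) e^{-φ}))² ≤ ∫ N e^{-φ} ∫ w Θ(B,B) e^{-φ}`, and `∫ w Θ(B,B) e^{-φ} ≤ dirQ B B`). -/
theorem pairQ_sq_le (S : L2Setting 𝓜 g h φ k) {F : SFam V ι} (hF : IsKSec 𝓜 k F)
    {N : V → ℝ} (hN0 : ∀ x ∈ 𝓜.carrier, 0 ≤ N x)
    (hNint : Integrable (fun x => N x * Real.exp (-φ x)) (hvol 𝓜 h))
    (hdom : ∀ (Φ : CE ι → V) (U : Set (CE ι)), 𝓜.IsHol Φ U → ∀ z ∈ U, ∀ v : ι → ℂ,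
      ‖∑ j, dzb j (F Φ) z * conj (v j)‖ ^ 2 * kw h k Φ z ≤ N (Φ z) * qf (curvF h φ k Φ z) v)
    (hB : IsTestKV 𝓜 k B) :
    pairQ 𝓜 h φ k (dbarS F) B ^ 2 ≤ (∫ x, N x * Real.exp (-φ x) ∂(hvol 𝓜 h)) * dirQ 𝓜 g h φ k B B := by
  set I := ∫ x, N x * Real.exp (-φ x) ∂(hvol 𝓜 h) with hI
  have hβ := hF.dbarS
  have hA := isHForm_curvF S.metric S.smooth k
  obtain ⟨K, hK, hKM, h0⟩ := hB.2
  have hintΘ : Integrable (kDens 𝓜 h φ k fun Φ z => qfB (curvF h φ k Φ z) (B Φ z) (B Φ z)) (hvol 𝓜 h) := by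
    refine integrable_kDens S.metric S.smooth (invariant_kw_qfB S.metric hA hB.1 hB.1)
      (fun Φ U hΦ => (contDiffOn_qfB hA hB.1 hB.1 hΦ).continuousOn) hK hKM fun Φ U hΦ z hz hzK => ?_
    rw [h0 Φ U hΦ z hz hzK, qfB_zero_left]
  have hintP := integrable_kDens_pair S.metric S.smooth hβ hB
  have hle : ∫ x, kDens 𝓜 h φ k (fun Φ z => qfB (curvF h φ k Φ z) (B Φ z) (B Φ z)) x ∂(hvol 𝓜 h)
      ≤ dirQ 𝓜 g h φ k B B :=
    integral_hvol_mono hintΘ (integrable_kDens_dir S hB hB.1) fun x hx =>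
      kDens_mono S.metric (fun Φ U hΦ z hz =>
        le_add_of_nonneg_left (nbIP_self_nonneg (S.kahler.posDef hΦ z hz) _)) hx
  have key : ∀ t : ℝ, 0 ≤ I * (t * t) + (-2 * pairQ 𝓜 h φ k (dbarS F) B) * t + dirQ 𝓜 g h φ k B B := by
    intro t
    have hpt : ∀ x ∈ 𝓜.carrier, 2 * t * kDens 𝓜 h φ k (fun Φ z => fvIP (dbarS F Φ z) (B Φ z)) x ≤
        t ^ 2 * (N x * Real.exp (-φ x)) +
          kDens 𝓜 h φ k (fun Φ z => qfB (curvF h φ k Φ z) (B Φ z) (B Φ z)) x := by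
      intro x hx
      have hΦ := 𝓜.isHol_pΦ hx
      have hz := 𝓜.co_mem hx
      have hw := kw_pos S.metric hΦ hz k
      have hd := hdom _ _ hΦ _ hz (B (𝓜.pΦ x) (𝓜.co x))
      rw [𝓜.pΦ_co hx] at hd
      have hf := fvIP_le_norm (dbarS F (𝓜.pΦ x) (𝓜.co x)) (B (𝓜.pΦ x) (𝓜.co x))
      have hq : 0 ≤ qf (curvF h φ k (𝓜.pΦ x) (𝓜.co x)) (B (𝓜.pΦ x) (𝓜.co x)) :=
        qf_nonneg (S.pos _ _ hΦ _ hz).posSemidef _
      simp only [kDens, CMfd.scal, qfB_self]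
      simp only [dbarS] at hf
      set w := kw h k (𝓜.pΦ x) (𝓜.co x)
      set q := qf (curvF h φ k (𝓜.pΦ x) (𝓜.co x)) (B (𝓜.pΦ x) (𝓜.co x))
      set f := fvIP (dbarS F (𝓜.pΦ x) (𝓜.co x)) (B (𝓜.pΦ x) (𝓜.co x))
      set S' := ‖∑ j, dzb j (F (𝓜.pΦ x)) (𝓜.co x) * conj (B (𝓜.pΦ x) (𝓜.co x) j)‖
      have hf2 : f ^ 2 ≤ S' ^ 2 := sq_le_sq' (by linarith [(abs_le.1 hf).1]) (abs_le.1 hf).2
      have h1 : (w * f) ^ 2 ≤ N x * (w * q) := by
        calc (w * f) ^ 2 = w * (f ^ 2 * w) := by ring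
          _ ≤ w * (S' ^ 2 * w) := by gcongr
          _ ≤ w * (N x * q) := by gcongr
          _ = N x * (w * q) := by ring
      have h2 := l2m_amgm (t := t) (hN0 x hx) (mul_nonneg hw.le hq) h1
      have he := (Real.exp_pos (-φ x)).le
      calc 2 * t * (w * f * Real.exp (-φ x)) = (2 * t * (w * f)) * Real.exp (-φ x) := by ring
        _ ≤ (t ^ 2 * N x + w * q) * Real.exp (-φ x) := mul_le_mul_of_nonneg_right h2 he
        _ = _ := by ring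
    have h3 := integral_hvol_mono (hintP.const_mul (2 * t)) ((hNint.const_mul (t ^ 2)).add hintΘ) hpt
    rw [integral_const_mul, integral_add' (hNint.const_mul (t ^ 2)) hintΘ, integral_const_mul] at h3
    have h4 : ∫ x, kDens 𝓜 h φ k (fun Φ z => fvIP (dbarS F Φ z) (B Φ z)) x ∂(hvol 𝓜 h)
        = pairQ 𝓜 h φ k (dbarS F) B := rfl
    rw [h4] at h3
    nlinarith
  have hd := discrim_le_zero key
  rw [discrim] at hd
  nlinarith

/-- integrability of `|kdiv B|²` for a test field. -/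
theorem integrable_kDens_kdiv (S : L2Setting 𝓜 g h φ k) {B : VFam V ι} (hB : IsTestKV 𝓜 k B) :
    Integrable (kDens 𝓜 h φ k (fun Φ z => ‖kdiv h φ k B Φ z‖ ^ 2)) (hvol 𝓜 h) := by
  obtain ⟨K, hK, hKM, h0⟩ := hB.2
  have hs := hB.1.kdiv S.metric S.smooth
  refine integrable_kDens S.metric S.smooth (invariant_kw_normSq S.metric hs)
    (fun Φ U hΦ => ((hs.smooth hΦ).continuousOn.norm.pow 2)) hK hKM fun Φ U hΦ z hz hzK => ?_
  rw [VFamSuppIn.kdiv hK.isClosed h0 Φ U hΦ z hz hzK]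
  simp

end forms

end Claimed.Agent.R316
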