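import Claimed.Agent.R316.Base.L2M.Jets
import Claimed.Agent.R316.Pack018
import Claimed.Agent.R316.S2.Geo

/-!
# Row 316, `BP-G11`: the interpolation package of Section 2 (`St2Interp`), EXPORT

Leaves: `G11-INT2-A` (`goodExh_of_goodDist`, `jetSetting_of_initialData`, `exists_jetCharts_one`, `exists_jetCharts_two`), `G11-INT2-B` (`sepPoints`, `allCovectors`, `canL2`), `G11-INT2-C` (`allVectors`).

* `goodExh_of_goodDist`: `ρ₀` from `GoodDist` at a base point `o` with `ε = 1`; `ρ = √(ρ₀ + 2)`: `ρ₀ + 2 ≥ 1 + r²`, `gradSq ρ = gradSq ρ₀ / (4 (ρ₀+2)) ≤ (r+1)²/(4(1+r²)) ≤ 1`; `{ρ ≤ c} ⊆ hcball o c`, closed in the carrier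
  (`Smooth.continuousOn`), and `hcball` is compact (`IsProperMetric`): a relatively closed subset of a compact set… (`{x ∈ carrier | ρ x ≤ c} = hcball o c ∩ {ρ ≤ c}`, `IsCompact.inter_right`-type argument with `ContinuousOn`).
* `sepPoints`: `k = 0`, two charts, jets `(1,0)`, `(0,0)`; `IsKSec.exists_fun`.  `allCovectors`: `k = 0`, one chart `w ↦ Φ (z + w)` (`CMfd.isHol_translate`, `isHol_mono`), jet `(0, l e_j)`.
  `canL2`: `k = -1`, one chart, jet `(1,0)`; `isCanSection_iff`; `kNormSq 𝓜 g (-1) S = canNormSq 𝓜 g S` on the carrier (`zpow_neg_one`).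
* `allVectors`: `σ` a holomorphic section of `K^{-1}` with `σ (Φ') 0 = 1`; `f_1, …, f_n` holomorphic functions with `∂_b (f_a ∘ Φ') (0) = δ_{ab}` (`allCovectors`).  In a chart `Ψ`: `A_Ψ(w) = (∂_b (f_a ∘ Ψ)(w))_{ab}`,
  `X_j` has the coordinate components `σ_Ψ(w) · (adj A_Ψ(w)) e_j`: holomorphic; transformation law: `A_Φ = (A_Ψ ∘ τ) J`, `adj (A J) = adj J adj A` (`Matrix.adjugate_mul_distrib`), `σ_Ψ ∘ τ = det J σ_Φ`, `adj J = det J · J⁻¹`, so
  `a_Ψ(τ z) = J a_Φ(z)`: the ambient vector `X_j (x) := fderiv ℝ Ψ w (a_Ψ w)` does not depend on the chart (`CMfd.fderiv_eq_comp_trans`).  At the centre `a = e_j`.  `X = ∑_j a_j X_j` (complex combination IN COORDINATES: components `∑_j a_j σ adj(A) e_j`).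
-/

set_option autoImplicit false
set_option linter.unusedSectionVars false
open scoped ContDiff ComplexOrder ComplexConjugate Topology
open MeasureTheory Filter Metric

namespace Claimed.Agent.R316

variable {V : Type} [NormedAddCommGroup V] [NormedSpace ℝ V] [MeasurableSpace V] [BorelSpace V]
  [FiniteDimensional ℝ V]

section general

variable {ι : Type} [Fintype ι] [DecidableEq ι] {𝓜 : CMfd V ι} {g : HFam V ι}

/-- a good exhaustion from approximate squared distance functions. -/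
theorem goodExh_of_goodDist (hg : IsMetric 𝓜 g) (hp : IsProperMetric 𝓜 g) (hne : 𝓜.carrier.Nonempty)
    (hG : GoodDist 𝓜 g) : ∃ ρ : V → ℝ, GoodExh 𝓜 g ρ := by
  obtain ⟨o, ho⟩ := hne
  obtain ⟨ρ₀, hsm, hclose, -, hgrad⟩ := hG o ho 1 one_pos
  have hd0 : ∀ y, 0 ≤ hdist 𝓜 g o y := fun y => hdist_nonneg _ _ _ _
  have hlow : ∀ y ∈ 𝓜.carrier, 1 + hdist 𝓜 g o y ^ 2 ≤ ρ₀ y + 2 := by
    intro y hy
    have := abs_le.mp (hclose y hy)
    linarith [this.1]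
  have hpos : ∀ y ∈ 𝓜.carrier, 0 < ρ₀ y + 2 := by
    intro y hy
    have := hlow y hy
    have := sq_nonneg (hdist 𝓜 g o y)
    linarith
  have hρsm : 𝓜.Smooth (fun y => Real.sqrt (ρ₀ y + 2)) := by
    intro Φ U hΦ
    have h1 : ContDiffOn ℝ ∞ (fun z => (ρ₀ ∘ Φ) z + 2) U := (hsm Φ U hΦ).add contDiffOn_const
    exact h1.sqrt fun z hz => (hpos _ (CMfd.mem_carrier hΦ hz)).ne'
  refine ⟨fun y => Real.sqrt (ρ₀ y + 2), hρsm, fun c => ?_, 1, fun x hx => ?_⟩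
  · have hK : IsCompact (hcball 𝓜 g o |c|) := hp o ho _
    have hsub : hcball 𝓜 g o |c| ⊆ 𝓜.carrier := fun y hy => hy.1
    have hcl : IsClosed (hcball 𝓜 g o |c| ∩ (fun y => Real.sqrt (ρ₀ y + 2)) ⁻¹' Set.Iic c) :=
      (hρsm.continuousOn.mono hsub).preimage_isClosed_of_isClosed hK.isClosed isClosed_Iic
    have heq : {x | x ∈ 𝓜.carrier ∧ Real.sqrt (ρ₀ x + 2) ≤ c}
        = hcball 𝓜 g o |c| ∩ (fun y => Real.sqrt (ρ₀ y + 2)) ⁻¹' Set.Iic c := by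
      ext x
      constructor
      · rintro ⟨hx, hxc⟩
        refine ⟨⟨hx, ?_⟩, hxc⟩
        have h1 := hlow x hx
        have h2 : ρ₀ x + 2 ≤ c ^ 2 := by
          have h3 := Real.sq_sqrt (hpos x hx).le
          have h4 := Real.sqrt_nonneg (ρ₀ x + 2)
          nlinarith
        have h5 : hdist 𝓜 g o x ^ 2 ≤ |c| ^ 2 := by rw [sq_abs]; linarith
        exact (pow_le_pow_iff_left₀ (hd0 x) (abs_nonneg c) two_ne_zero).mp h5
      · rintro ⟨hx, hxc⟩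
        exact ⟨hx.1, hxc⟩
    rw [heq]
    exact hK.of_isClosed_subset hcl Set.inter_subset_left
  · have hp0 := hpos x hx
    have hχ : HasDerivAt (fun t : ℝ => Real.sqrt (t + 2)) (1 / (2 * Real.sqrt (ρ₀ x + 2))) (ρ₀ x) := by
      have h1 : HasDerivAt (fun t : ℝ => t + 2) 1 (ρ₀ x) := (hasDerivAt_id _).add_const 2
      exact h1.sqrt hp0.ne'
    have e := gradSq_comp (𝓜 := 𝓜) g hx hχ.differentiableAt (hsm.diffAt hx)
    rw [e, hχ.deriv]
    have hs := Real.sq_sqrt hp0.le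
    have hs0 := Real.sqrt_pos.mpr hp0
    have h1 := hgrad x hx
    have h2 := hlow x hx
    have h3 := hd0 x
    have h4 : (1 / (2 * Real.sqrt (ρ₀ x + 2))) ^ 2 = 1 / (4 * (ρ₀ x + 2)) := by
      rw [div_pow, mul_pow, hs]; norm_num
    rw [h4, one_div, inv_mul_le_iff₀ (by positivity)]
    nlinarith [sq_nonneg (hdist 𝓜 g o x - 1)]

/-- a centred chart on a small ball. -/
theorem exists_jetCharts_one {Φ : CE ι → V} {U : Set (CE ι)} (hΦ : 𝓜.IsHol Φ U) {z : CE ι} (hz : z ∈ U) :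
    ∃ r : ℝ, JetCharts 𝓜 (fun _ : Fin 1 => fun w => Φ (z + w)) r := by
  obtain ⟨r, hr, hsub⟩ := Metric.isOpen_iff.1 (CMfd.isOpen_dom hΦ) z hz
  refine ⟨r / 2, by positivity, fun _ => ?_, Subsingleton.pairwise⟩
  have h1 : 𝓜.IsHol (fun w => Φ (w + z)) (ball 0 (2 * (r / 2))) := by
    refine 𝓜.isHol_mono (CMfd.isHol_translate hΦ z) Metric.isOpen_ball ?_
    intro w hw
    apply hsub
    have : 2 * (r / 2) = r := by ring
    rw [this] at hw
    simpa [dist_eq_norm] using hw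
  exact 𝓜.congr h1 fun w _ => by simp only [add_comm]

/-- disjoint centred charts at two distinct points. -/
theorem exists_jetCharts_two {x y : V} (hx : x ∈ 𝓜.carrier) (hy : y ∈ 𝓜.carrier) (hxy : x ≠ y) :
    ∃ (Φ : Fin 2 → CE ι → V) (r : ℝ), JetCharts 𝓜 Φ r ∧ Φ 0 0 = x ∧ Φ 1 0 = y := by
  obtain ⟨O₁, O₂, hO₁, hO₂, hx₁, hy₂, hdisj⟩ := t2_separation hxy
  obtain ⟨Φ₁, r₁, hr₁, hΦ₁, h0₁, hs₁⟩ := 𝓜.exists_centred_in hx (hO₁.mem_nhds hx₁)
  obtain ⟨Φ₂, r₂, hr₂, hΦ₂, h0₂, hs₂⟩ := 𝓜.exists_centred_in hy (hO₂.mem_nhds hy₂)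
  have hb₁ : ball (0 : CE ι) (2 * min r₁ r₂) ⊆ ball 0 (2 * r₁) :=
    Metric.ball_subset_ball (by linarith [min_le_left r₁ r₂])
  have hb₂ : ball (0 : CE ι) (2 * min r₁ r₂) ⊆ ball 0 (2 * r₂) :=
    Metric.ball_subset_ball (by linarith [min_le_right r₁ r₂])
  have hd : Disjoint (Φ₁ '' ball 0 (2 * min r₁ r₂)) (Φ₂ '' ball 0 (2 * min r₁ r₂)) :=
    hdisj.mono ((Set.image_mono hb₁).trans hs₁) ((Set.image_mono hb₂).trans hs₂)
  refine ⟨![Φ₁, Φ₂], min r₁ r₂, ⟨lt_min hr₁ hr₂, ?_, ?_⟩, h0₁, h0₂⟩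
  · intro a
    fin_cases a
    · exact 𝓜.isHol_mono hΦ₁ Metric.isOpen_ball hb₁
    · exact 𝓜.isHol_mono hΦ₂ Metric.isOpen_ball hb₂
  · intro a b hab
    fin_cases a <;> fin_cases b
    · exact absurd rfl hab
    · exact hd
    · exact hd.symm
    · exact absurd rfl hab

end general

variable {n : ℕ} {𝓜 : CMfd V (Fin n)} {g : HFam V (Fin n)} {ψ : V → ℝ}

theorem exists_goodExh_of_initialData (I : InitialData 𝓜 g) : ∃ ρ : V → ℝ, GoodExh 𝓜 g ρ :=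
  goodExh_of_goodDist I.kahler.toIsMetric I.proper I.conn.nonempty
    (goodDist I.kahler I.conn I.proper I.bisec.nonneg)

theorem jetSetting_of_initialData (I : InitialData 𝓜 g) (hψ : 𝓜.Smooth ψ) (hs : StrictPsh 𝓜 ψ) {k : ℤ}
    (hk : -1 ≤ k) : JetSetting 𝓜 g ψ k := by
  refine ⟨I.kahler, hψ, hs, fun Φ U hΦ z hz => ?_⟩
  have hk' : (0 : ℝ) ≤ (k : ℝ) + 1 := by
    have : ((-1 : ℤ) : ℝ) ≤ (k : ℝ) := by exact_mod_cast hk
    push_cast at this
    linarith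
  exact posSemidef_smul_real hk' (st2RicPos 𝓜 g I Φ U hΦ z hz).posSemidef

/-- a holomorphic section of `K^0` is a holomorphic function. -/
theorem int2_exists_holFun {s : SFam V (Fin n)} (hs : IsKHol 𝓜 0 s) :
    ∃ f : V → ℂ, 𝓜.HolFun f ∧
      ∀ (Φ : CE (Fin n) → V) (U : Set (CE (Fin n))), 𝓜.IsHol Φ U → ∀ z ∈ U, s Φ z = f (Φ z) := by
  obtain ⟨f, -, hf⟩ := hs.toIsKSec.exists_fun
  exact ⟨f, fun Ψ W hΨ => (hs.hol hΨ).congr fun w hw => (hf Ψ W hΨ w hw).symm, hf⟩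

theorem sepPoints (I : InitialData 𝓜 g) (hψ : 𝓜.Smooth ψ) (hs : StrictPsh 𝓜 ψ) : SepPoints 𝓜 := by
  intro x hx y hy hxy
  obtain ⟨ρ, hρ⟩ := exists_goodExh_of_initialData I
  obtain ⟨Φ, r, hΦ, h0, h1⟩ := exists_jetCharts_two hx hy hxy
  obtain ⟨s, k₀, -, hhol, hc, -, -⟩ := exists_khol_jets
    (jetSetting_of_initialData I hψ hs (k := 0) (by norm_num)) hρ hΦ ![1, 0] (fun _ _ => 0)
  obtain ⟨f, hfhol, hf⟩ := int2_exists_holFun hhol
  have hmem : (0 : CE (Fin n)) ∈ ball (0 : CE (Fin n)) (2 * r) :=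
    mem_ball_self (by have := hΦ.pos; positivity)
  refine ⟨f, hfhol, ?_, ?_⟩
  · rw [← h0, ← hf (Φ 0) _ (hΦ.hol 0) 0 hmem, hc 0]
    rfl
  · rw [← h1, ← hf (Φ 1) _ (hΦ.hol 1) 0 hmem, hc 1]
    rfl

theorem allCovectors (I : InitialData 𝓜 g) (hψ : 𝓜.Smooth ψ) (hs : StrictPsh 𝓜 ψ) : AllCovectors 𝓜 := by
  intro Φ U hΦU z hz l
  obtain ⟨ρ, hρ⟩ := exists_goodExh_of_initialData I
  obtain ⟨r, hr⟩ := exists_jetCharts_one hΦU hz
  obtain ⟨s, k₀, -, hhol, -, hl, -⟩ := exists_khol_jets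
    (jetSetting_of_initialData I hψ hs (k := 0) (by norm_num)) hρ hr (fun _ => 0)
    (fun _ j => l (eb j))
  obtain ⟨f, hfhol, hf⟩ := int2_exists_holFun hhol
  refine ⟨f, hfhol, ?_⟩
  have hd : DifferentiableAt ℂ (f ∘ Φ) z :=
    (hfhol Φ U hΦU z hz).differentiableAt ((CMfd.isOpen_dom hΦU).mem_nhds hz)
  have hr0 : 0 < 2 * r := by have := hr.pos; positivity
  have key : ∀ j, fderiv ℂ (f ∘ Φ) z (eb j) = l (eb j) := by
    intro j
    rw [← dz_of_differentiableAt hd, ← hl 0 j]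
    have e1 : s (fun w => Φ (z + w)) =ᶠ[𝓝 0] fun w => (f ∘ Φ) (w + z) := by
      filter_upwards [Metric.ball_mem_nhds (0 : CE (Fin n)) hr0] with w hw
      rw [hf _ _ (hr.hol 0) w hw, add_comm]
      rfl
    rw [dz_congr e1, dz_comp_add_const, zero_add]
  ext v
  rw [CE_eq_sum_complex v]
  simp only [map_sum, map_smul, key]

/-- a section which does not vanish at the centre of a translated chart does not vanish at the
corresponding point of any other chart. -/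
theorem int2_ne_zero {k : ℤ} {s : SFam V (Fin n)} (hs : IsKSec 𝓜 k s) {Φ Ψ : CE (Fin n) → V}
    {U W : Set (CE (Fin n))} (hΦ : 𝓜.IsHol Φ U) (hΨ : 𝓜.IsHol Ψ W) {z w : CE (Fin n)} (hz : z ∈ U)
    (hw : w ∈ W) (hzw : Φ z = Ψ w) (h0 : s Φ z ≠ 0) : s Ψ w ≠ 0 := by
  have hmem : Φ z ∈ Ψ '' W := ⟨w, hw, hzw.symm⟩
  have h1 := hs.compat hΦ hΨ z hz hmem
  have h2 : Function.invFunOn Ψ W (Φ z) = w := CMfd.trans_eq hΦ hΨ hw hzw
  rw [h2] at h1
  rw [h1]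
  exact mul_ne_zero (zpow_ne_zero _ (CMfd.det_jac_trans_ne_zero hΦ hΨ ⟨hz, hmem⟩)) h0

theorem canL2 (I : InitialData 𝓜 g) (hψ : 𝓜.Smooth ψ) (hs : StrictPsh 𝓜 ψ) : CanL2 𝓜 g ψ := by
  intro x hx
  obtain ⟨ρ, hρ⟩ := exists_goodExh_of_initialData I
  obtain ⟨Φ, U, hΦU, z, hz, rfl⟩ := 𝓜.cover x hx
  obtain ⟨r, hr⟩ := exists_jetCharts_one hΦU hz
  obtain ⟨s, k₀, hk₀, hhol, hc, -, hint⟩ := exists_khol_jets
    (jetSetting_of_initialData I hψ hs (k := -1) le_rfl) hρ hr (fun _ => 1) (fun _ _ => 0)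
  have heq : kNormSq 𝓜 g (-1) s = canNormSq 𝓜 g s := by
    unfold kNormSq canNormSq kw
    congr 1
    funext Ψ w
    rw [zpow_neg_one, div_eq_inv_mul]
  refine ⟨s, k₀, isCanSection_iff.mpr hhol, hk₀, ?_, by rw [← heq]; exact hint⟩
  have hr0 : 0 < 2 * r := by have := hr.pos; positivity
  have hP := 𝓜.isHol_pΦ hx
  have hco := 𝓜.co_mem hx
  have hne : s (𝓜.pΦ (Φ z)) (𝓜.co (Φ z)) ≠ 0 := by
    refine int2_ne_zero hhol.toIsKSec (hr.hol 0) hP (mem_ball_self hr0) hco ?_ ?_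
    · rw [𝓜.pΦ_co hx, add_zero]
    · rw [hc 0]; exact one_ne_zero
  show 0 < ‖s (𝓜.pΦ (Φ z)) (𝓜.co (Φ z))‖ ^ 2 / (g (𝓜.pΦ (Φ z)) (𝓜.co (Φ z))).det.re
  exact div_pos (by positivity) (det_re_pos_of_posDef (I.kahler.posDef hP _ hco))

/-- the determinant of a matrix with holomorphic entries is holomorphic. -/
theorem int2_differentiableOn_det {W : Set (CE (Fin n))} {M : CE (Fin n) → Matrix (Fin n) (Fin n) ℂ}
    (hM : ∀ b c, DifferentiableOn ℂ (fun w => M w b c) W) :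
    DifferentiableOn ℂ (fun w => (M w).det) W := by
  simp only [Matrix.det_apply]
  refine DifferentiableOn.fun_sum fun σ _ => ?_
  refine DifferentiableOn.const_smul ?_ _
  intro w hw
  exact (HasFDerivWithinAt.finsetProd fun i _ =>
    (hM (σ i) i w hw).hasFDerivWithinAt).differentiableWithinAt

/-- the entries of the adjugate of a matrix with holomorphic entries are holomorphic. -/
theorem int2_differentiableOn_adjugate {W : Set (CE (Fin n))}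
    {M : CE (Fin n) → Matrix (Fin n) (Fin n) ℂ}
    (hM : ∀ b c, DifferentiableOn ℂ (fun w => M w b c) W) (b c : Fin n) :
    DifferentiableOn ℂ (fun w => (M w).adjugate b c) W := by
  simp only [Matrix.adjugate_apply]
  refine int2_differentiableOn_det fun p q => ?_
  by_cases hp : p = c
  · subst hp
    simp only [Matrix.updateRow_self]
    exact differentiableOn_const _
  · simp only [Matrix.updateRow_ne hp]
    exact hM p q

/-- the coordinate components of the vector field `σ · adj (∂f) v`. -/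
noncomputable def int2Comp (σ : SFam V (Fin n)) (f : Fin n → V → ℂ) (v : Fin n → ℂ)
    (Ψ : CE (Fin n) → V) (w : CE (Fin n)) : CE (Fin n) :=
  WithLp.toLp 2 (σ Ψ w • (Matrix.of fun b c => dz c (f b ∘ Ψ) w).adjugate.mulVec v)

theorem int2Comp_differentiableOn {σ : SFam V (Fin n)} (hσ : IsKHol 𝓜 1 σ) {f : Fin n → V → ℂ}
    (hf : ∀ b, 𝓜.HolFun (f b)) (v : Fin n → ℂ) {Ψ : CE (Fin n) → V} {W : Set (CE (Fin n))}
    (hΨ : 𝓜.IsHol Ψ W) : DifferentiableOn ℂ (int2Comp σ f v Ψ) W := by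
  rw [differentiableOn_euclidean]
  intro b
  have hA : ∀ b c, DifferentiableOn ℂ
      (fun w => (Matrix.of fun b c => dz c (f b ∘ Ψ) w : Matrix (Fin n) (Fin n) ℂ) b c) W :=
    fun b c => differentiableOn_dz (CMfd.isOpen_dom hΨ) (hf b Ψ W hΨ) c
  have h1 : DifferentiableOn ℂ (fun w => σ Ψ w *
      ∑ c, (Matrix.of fun b c => dz c (f b ∘ Ψ) w : Matrix (Fin n) (Fin n) ℂ).adjugate b c * v c) W :=
    (hσ.hol hΨ).mul (DifferentiableOn.fun_sum fun c _ =>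
      (int2_differentiableOn_adjugate hA b c).mul_const (v c))
  exact h1

/-- the transformation law of the components. -/
theorem int2Comp_trans {σ : SFam V (Fin n)} (hσ : IsKHol 𝓜 1 σ) {f : Fin n → V → ℂ}
    (hf : ∀ b, 𝓜.HolFun (f b)) (v : Fin n → ℂ) {Φ Ψ : CE (Fin n) → V} {U W : Set (CE (Fin n))}
    (hΦ : 𝓜.IsHol Φ U) (hΨ : 𝓜.IsHol Ψ W) {z : CE (Fin n)} (hz : z ∈ U ∩ Φ ⁻¹' (Ψ '' W)) :
    fderiv ℂ (Function.invFunOn Ψ W ∘ Φ) z (int2Comp σ f v Φ z)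
      = int2Comp σ f v Ψ ((Function.invFunOn Ψ W ∘ Φ) z) := by
  set τ := Function.invFunOn Ψ W ∘ Φ with hτ
  have hτd : DifferentiableAt ℂ τ z := CMfd.trans_differentiableAt hΦ hΨ hz
  have hτm : τ z ∈ W := CMfd.trans_mem hΦ hΨ hz
  set A₁ : Matrix (Fin n) (Fin n) ℂ := Matrix.of fun b c => dz c (f b ∘ Φ) z with hA₁
  set A₂ : Matrix (Fin n) (Fin n) ℂ := Matrix.of fun b c => dz c (f b ∘ Ψ) (τ z) with hA₂
  have hA : A₁ = A₂ * jac τ z := by
    ext b c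
    have e1 : f b ∘ Φ =ᶠ[𝓝 z] fun w => (f b ∘ Ψ) (τ w) := CMfd.eventually_comp_eq (f b) hΦ hΨ hz
    have hd : DifferentiableAt ℂ (f b ∘ Ψ) (τ z) :=
      (hf b Ψ W hΨ _ hτm).differentiableAt ((CMfd.isOpen_dom hΨ).mem_nhds hτm)
    show dz c (f b ∘ Φ) z = _
    rw [dz_congr e1, dz_comp_hol τ (f b ∘ Ψ) hτd (hd.restrictScalars ℝ), Matrix.mul_apply]
    rfl
  have hσc : σ Ψ (τ z) = (jac τ z).det * σ Φ z := by
    have := hσ.compat hΦ hΨ z hz.1 hz.2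
    rwa [zpow_one] at this
  ext b
  rw [← jac_mulVec]
  show (jac τ z).mulVec (σ Φ z • A₁.adjugate.mulVec v) b = (σ Ψ (τ z) • A₂.adjugate.mulVec v) b
  rw [hA, Matrix.adjugate_mul_distrib, Matrix.mulVec_smul, Matrix.mulVec_mulVec, ← Matrix.mul_assoc,
    Matrix.mul_adjugate, Matrix.smul_mul, Matrix.one_mul, Matrix.smul_mulVec, hσc, smul_smul,
    mul_comm]

theorem allVectors (I : InitialData 𝓜 g) (hψ : 𝓜.Smooth ψ) (hs : StrictPsh 𝓜 ψ) : AllVectors 𝓜 := by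
  intro Φ U hΦU z hz a
  obtain ⟨ρ, hρ⟩ := exists_goodExh_of_initialData I
  obtain ⟨r, hr⟩ := exists_jetCharts_one hΦU hz
  obtain ⟨σ, -, -, hσ, hσ0, -, -⟩ := exists_khol_jets
    (jetSetting_of_initialData I hψ hs (k := 1) (by norm_num)) hρ hr (fun _ => 1) (fun _ _ => 0)
  have hr0 : 0 < 2 * r := by have := hr.pos; positivity
  have hσz : σ Φ z ≠ 0 := by
    refine int2_ne_zero hσ.toIsKSec (hr.hol 0) hΦU (mem_ball_self hr0) hz ?_ ?_
    · rw [add_zero]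
    · rw [hσ0 0]; exact one_ne_zero
  have hcov := allCovectors I hψ hs Φ U hΦU z hz
  choose f hfhol hfd using fun b : Fin n => hcov (EuclideanSpace.proj b)
  set v : Fin n → ℂ := fun j => (σ Φ z)⁻¹ * a j with hv
  -- the field
  set X : V → V := fun x => fderiv ℝ (𝓜.pΦ x) (𝓜.co x) (int2Comp σ f v (𝓜.pΦ x) (𝓜.co x)) with hX
  have hXΨ : ∀ (Ψ : CE (Fin n) → V) (W : Set (CE (Fin n))), 𝓜.IsHol Ψ W → ∀ w ∈ W,
      X (Ψ w) = fderiv ℝ Ψ w (int2Comp σ f v Ψ w) := by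
    intro Ψ W hΨ w hw
    have hx : Ψ w ∈ 𝓜.carrier := CMfd.mem_carrier hΨ hw
    have hP := 𝓜.isHol_pΦ hx
    have hmem : w ∈ W ∩ Ψ ⁻¹' (𝓜.pΦ (Ψ w) '' 𝓜.pU (Ψ w)) := ⟨hw, 𝓜.mem_image_pΦ hx⟩
    rw [CMfd.fderiv_eq_comp_trans hΨ hP hmem, int2Comp_trans hσ hfhol v hΨ hP hmem]
    rfl
  refine ⟨X, fun Ψ W hΨ => ⟨int2Comp σ f v Ψ, int2Comp_differentiableOn hσ hfhol v hΨ,
    hXΨ Ψ W hΨ⟩, ?_⟩
  rw [hXΨ Φ U hΦU z hz]
  congr 1
  have hA : (Matrix.of fun b c => dz c (f b ∘ Φ) z : Matrix (Fin n) (Fin n) ℂ) = 1 := by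
    ext b c
    have hd : DifferentiableAt ℂ (f b ∘ Φ) z :=
      (hfhol b Φ U hΦU z hz).differentiableAt ((CMfd.isOpen_dom hΦU).mem_nhds hz)
    show dz c (f b ∘ Φ) z = _
    rw [dz_of_differentiableAt hd, hfd b, CE_proj_apply, eb_apply, Matrix.one_apply]
  ext b
  show (σ Φ z • (Matrix.of fun b c => dz c (f b ∘ Φ) z : Matrix (Fin n) (Fin n) ℂ).adjugate.mulVec v) b
    = a b
  rw [hA, Matrix.adjugate_one, Matrix.one_mulVec, Pi.smul_apply, smul_eq_mul, hv]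
  field_simp

/-- **the interpolation package** (`BP-G11` export for Section 2). -/
theorem st2Interp (𝓜 : CMfd V (Fin n)) (g : HFam V (Fin n)) : St2Interp 𝓜 g := fun I _ψ hψ hs =>
  ⟨sepPoints I hψ hs, allCovectors I hψ hs, allVectors I hψ hs, canL2 I hψ hs⟩

end Claimed.Agent.R316
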