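import Claimed.Agent.R316.Base.L2M.Inv1

/-!
# Row 316, `BP-G11`: algebra and invariance of the families `IsKSec`, `IsKForm`, `IsKVec`

Leaves: `G11-INV-A` (section 1: closure properties), `G11-INV-B` (section 2: `∂̄`, raising, lowering, tensor law of `dbarV`, invariant scalars),
`G11-INV-C` (section 3: Piola identity, `kdiv` of a `K^{-k}`-valued vector field is a section, divergence of vector fields),
`G11-INV-D` (section 4: transplantation from a chart, functions as sections).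

NOTATION in the plans: `τ = invFunOn Ψ W ∘ Φ` (holomorphic near `z`, `CM/Trans.lean`: `trans_differentiableAt`, `eventually_eq_comp_trans`,
`isUnit_jac_trans`, `det_jac_trans_ne_zero`, `jac_trans_inv`, …), `J = jac τ z`.
GENERAL METHOD for a law involving derivatives: by `compat` (which holds at ALL points near `z`: `CMfd.isOpen_overlap`) the identity
`B_Φ = (det J)^{-k} J⁻¹ (B_Ψ ∘ τ)` holds on a neighbourhood of `z`; apply `dzb l` / `dz j`: `det J`, `J⁻¹` are holomorphic in `z` (`CW/HolSmooth.lean`,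
`CW/MatFun.lean`), so `dzb l` passes through them, and `dzb l (f ∘ τ) = ∑_m conj (J m l) (dzb m f) ∘ τ`, `dz l (f ∘ τ) = ∑_m J m l (dz m f) ∘ τ` (`CW/Basic.lean`, chain rule).
-/

set_option autoImplicit false
set_option linter.unusedSectionVars false
open scoped ContDiff ComplexOrder ComplexConjugate Topology
open MeasureTheory

namespace Claimed.Agent.R316

variable {V : Type} [NormedAddCommGroup V] [NormedSpace ℝ V]
variable {ι : Type} [Fintype ι] [DecidableEq ι]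
variable {𝓜 : CMfd V ι} {g h A : HFam V ι} {φ χ : V → ℝ} {k : ℤ}
variable {s s' : SFam V ι} {b β B B' : VFam V ι}

/-! ### 3. divergence -/

section divergence

/-- the second derivatives of a holomorphic map are symmetric. -/
theorem closedAt_jac {τ : CE ι → CE ι} {O : Set (CE ι)} (hO : IsOpen O) (hτ : DifferentiableOn ℂ τ O)
    {z : CE ι} (hz : z ∈ O) : ClosedAt (jac τ) z := by
  have hzn : O ∈ 𝓝 z := hO.mem_nhds hz
  intro a c l'
  have hf : ContDiffAt ℝ 2 (fun y => τ y a) z := by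
    have h1 : ContDiffAt ℝ ∞ τ z := (hol_contDiffOn_real hO hτ).contDiffAt hzn
    have h2 : ContDiffAt ℝ ∞ (fun y => τ y a) z :=
      (((EuclideanSpace.proj a : CE ι →L[ℂ] ℂ).restrictScalars ℝ).contDiff.contDiffAt).comp z h1
    exact h2.of_le lv_two_le_infty
  have e : ∀ c', (fun w => jac τ w a c') =ᶠ[𝓝 z] dz c' (fun y => τ y a) := by
    intro c'
    filter_upwards [hzn] with w hw
    exact jac_apply_eq_dz τ ((hτ w hw).differentiableAt (hO.mem_nhds hw)) a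
  rw [dz_congr (e c), dz_congr (e l')]
  exact dz_dz_comm hf

open Matrix in
/-- transformation law of the weighted divergence under a biholomorphic change of coordinates. -/
theorem cdiv_comp_hol {τ : CE ι → CE ι} {O : Set (CE ι)} (hO : IsOpen O) (hτ : DifferentiableOn ℂ τ O)
    (hinv : ∀ w ∈ O, (jac τ w).det ≠ 0) {z : CE ι} (hz : z ∈ O) (k : ℤ)
    {η η' : CE ι → ℝ} {Y Y' : CE ι → ι → ℂ} (hη' : DifferentiableAt ℝ η' (τ z))
    (hY : ∀ j, DifferentiableAt ℝ (fun w => Y w j) z)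
    (hY' : ∀ j, DifferentiableAt ℝ (fun w => Y' w j) (τ z))
    (heη : ∀ w ∈ O, η w = η' (τ w) - ((k : ℝ) + 1) * Real.log (‖(jac τ w).det‖ ^ 2))
    (heY : ∀ w ∈ O, Y' (τ w) = (jac τ w).det ^ k • (jac τ w).mulVec (Y w)) :
    cdiv η' Y' (τ z) = (jac τ z).det ^ k * cdiv η Y z := by
  have hzn : O ∈ 𝓝 z := hO.mem_nhds hz
  have hτz : DifferentiableAt ℂ τ z := (hτ z hz).differentiableAt hzn
  set J := jac τ z with hJ
  set D := J.det with hD
  have hD0 : D ≠ 0 := hinv z hz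
  have hJu : IsUnit J.det := isUnit_iff_ne_zero.2 hD0
  set t : ι → ℂ := fun j => (J⁻¹ * dzM j (jac τ) z).trace with ht
  have hJc : ∀ a c, DifferentiableAt ℂ (fun w => jac τ w a c) z := fun a c =>
    (differentiableOn_jac hO hτ a c z hz).differentiableAt hzn
  have hJd : ∀ a c, DifferentiableAt ℝ (fun w => jac τ w a c) z := fun a c => (hJc a c).restrictScalars ℝ
  have hDc : DifferentiableAt ℂ (fun w => (jac τ w).det) z :=
    (differentiableOn_det_jac hO hτ z hz).differentiableAt hzn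
  have hDd : DifferentiableAt ℝ (fun w => (jac τ w).det) z := hDc.restrictScalars ℝ
  have hdD : ∀ j, dz j (fun w => (jac τ w).det) z = D * t j := fun j => dz_det' hJd hD0
  have hcl := closedAt_jac hO hτ hz
  -- derivative of `D^k`
  have hdDk : ∀ j, dz j (fun w => (jac τ w).det ^ k) z = (k : ℂ) * D ^ k * t j := by
    intro j
    rw [dz_hol_comp (fun x : ℂ => x ^ k) (differentiableAt_zpow.2 (Or.inl hD0)) hDd, hdD, deriv_zpow,
      zpow_sub_one₀ hD0]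
    field_simp
  have hDkd : DifferentiableAt ℝ (fun w => (jac τ w).det ^ k) z :=
    (hDc.zpow (Or.inl hD0)).restrictScalars ℝ
  -- the matrices of derivatives
  set P' : Matrix ι ι ℂ := fun a m => dz m (fun y => Y' y a) (τ z) with hP'
  set P : Matrix ι ι ℂ := fun m j => dz j (fun w => Y w m) z with hP
  have hR : P' * J = ((k : ℂ) * D ^ k) • Matrix.vecMulVec (J *ᵥ Y z) t
      + D ^ k • (∑ m, Y z m • dzM m (jac τ) z) + D ^ k • (J * P) := by
    ext a j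
    have hev : (fun w => Y' (τ w) a) =ᶠ[𝓝 z] fun w => (jac τ w).det ^ k * ∑ m, jac τ w a m * Y w m := by
      filter_upwards [hzn] with w hw
      have := congrFun (heY w hw) a
      simp only [Pi.smul_apply, smul_eq_mul, Matrix.mulVec, dotProduct] at this
      exact this
    have hprod : ∀ m ∈ Finset.univ, DifferentiableAt ℝ (fun w => jac τ w a m * Y w m) z := fun m _ =>
      (hJd a m).mul (hY m)
    have h1 := dz_congr (j := j) hev
    rw [dz_comp_hol τ (fun y => Y' y a) hτz (hY' a), dz_mul hDkd (DifferentiableAt.fun_sum hprod),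
      hdDk, dz_sum Finset.univ _ hprod] at h1
    have h2 : ∀ m, dz j (fun w => jac τ w a m * Y w m) z
        = Y z m * dzM m (jac τ) z a j + J a m * P m j := by
      intro m
      rw [dz_mul (hJd a m) (hY m), hcl a m j, dzM_apply, mul_comm]
    simp only [h2, Finset.sum_add_distrib] at h1
    simp only [Matrix.mul_apply, Matrix.add_apply, Matrix.smul_apply, Matrix.vecMulVec_apply,
      Matrix.sum_apply, smul_eq_mul, Matrix.mulVec, dotProduct]
    rw [h1]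
    ring
  have htr : P'.trace = D ^ k * (((k : ℂ) + 1) * ∑ m, t m * Y z m + P.trace) := by
    have e0 : P'.trace = (P' * J * J⁻¹).trace := by
      rw [Matrix.mul_assoc, Matrix.mul_nonsing_inv _ hJu, Matrix.mul_one]
    have e1 : (Matrix.vecMulVec (J *ᵥ Y z) t * J⁻¹).trace = ∑ m, t m * Y z m := by
      rw [Matrix.vecMulVec_mul, Matrix.trace_vecMulVec, dotProduct_comm, ← Matrix.dotProduct_mulVec,
        Matrix.mulVec_mulVec, Matrix.nonsing_inv_mul _ hJu, Matrix.one_mulVec]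
      rfl
    have e2 : ((∑ m, Y z m • dzM m (jac τ) z) * J⁻¹).trace = ∑ m, t m * Y z m := by
      rw [Matrix.sum_mul, Matrix.trace_sum]
      refine Finset.sum_congr rfl fun m _ => ?_
      rw [Matrix.smul_mul, Matrix.trace_smul, Matrix.trace_mul_comm, smul_eq_mul, mul_comm]
    have e3 : (J * P * J⁻¹).trace = P.trace := by
      rw [Matrix.trace_mul_comm, ← Matrix.mul_assoc, Matrix.nonsing_inv_mul _ hJu, Matrix.one_mul]
    rw [e0, hR]
    simp only [Matrix.add_mul, Matrix.smul_mul, Matrix.trace_add, Matrix.trace_smul, e1, e2, e3,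
      smul_eq_mul]
    ring
  -- the gradient of the weight
  have hgrad : ∀ j, grad10 η z j = ∑ a, grad10 η' (τ z) a * J a j - ((k : ℂ) + 1) * t j := by
    intro j
    have hn0 : ‖(jac τ z).det‖ ^ 2 ≠ 0 := by
      have : ‖(jac τ z).det‖ ≠ 0 := norm_ne_zero_iff.2 hD0
      positivity
    have hnd : DifferentiableAt ℝ (fun w => ‖(jac τ w).det‖ ^ 2) z := hDd.norm_sq ℂ
    have hld : DifferentiableAt ℝ (fun w => Real.log (‖(jac τ w).det‖ ^ 2)) z := hnd.log hn0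
    have hev : η =ᶠ[𝓝 z] fun w => η' (τ w) - ((k : ℝ) + 1) * Real.log (‖(jac τ w).det‖ ^ 2) := by
      filter_upwards [hzn] with w hw
      exact heη w hw
    have hc : DifferentiableAt ℝ (fun w => η' (τ w)) z := hη'.comp z (hτz.restrictScalars ℝ)
    rw [grad10_congr hev, grad10_sub hc (hld.const_mul _), Pi.sub_apply, grad10_comp_hol τ η' hτz hη',
      grad10_const_mul _ hld, Pi.smul_apply,
      grad10_comp_real Real.log _ (Real.differentiableAt_log hn0) hnd, grad10_normSq_hol _ hDc, hdD,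
      Real.deriv_log, smul_eq_mul]
    congr 1
    have : (((‖(jac τ z).det‖ ^ 2)⁻¹ : ℝ) : ℂ) * (conj D * (D * t j)) = t j := by
      rw [← hJ, ← hD, ← Complex.normSq_eq_norm_sq, Complex.ofReal_inv, Complex.normSq_eq_conj_mul_self]
      have hcD : conj D ≠ 0 := (map_ne_zero _).2 hD0
      field_simp
    rw [this]
    push_cast
    ring
  have hYz : ∀ a, Y' (τ z) a = D ^ k * ∑ m, J a m * Y z m := by
    intro a
    have := congrFun (heY z hz) a
    simp only [Pi.smul_apply, smul_eq_mul, Matrix.mulVec, dotProduct] at this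
    exact this
  have hL : cdiv η' Y' (τ z) = P'.trace - ∑ a, grad10 η' (τ z) a * Y' (τ z) a := by
    simp only [cdiv, Finset.sum_sub_distrib]
    rfl
  have hRr : cdiv η Y z = P.trace - ∑ j, grad10 η z j * Y z j := by
    simp only [cdiv, Finset.sum_sub_distrib]
    rfl
  have e6 : ∑ j, grad10 η z j * Y z j
      = ∑ a, grad10 η' (τ z) a * ∑ m, J a m * Y z m - ((k : ℂ) + 1) * ∑ m, t m * Y z m := by
    simp only [hgrad, sub_mul, Finset.sum_sub_distrib, Finset.sum_mul, Finset.mul_sum]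
    rw [Finset.sum_comm]
    congr 1
    · exact Finset.sum_congr rfl fun a _ => Finset.sum_congr rfl fun m _ => by ring
    · exact Finset.sum_congr rfl fun m _ => by ring
  have e7 : ∑ a, grad10 η' (τ z) a * Y' (τ z) a
      = D ^ k * ∑ a, grad10 η' (τ z) a * ∑ m, J a m * Y z m := by
    simp only [hYz]
    rw [Finset.mul_sum]
    exact Finset.sum_congr rfl fun a _ => by ring
  rw [hL, hRr, htr, e6, e7]
  ring

/-- **Piola identity** for a holomorphic map `τ` with invertible Jacobian: `∑_j ∂_j (adj J)_{jl} = 0`.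
PLAN: `adj J = det J · J⁻¹`; `∂_j det J = det J tr (J⁻¹ ∂_j J)`, `∂_j J⁻¹ = - J⁻¹ (∂_j J) J⁻¹` (`CW/MatFun.lean`), `∂_j J_{ab} = ∂_b J_{aj}` (symmetry of the second
complex derivative).  Compare the cofactor identity of `CW/LapC.lean`. -/
theorem piola_jac {τ : CE ι → CE ι} {O : Set (CE ι)} (hO : IsOpen O) (hτ : DifferentiableOn ℂ τ O)
    (hinv : ∀ z ∈ O, IsUnit (jac τ z)) {z : CE ι} (hz : z ∈ O) (l : ι) :
    ∑ j, dz j (fun w => (jac τ w).adjugate j l) z = 0 := by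
  have hzn : O ∈ 𝓝 z := hO.mem_nhds hz
  have hdet : ∀ w ∈ O, (jac τ w).det ≠ 0 := fun w hw =>
    ((Matrix.isUnit_iff_isUnit_det _).1 (hinv w hw)).ne_zero
  have hJ : ∀ a c, DifferentiableAt ℝ (fun w => jac τ w a c) z := fun a c =>
    ((differentiableOn_jac hO hτ a c z hz).differentiableAt hzn).restrictScalars ℝ
  have hcl : ClosedAt (jac τ) z := by
    intro a c l'
    have hf : ContDiffAt ℝ 2 (fun y => τ y a) z := by
      have h1 : ContDiffAt ℝ ∞ τ z := (hol_contDiffOn_real hO hτ).contDiffAt hzn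
      have h2 : ContDiffAt ℝ ∞ (fun y => τ y a) z :=
        (((EuclideanSpace.proj a : CE ι →L[ℂ] ℂ).restrictScalars ℝ).contDiff.contDiffAt).comp z h1
      exact h2.of_le lv_two_le_infty
    have e : ∀ c', (fun w => jac τ w a c') =ᶠ[𝓝 z] dz c' (fun y => τ y a) := by
      intro c'
      filter_upwards [hzn] with w hw
      exact jac_apply_eq_dz τ ((hτ w hw).differentiableAt (hO.mem_nhds hw)) a
    rw [dz_congr (e c), dz_congr (e l')]
    exact dz_dz_comm hf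
  have key := sum_dz_cofactor hJ (hdet z hz) hcl l
  rw [← key]
  refine Finset.sum_congr rfl fun j _ => dz_congr ?_
  filter_upwards [hzn] with w hw
  rw [matFun_adjugate_eq _ (hdet w hw), Matrix.smul_apply, smul_eq_mul]

/-- the weighted divergence of a `K^{-k}`-valued vector field is a section of `K^{-k}`.
PLAN: near `z`: `e^{-η_Φ} B_Φ = conj (det J)^{k+1} · adj J · (P ∘ τ)`, `P = e^{-η_Ψ} B_Ψ` (from `compat`, `kw_compat`, `exp_neg_wt`, `IsHForm.det_re_compat`);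
`∑_j ∂_j` of it `= conj (det J)^{k+1} det J (∑_l ∂_l P^l) ∘ τ` by `piola_jac` and `J adj J = det J`. -/
theorem IsKVec.kdiv (hh : IsMetric 𝓜 h) (hφ : 𝓜.Smooth φ) (hB : IsKVec 𝓜 k B) :
    IsKSec 𝓜 k (kdiv h φ k B) := by
  refine ⟨fun {Φ U} hΦ => ?_, ?_⟩
  · have hU := CMfd.isOpen_dom hΦ
    unfold R316.kdiv cdiv
    exact ContDiffOn.sum fun j _ => (contDiffOn_dz hU (hB.smooth hΦ j)).sub
      ((contDiffOn_grad10 hU (contDiffOn_wt hh hφ hΦ k)).mul (hB.smooth hΦ j))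
  · intro Φ Ψ U W hΦ hΨ z hz hzW
    have hzo : z ∈ U ∩ Φ ⁻¹' (Ψ '' W) := ⟨hz, hzW⟩
    have hτW := CMfd.trans_mem hΦ hΨ hzo
    refine cdiv_comp_hol (CMfd.isOpen_overlap hΦ hΨ) (𝓜.compat hΦ hΨ)
      (fun w hw => CMfd.det_jac_trans_ne_zero hΦ hΨ hw) hzo k ?_ (fun j => hB.differentiableAt hΦ hz j)
      (fun j => hB.differentiableAt hΨ hτW j) ?_ (fun w hw => hB.compat hΦ hΨ w hw.1 hw.2)
    · exact ((contDiffOn_wt hh hφ hΨ k _ hτW).contDiffAt
        ((CMfd.isOpen_dom hΨ).mem_nhds hτW)).differentiableAt (by simp)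
    · intro w hw
      simp only [wt]
      rw [hh.toIsHForm.compat_trans hΦ hΨ hw, logDet_conjTranspose_mul_mul (CMfd.det_jac_trans_ne_zero hΦ hΨ hw)
        (det_re_ne_zero_of_posDef (hh.posDef hΨ _ (CMfd.trans_mem hΦ hΨ hw))), CMfd.trans_spec hΦ hΨ hw]
      ring

/-- the `h`-divergence of a vector field is a function on the manifold (the case `k = 0`, `φ = 0` of `IsKVec.kdiv`). -/
theorem exists_isDivOf (hh : IsMetric 𝓜 h) {X : VFam V ι} (hX : IsVField 𝓜 X) : ∃ D : V → ℂ, IsDivOf 𝓜 h X D := by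
  have hXk : IsKVec 𝓜 0 X := ⟨fun hΦ j => hX.smooth hΦ j, fun hΦ hΨ z hz hzW => by
    rw [zpow_zero, one_smul]; exact hX.compat hΦ hΨ z hz hzW⟩
  have h0 : 𝓜.Smooth (fun _ : V => (0 : ℝ)) := fun Φ U _ => contDiffOn_const
  have hs := hXk.kdiv hh h0
  refine ⟨fun x => kdiv h (fun _ => 0) 0 X (𝓜.pΦ x) (𝓜.co x), fun Φ U hΦ z hz => ?_⟩
  have hx : Φ z ∈ 𝓜.carrier := CMfd.mem_carrier hΦ hz
  have h1 := hs.compat hΦ (𝓜.isHol_pΦ hx) z hz (𝓜.mem_image_pΦ hx)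
  rw [zpow_zero, one_mul] at h1
  have h2 : kdiv h (fun _ => 0) 0 X (𝓜.pΦ (Φ z)) (𝓜.co (Φ z)) = kdiv h (fun _ => 0) 0 X Φ z := h1
  simp only [h2]
  have hHd : ∀ a c, DifferentiableAt ℝ (fun w => h Φ w a c) z := fun a c =>
    hh.toIsHForm.differentiableAt hΦ hz a c
  have hdet0 := hh.det_ne_zero hΦ hz
  have hld : DifferentiableAt ℝ (fun w => Real.log (h Φ w).det.re) z :=
    (differentiableAt_det_re hHd).log (det_re_ne_zero_of_posDef (hh.posDef hΦ z hz))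
  have hg : ∀ j, grad10 (wt h (fun _ => 0) 0 Φ) z j = - ((h Φ z)⁻¹ * dzM j (h Φ) z).trace := by
    intro j
    have e : wt h (fun _ => 0) 0 Φ = fun w => - Real.log (h Φ w).det.re := by
      funext w
      simp [wt]
    rw [e, grad10_neg, Pi.neg_apply,
      grad10_logDet hHd (hh.toIsHForm.eventually_isHermitian hΦ hz) (hh.posDef hΦ z hz)]
  simp only [R316.kdiv, cdiv, hg]
  rw [Finset.sum_mul]
  refine Finset.sum_congr rfl fun j _ => ?_
  rw [dz_mul (differentiableAt_det hHd) (hXk.differentiableAt hΦ hz j), dz_det' hHd hdet0]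
  ring

/-- Leibniz rule for `kdiv`. -/
theorem kdiv_fmulV (hχ : 𝓜.Smooth χ) (hB : IsKVec 𝓜 k B) {Φ : CE ι → V} {U : Set (CE ι)} (hΦ : 𝓜.IsHol Φ U)
    {z : CE ι} (hz : z ∈ U) :
    kdiv h φ k (fmulV χ B) Φ z = ((χ (Φ z) : ℝ) : ℂ) * kdiv h φ k B Φ z + ∑ j, grad10 (χ ∘ Φ) z j * B Φ z j := by
  have hχd : DifferentiableAt ℝ (fun w => ((χ (Φ w) : ℝ) : ℂ)) z :=
    differentiableAt_ofReal (hχ.differentiableAt_comp hΦ hz)
  simp only [R316.kdiv, cdiv, fmulV, Pi.smul_apply, smul_eq_mul]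
  rw [Finset.mul_sum, ← Finset.sum_add_distrib]
  refine Finset.sum_congr rfl fun j _ => ?_
  rw [dz_mul hχd (hB.differentiableAt hΦ hz j)]
  have e : dz j (fun w => ((χ (Φ w) : ℝ) : ℂ)) z = grad10 (χ ∘ Φ) z j := rfl
  rw [e]
  ring

theorem kdiv_add (hB : IsKVec 𝓜 k B) (hB' : IsKVec 𝓜 k B') {Φ : CE ι → V} {U : Set (CE ι)} (hΦ : 𝓜.IsHol Φ U)
    {z : CE ι} (hz : z ∈ U) : kdiv h φ k (B + B') Φ z = kdiv h φ k B Φ z + kdiv h φ k B' Φ z := by
  simp only [R316.kdiv, cdiv, Pi.add_apply]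
  rw [← Finset.sum_add_distrib]
  refine Finset.sum_congr rfl fun j _ => ?_
  rw [dz_add (hB.differentiableAt hΦ hz j) (hB'.differentiableAt hΦ hz j)]
  ring

theorem kdiv_smul_real (t : ℝ) (hB : IsKVec 𝓜 k B) {Φ : CE ι → V} {U : Set (CE ι)} (hΦ : 𝓜.IsHol Φ U)
    {z : CE ι} (hz : z ∈ U) : kdiv h φ k (t • B) Φ z = t * kdiv h φ k B Φ z := by
  simp only [R316.kdiv, cdiv, Pi.smul_apply, Complex.real_smul]
  rw [Finset.mul_sum]
  refine Finset.sum_congr rfl fun j _ => ?_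
  rw [dz_const_mul _ (hB.differentiableAt hΦ hz j)]
  ring

theorem dbarV_add (hB : IsKVec 𝓜 k B) (hB' : IsKVec 𝓜 k B') {Φ : CE ι → V} {U : Set (CE ι)} (hΦ : 𝓜.IsHol Φ U)
    {z : CE ι} (hz : z ∈ U) : dbarV (B + B') Φ z = dbarV B Φ z + dbarV B' Φ z := by
  ext l j
  simp only [R316.dbarV, cdbar, Pi.add_apply, Matrix.add_apply]
  exact dzb_add (hB.differentiableAt hΦ hz j) (hB'.differentiableAt hΦ hz j)

theorem dbarV_smul_real (t : ℝ) (hB : IsKVec 𝓜 k B) {Φ : CE ι → V} {U : Set (CE ι)} (hΦ : 𝓜.IsHol Φ U)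
    {z : CE ι} (hz : z ∈ U) : dbarV (t • B) Φ z = t • dbarV B Φ z := by
  ext l j
  simp only [R316.dbarV, cdbar, Pi.smul_apply, Matrix.smul_apply, Complex.real_smul]
  exact dzb_const_mul _ (hB.differentiableAt hΦ hz j)

/-- a family supported in the closed set `K` vanishes near every point outside `K`. -/
theorem VFamSuppIn.eventually_eq_zero {K : Set V} (hK : IsClosed K) (hB : VFamSuppIn 𝓜 B K) {Φ : CE ι → V}
    {U : Set (CE ι)} (hΦ : 𝓜.IsHol Φ U) {z : CE ι} (hz : z ∈ U) (hzK : Φ z ∉ K) :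
    ∀ᶠ w in 𝓝 z, B Φ w = 0 := by
  have hopen : IsOpen (U ∩ Φ ⁻¹' Kᶜ) := (𝓜.isParam hΦ).isOpen_inter_preimage hK.isOpen_compl
  filter_upwards [hopen.mem_nhds ⟨hz, hzK⟩] with w hw
  exact hB Φ U hΦ w hw.1 hw.2

/-- a family supported in `K` has its derivatives supported in `K` (`K` closed). -/
theorem VFamSuppIn.kdiv {K : Set V} (hK : IsClosed K) (hB : VFamSuppIn 𝓜 B K) :
    SFamSuppIn 𝓜 (kdiv h φ k B) K := by
  intro Φ U hΦ z hz hzK
  have hev := hB.eventually_eq_zero hK hΦ hz hzK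
  simp only [R316.kdiv, cdiv]
  refine Finset.sum_eq_zero fun j _ => ?_
  have e : (fun w => B Φ w j) =ᶠ[𝓝 z] fun _ => 0 := hev.mono fun w hw => congrFun hw j
  rw [dz_congr e, dz_const, hev.self_of_nhds]
  simp

theorem VFamSuppIn.dbarV {K : Set V} (hK : IsClosed K) (hB : VFamSuppIn 𝓜 B K) {Φ : CE ι → V}
    {U : Set (CE ι)} (hΦ : 𝓜.IsHol Φ U) {z : CE ι} (hz : z ∈ U) (hzK : Φ z ∉ K) : dbarV B Φ z = 0 := by
  have hev := hB.eventually_eq_zero hK hΦ hz hzK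
  ext l j
  have e : (fun w => B Φ w j) =ᶠ[𝓝 z] fun _ => 0 := hev.mono fun w hw => congrFun hw j
  simp only [R316.dbarV, cdbar, Matrix.zero_apply]
  rw [dzb_congr e, dzb_const]

end divergence

/-! ### 4. transplantation; functions as sections -/

section transplant

variable [FiniteDimensional ℝ V]

/-- gluing: a function on a chart domain `W` which is smooth over `Φ '' U` and vanishes off the compact `Φ '' C`. -/
theorem CMfd.contDiffOn_of_chart_formula {Φ Ψ : CE ι → V} {U W C : Set (CE ι)} (hΦ : 𝓜.IsHol Φ U)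
    (hΨ : 𝓜.IsHol Ψ W) (hC : IsCompact C) (hCU : C ⊆ U) {F : CE ι → ℂ}
    (h1 : ContDiffOn ℝ ∞ F (W ∩ Ψ ⁻¹' (Φ '' U))) (h0 : ∀ w ∈ W, Ψ w ∉ Φ '' C → F w = 0) :
    ContDiffOn ℝ ∞ F W := by
  have hKc : IsCompact (Φ '' C) := hC.image_of_continuousOn ((𝓜.isParam hΦ).continuousOn.mono hCU)
  intro w hw
  by_cases hwU : Ψ w ∈ Φ '' U
  · exact ((h1 w ⟨hw, hwU⟩).contDiffAt ((CMfd.isOpen_overlap hΨ hΦ).mem_nhds ⟨hw, hwU⟩)).contDiffWithinAt
  · have hwC : Ψ w ∉ Φ '' C := fun hmem => hwU (Set.image_mono hCU hmem)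
    have hopen : IsOpen (W ∩ Ψ ⁻¹' (Φ '' C)ᶜ) :=
      (𝓜.isParam hΨ).isOpen_inter_preimage hKc.isClosed.isOpen_compl
    have hev : F =ᶠ[𝓝 w] fun _ => 0 := by
      filter_upwards [hopen.mem_nhds ⟨hw, hwC⟩] with y hy
      exact h0 y hy.1 hy.2
    exact (contDiffAt_const.congr_of_eventuallyEq hev).contDiffWithinAt

/-- a compactly supported smooth vector function in one chart is the coefficient of a test vector field.
PLAN: `B Ψ w := (det J)^k • J (Z (τ' w))` if `Ψ w ∈ Φ '' U` (`τ' = invFunOn Φ U ∘ Ψ`, `J = jac` of the INVERSE transition…), `0` otherwise; the definition may use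
`Classical.epsilon`/`if` on `∃ W, 𝓜.IsHol Ψ W ∧ w ∈ W`; smoothness near the boundary of `Φ '' U` because `Φ '' tsupport Z` is compact, hence closed. Model: `CMfd.exists_smooth_of_chart`. -/
theorem exists_testKV_of_chart {Φ : CE ι → V} {U : Set (CE ι)} (hΦ : 𝓜.IsHol Φ U) {Z : CE ι → ι → ℂ}
    (hZ : ContDiff ℝ ∞ Z) (hc : HasCompactSupport Z) (hs : tsupport Z ⊆ U) (k : ℤ) :
    ∃ B : VFam V ι, IsTestKV 𝓜 k B ∧ (∀ z ∈ U, B Φ z = Z z) ∧ VFamSuppIn 𝓜 B (Φ '' tsupport Z) := by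
  classical
  have hp := 𝓜.isParam hΦ
  have hKc : IsCompact (Φ '' tsupport Z) := hc.isCompact.image_of_continuousOn (hp.continuousOn.mono hs)
  let B : VFam V ι := fun Ψ w => if Ψ w ∈ Φ '' U then
    (jac (Function.invFunOn Φ U ∘ Ψ) w).det ^ (-k) •
      ((jac (Function.invFunOn Φ U ∘ Ψ) w)⁻¹).mulVec (Z (Function.invFunOn Φ U (Ψ w))) else 0
  have hB0 : ∀ (Ψ : CE ι → V) (w : CE ι), Ψ w ∉ Φ '' tsupport Z → B Ψ w = 0 := by
    intro Ψ w hw
    by_cases h1 : Ψ w ∈ Φ '' U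
    · have : Function.invFunOn Φ U (Ψ w) ∉ tsupport Z := fun hmem =>
        hw ⟨_, hmem, Function.invFunOn_eq h1⟩
      simp only [B, if_pos h1, image_eq_zero_of_notMem_tsupport this, Matrix.mulVec_zero, smul_zero]
    · simp only [B, if_neg h1]
  have hsm : ∀ {Ψ : CE ι → V} {W : Set (CE ι)}, 𝓜.IsHol Ψ W → ∀ j, ContDiffOn ℝ ∞ (fun w => B Ψ w j) W := by
    intro Ψ W hΨ j
    refine CMfd.contDiffOn_of_chart_formula hΦ hΨ hc.isCompact hs ?_
      (fun w _ hw => by rw [hB0 Ψ w hw]; rfl)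
    have hO := CMfd.isOpen_overlap hΨ hΦ
    have hform : ∀ w ∈ W ∩ Ψ ⁻¹' (Φ '' U), B Ψ w j = (jac (Function.invFunOn Φ U ∘ Ψ) w).det ^ (-k) *
        ∑ m, (jac (Function.invFunOn Φ U ∘ Ψ) w)⁻¹ j m * Z ((Function.invFunOn Φ U ∘ Ψ) w) m := by
      intro w hw
      have h1 : Ψ w ∈ Φ '' U := hw.2
      simp only [B, if_pos h1, Pi.smul_apply, smul_eq_mul, Matrix.mulVec, dotProduct, Function.comp_apply]
    refine ContDiffOn.congr ?_ hform
    have hD : ContDiffOn ℝ ∞ (fun w => (jac (Function.invFunOn Φ U ∘ Ψ) w).det ^ (-k))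
        (W ∩ Ψ ⁻¹' (Φ '' U)) :=
      hol_contDiffOn_real hO fun w hw =>
        (CMfd.differentiableAt_det_zpow hΨ hΦ hw (-k)).differentiableWithinAt
    refine hD.mul (ContDiffOn.sum fun m _ => ?_)
    refine (contDiffOn_matInv (fun a c => contDiffOn_jac hO (𝓜.compat hΨ hΦ) a c)
      (fun w hw => CMfd.det_jac_trans_ne_zero hΨ hΦ hw) j m).mul ?_
    exact ((contDiff_pi.1 hZ m).comp_contDiffOn (CMfd.trans_contDiffOn hΨ hΦ))
  have hcompat : ∀ {Ψ₁ Ψ₂ : CE ι → V} {W₁ W₂ : Set (CE ι)}, 𝓜.IsHol Ψ₁ W₁ → 𝓜.IsHol Ψ₂ W₂ →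
      ∀ z ∈ W₁, Ψ₁ z ∈ Ψ₂ '' W₂ → B Ψ₂ (Function.invFunOn Ψ₂ W₂ (Ψ₁ z)) =
        (jac (Function.invFunOn Ψ₂ W₂ ∘ Ψ₁) z).det ^ k •
          (jac (Function.invFunOn Ψ₂ W₂ ∘ Ψ₁) z).mulVec (B Ψ₁ z) := by
    intro Ψ₁ Ψ₂ W₁ W₂ h₁ h₂ z hz hz2
    have hspec : Ψ₂ (Function.invFunOn Ψ₂ W₂ (Ψ₁ z)) = Ψ₁ z := Function.invFunOn_eq hz2
    by_cases h1 : Ψ₁ z ∈ Φ '' U
    · have h1' : Ψ₂ (Function.invFunOn Ψ₂ W₂ (Ψ₁ z)) ∈ Φ '' U := by rw [hspec]; exact h1
      have hJ := CMfd.jac_trans_comp h₁ h₂ hΦ hz hz2 h1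
      set Jτ := jac (Function.invFunOn Ψ₂ W₂ ∘ Ψ₁) z with hJτ
      set J₂ := jac (Function.invFunOn Φ U ∘ Ψ₂) ((Function.invFunOn Ψ₂ W₂ ∘ Ψ₁) z) with hJ₂
      have hτ0 : Jτ.det ≠ 0 := CMfd.det_jac_trans_ne_zero h₁ h₂ ⟨hz, hz2⟩
      have h20 : J₂.det ≠ 0 := CMfd.det_jac_trans_ne_zero h₂ hΦ
        ⟨CMfd.trans_mem h₁ h₂ ⟨hz, hz2⟩, h1'⟩
      simp only [B, if_pos h1, if_pos h1', hspec]
      rw [hJ]
      change J₂.det ^ (-k) • J₂⁻¹.mulVec _ = _
      rw [Matrix.det_mul, Matrix.mul_inv_rev, Matrix.mulVec_smul, smul_smul, Matrix.mulVec_mulVec,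
        ← Matrix.mul_assoc, Matrix.mul_nonsing_inv _ (isUnit_iff_ne_zero.2 hτ0), Matrix.one_mul,
        mul_zpow, mul_comm (J₂.det ^ (-k)), ← mul_assoc, ← zpow_add₀ hτ0, add_neg_cancel, zpow_zero,
        one_mul]
    · have h1' : Ψ₂ (Function.invFunOn Ψ₂ W₂ (Ψ₁ z)) ∉ Φ '' U := by rw [hspec]; exact h1
      simp only [B, if_neg h1, if_neg h1', Matrix.mulVec_zero, smul_zero]
  refine ⟨B, ⟨⟨hsm, hcompat⟩, Φ '' tsupport Z, hKc, ?_, fun Ψ W _ w _ hw => hB0 Ψ w hw⟩, ?_,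
    fun Ψ W _ w _ hw => hB0 Ψ w hw⟩
  · exact (Set.image_mono hs).trans hp.image_subset
  · intro z hz
    have h1 : Φ z ∈ Φ '' U := ⟨z, hz, rfl⟩
    simp only [B, if_pos h1, CMfd.jac_trans_self hΦ hz, hp.leftInv hz, Matrix.det_one, one_zpow,
      inv_one, Matrix.one_mulVec, one_smul]

/-- the same for sections; `f` only smooth on `U`, vanishing on `U \ C`. -/
theorem exists_kSec_of_chart {Φ : CE ι → V} {U C : Set (CE ι)} (hΦ : 𝓜.IsHol Φ U) (hC : IsCompact C)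
    (hCU : C ⊆ U) {f : CE ι → ℂ} (hf : ContDiffOn ℝ ∞ f U) (h0 : ∀ z ∈ U, z ∉ C → f z = 0) (k : ℤ) :
    ∃ s : SFam V ι, IsKSec 𝓜 k s ∧ (∀ z ∈ U, s Φ z = f z) ∧ SFamSuppIn 𝓜 s (Φ '' C) := by
  classical
  have hp := 𝓜.isParam hΦ
  let s : SFam V ι := fun Ψ w => if Ψ w ∈ Φ '' U then
    (jac (Function.invFunOn Φ U ∘ Ψ) w).det ^ (-k) * f (Function.invFunOn Φ U (Ψ w)) else 0
  have hs0 : ∀ (Ψ : CE ι → V) (w : CE ι), Ψ w ∉ Φ '' C → s Ψ w = 0 := by
    intro Ψ w hw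
    by_cases h1 : Ψ w ∈ Φ '' U
    · have : Function.invFunOn Φ U (Ψ w) ∉ C := fun hmem => hw ⟨_, hmem, Function.invFunOn_eq h1⟩
      simp only [s, if_pos h1, h0 _ (Function.invFunOn_mem h1) this, mul_zero]
    · simp only [s, if_neg h1]
  have hsm : ∀ {Ψ : CE ι → V} {W : Set (CE ι)}, 𝓜.IsHol Ψ W → ContDiffOn ℝ ∞ (s Ψ) W := by
    intro Ψ W hΨ
    refine CMfd.contDiffOn_of_chart_formula hΦ hΨ hC hCU ?_ (fun w _ hw => hs0 Ψ w hw)
    have hO := CMfd.isOpen_overlap hΨ hΦ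
    have hform : ∀ w ∈ W ∩ Ψ ⁻¹' (Φ '' U), s Ψ w = (jac (Function.invFunOn Φ U ∘ Ψ) w).det ^ (-k) *
        f ((Function.invFunOn Φ U ∘ Ψ) w) := by
      intro w hw
      have h1 : Ψ w ∈ Φ '' U := hw.2
      simp only [s, if_pos h1, Function.comp_apply]
    refine ContDiffOn.congr ?_ hform
    have hD : ContDiffOn ℝ ∞ (fun w => (jac (Function.invFunOn Φ U ∘ Ψ) w).det ^ (-k))
        (W ∩ Ψ ⁻¹' (Φ '' U)) :=
      hol_contDiffOn_real hO fun w hw =>
        (CMfd.differentiableAt_det_zpow hΨ hΦ hw (-k)).differentiableWithinAt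
    exact hD.mul (hf.comp (CMfd.trans_contDiffOn hΨ hΦ) fun w hw => CMfd.trans_mem hΨ hΦ hw)
  have hcompat : ∀ {Ψ₁ Ψ₂ : CE ι → V} {W₁ W₂ : Set (CE ι)}, 𝓜.IsHol Ψ₁ W₁ → 𝓜.IsHol Ψ₂ W₂ →
      ∀ z ∈ W₁, Ψ₁ z ∈ Ψ₂ '' W₂ → s Ψ₂ (Function.invFunOn Ψ₂ W₂ (Ψ₁ z)) =
        (jac (Function.invFunOn Ψ₂ W₂ ∘ Ψ₁) z).det ^ k * s Ψ₁ z := by
    intro Ψ₁ Ψ₂ W₁ W₂ h₁ h₂ z hz hz2
    have hspec : Ψ₂ (Function.invFunOn Ψ₂ W₂ (Ψ₁ z)) = Ψ₁ z := Function.invFunOn_eq hz2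
    by_cases h1 : Ψ₁ z ∈ Φ '' U
    · have h1' : Ψ₂ (Function.invFunOn Ψ₂ W₂ (Ψ₁ z)) ∈ Φ '' U := by rw [hspec]; exact h1
      have hJ := CMfd.jac_trans_comp h₁ h₂ hΦ hz hz2 h1
      set Jτ := jac (Function.invFunOn Ψ₂ W₂ ∘ Ψ₁) z with hJτ
      set J₂ := jac (Function.invFunOn Φ U ∘ Ψ₂) ((Function.invFunOn Ψ₂ W₂ ∘ Ψ₁) z) with hJ₂
      have hτ0 : Jτ.det ≠ 0 := CMfd.det_jac_trans_ne_zero h₁ h₂ ⟨hz, hz2⟩
      simp only [s, if_pos h1, if_pos h1', hspec]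
      rw [hJ]
      change J₂.det ^ (-k) * _ = _
      have e : Jτ.det ^ k * Jτ.det ^ (-k) = 1 := by rw [← zpow_add₀ hτ0, add_neg_cancel, zpow_zero]
      rw [Matrix.det_mul, mul_zpow]
      linear_combination (- J₂.det ^ (-k) * f (Function.invFunOn Φ U (Ψ₁ z))) * e
    · have h1' : Ψ₂ (Function.invFunOn Ψ₂ W₂ (Ψ₁ z)) ∉ Φ '' U := by rw [hspec]; exact h1
      simp only [s, if_neg h1, if_neg h1', mul_zero]
  refine ⟨s, ⟨hsm, hcompat⟩, ?_, fun Ψ W _ w _ hw => hs0 Ψ w hw⟩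
  intro z hz
  have h1 : Φ z ∈ Φ '' U := ⟨z, hz, rfl⟩
  simp only [s, if_pos h1, CMfd.jac_trans_self hΦ hz, hp.leftInv hz, Matrix.det_one, one_zpow, one_mul]

/-- functions are the sections of `K^0`. -/
theorem isKSec_zero_of_smoothC {f : V → ℂ} (hf : 𝓜.SmoothC f) : IsKSec 𝓜 0 (fun Φ z => f (Φ z)) := by
  refine ⟨fun {Φ U} hΦ => hf Φ U hΦ, fun hΦ hΨ z hz hzW => ?_⟩
  rw [zpow_zero, one_mul, Function.invFunOn_eq hzW]

theorem IsKSec.exists_fun (hs : IsKSec 𝓜 0 s) :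
    ∃ f : V → ℂ, 𝓜.SmoothC f ∧ ∀ (Φ : CE ι → V) (U : Set (CE ι)), 𝓜.IsHol Φ U → ∀ z ∈ U, s Φ z = f (Φ z) := by
  have key : ∀ (Φ : CE ι → V) (U : Set (CE ι)), 𝓜.IsHol Φ U → ∀ z ∈ U,
      s Φ z = s (𝓜.pΦ (Φ z)) (𝓜.co (Φ z)) := by
    intro Φ U hΦ z hz
    have hx : Φ z ∈ 𝓜.carrier := CMfd.mem_carrier hΦ hz
    have h1 := hs.compat hΦ (𝓜.isHol_pΦ hx) z hz (𝓜.mem_image_pΦ hx)
    rw [zpow_zero, one_mul] at h1
    exact h1.symm
  exact ⟨fun x => s (𝓜.pΦ x) (𝓜.co x), fun Φ U hΦ => (hs.smooth hΦ).congr fun z hz =>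
    (key Φ U hΦ z hz).symm, key⟩

/-- canonical sections are the holomorphic sections of `K^{-(-1)}`. -/
theorem isCanSection_iff : IsCanSection 𝓜 s ↔ IsKHol 𝓜 (-1) s := by
  constructor
  · intro hS
    refine ⟨⟨fun hΦ => hol_contDiffOn_real (CMfd.isOpen_dom hΦ) (hS.hol hΦ), fun hΦ hΨ z hz hzW => ?_⟩,
      fun hΦ => hS.hol hΦ⟩
    have hD := CMfd.det_jac_trans_ne_zero hΦ hΨ ⟨hz, hzW⟩
    rw [hS.compat hΦ hΨ z hz hzW, zpow_neg_one, ← mul_assoc, inv_mul_cancel₀ hD, one_mul]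
  · intro hS
    refine ⟨fun hΦ => hS.hol hΦ, fun hΦ hΨ z hz hzW => ?_⟩
    have hD := CMfd.det_jac_trans_ne_zero hΦ hΨ ⟨hz, hzW⟩
    rw [hS.compat hΦ hΨ z hz hzW, zpow_neg_one, ← mul_assoc, mul_inv_cancel₀ hD, one_mul]

end transplant

end Claimed.Agent.R316
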