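import Claimed.Agent.R316.Base.L2M.Alg

/-!
# Row 316, `BP-G11`: algebra and invariance of the families `IsKSec`, `IsKForm`, `IsKVec`

Leaves: `G11-INV-A` (section 1: closure properties), `G11-INV-B` (section 2: `∂̄`, raising, lowering, tensor law of `dbarV`, invariant scalars),
`G11-INV-C` (section 3: Piola identity, `kdiv` of a `K^{-k}`-valued vector field is a section, divergence of vector fields),
`G11-INV-D` (section 4: transplantation from a chart, functions as sections).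

NOTATION in the plans: `τ = invFunOn Ψ W ∘ Φ` (holomorphic near `z`, `CM/Trans.lean`: `trans_differentiableAt`, `eventually_eq_comp_trans`,
`isUnit_jac_trans`, `det_jac_trans_ne_zero`, `jac_trans_inv`, …), `J = jac τ z`.
GENERAL METHOD for a law involving derivatives: by `compat` (which holds at ALL points near `z`: `CMfd.isOpen_overlap`) the identity
`B_Φ = (det J)^{-k} J⁻¹ (B_Ψ ∘ τ)` holds on a neighbourhood of `z`; apply `dzb l` / `dz j`: `det J`, `J⁻¹` are holomorphic in `z` (`CW/HolSmooth.lean`,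
`CW/MatFun.lean`), so `dzb l` passes through them, and `dzb l (f ∘ τ) = ∑_m conj (J m l) (dzb m f) ∘ τ`, `dz l (f ∘ τ) = ∑_m J m l (dz m f) ∘ τ` (`CW/Basic.lean`, chain rule).
-/

set_option autoImplicit false
set_option linter.unusedSectionVars false
open scoped ContDiff ComplexOrder ComplexConjugate Topology
open MeasureTheory

namespace Claimed.Agent.R316

variable {V : Type} [NormedAddCommGroup V] [NormedSpace ℝ V]
variable {ι : Type} [Fintype ι] [DecidableEq ι]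
variable {𝓜 : CMfd V ι} {g h A : HFam V ι} {φ χ : V → ℝ} {k : ℤ}
variable {s s' : SFam V ι} {b β B B' : VFam V ι}

/-! ### 1. closure properties -/

section closure

theorem isKSec_zero : IsKSec 𝓜 k (0 : SFam V ι) := by
  refine ⟨fun _ => contDiffOn_const, fun _ _ z _ _ => ?_⟩
  simp

theorem IsKSec.add (hs : IsKSec 𝓜 k s) (hs' : IsKSec 𝓜 k s') : IsKSec 𝓜 k (s + s') := by
  refine ⟨fun hΦ => (hs.smooth hΦ).add (hs'.smooth hΦ), fun hΦ hΨ z hz hzW => ?_⟩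
  simp only [Pi.add_apply, hs.compat hΦ hΨ z hz hzW, hs'.compat hΦ hΨ z hz hzW, mul_add]

theorem IsKSec.sub (hs : IsKSec 𝓜 k s) (hs' : IsKSec 𝓜 k s') : IsKSec 𝓜 k (s - s') := by
  refine ⟨fun hΦ => (hs.smooth hΦ).sub (hs'.smooth hΦ), fun hΦ hΨ z hz hzW => ?_⟩
  simp only [Pi.sub_apply, hs.compat hΦ hΨ z hz hzW, hs'.compat hΦ hΨ z hz hzW, mul_sub]

theorem IsKSec.neg (hs : IsKSec 𝓜 k s) : IsKSec 𝓜 k (-s) := by
  refine ⟨fun hΦ => (hs.smooth hΦ).neg, fun hΦ hΨ z hz hzW => ?_⟩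
  simp only [Pi.neg_apply, hs.compat hΦ hΨ z hz hzW, mul_neg]

theorem IsKSec.smul (c : ℂ) (hs : IsKSec 𝓜 k s) : IsKSec 𝓜 k (c • s) := by
  refine ⟨fun hΦ => contDiffOn_const.mul (hs.smooth hΦ), fun hΦ hΨ z hz hzW => ?_⟩
  simp only [Pi.smul_apply, smul_eq_mul, hs.compat hΦ hΨ z hz hzW]
  ring

theorem IsKSec.fmul (hχ : 𝓜.Smooth χ) (hs : IsKSec 𝓜 k s) : IsKSec 𝓜 k (fmulS χ s) := by
  refine ⟨fun {Φ U} hΦ => (contDiffOn_ofReal (hχ Φ U hΦ)).mul (hs.smooth hΦ), fun hΦ hΨ z hz hzW => ?_⟩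
  simp only [fmulS, hs.compat hΦ hΨ z hz hzW, Function.invFunOn_eq hzW]
  ring

theorem isKHol_zero : IsKHol 𝓜 k (0 : SFam V ι) := by
  exact ⟨isKSec_zero, fun _ => differentiableOn_const _⟩

theorem IsKHol.add (hs : IsKHol 𝓜 k s) (hs' : IsKHol 𝓜 k s') : IsKHol 𝓜 k (s + s') := by
  exact ⟨hs.toIsKSec.add hs'.toIsKSec, fun hΦ => (hs.hol hΦ).add (hs'.hol hΦ)⟩

theorem IsKHol.smul (c : ℂ) (hs : IsKHol 𝓜 k s) : IsKHol 𝓜 k (c • s) := by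
  exact ⟨hs.toIsKSec.smul c, fun hΦ => (hs.hol hΦ).const_smul c⟩

/-- a smooth section with `∂̄ s = 0` is holomorphic (`CW/HolSmooth.lean`). -/
theorem IsKSec.isKHol (hs : IsKSec 𝓜 k s)
    (h0 : ∀ (Φ : CE ι → V) (U : Set (CE ι)), 𝓜.IsHol Φ U → ∀ z ∈ U, ∀ j, dzb j (s Φ) z = 0) : IsKHol 𝓜 k s := by
  exact ⟨hs, fun {Φ U} hΦ => differentiableOn_complex_of_dzb (CMfd.isOpen_dom hΦ)
    ((hs.smooth hΦ).differentiableOn (by simp)) (h0 Φ U hΦ)⟩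

theorem isKVec_zero : IsKVec 𝓜 k (0 : VFam V ι) := by
  refine ⟨fun _ _ => contDiffOn_const, fun _ _ z _ _ => ?_⟩
  simp

theorem IsKVec.add (hB : IsKVec 𝓜 k B) (hB' : IsKVec 𝓜 k B') : IsKVec 𝓜 k (B + B') := by
  refine ⟨fun hΦ j => (hB.smooth hΦ j).add (hB'.smooth hΦ j), fun hΦ hΨ z hz hzW => ?_⟩
  simp only [Pi.add_apply, hB.compat hΦ hΨ z hz hzW, hB'.compat hΦ hΨ z hz hzW, Matrix.mulVec_add,
    smul_add]

theorem IsKVec.smul_real (t : ℝ) (hB : IsKVec 𝓜 k B) : IsKVec 𝓜 k (t • B) := by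
  refine ⟨fun hΦ j => (hB.smooth hΦ j).const_smul t, fun hΦ hΨ z hz hzW => ?_⟩
  simp only [Pi.smul_apply, hB.compat hΦ hΨ z hz hzW, Matrix.mulVec_smul]
  rw [smul_comm]

theorem IsKVec.fmul (hχ : 𝓜.Smooth χ) (hB : IsKVec 𝓜 k B) : IsKVec 𝓜 k (fmulV χ B) := by
  refine ⟨fun {Φ U} hΦ j => (contDiffOn_ofReal (hχ Φ U hΦ)).mul (hB.smooth hΦ j),
    fun hΦ hΨ z hz hzW => ?_⟩
  simp only [fmulV, hB.compat hΦ hΨ z hz hzW, Function.invFunOn_eq hzW, Matrix.mulVec_smul]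
  rw [smul_comm]

theorem isTestKV_zero : IsTestKV 𝓜 k (0 : VFam V ι) := by
  exact ⟨isKVec_zero, ∅, isCompact_empty, Set.empty_subset _, fun _ _ _ _ _ _ => rfl⟩

theorem IsTestKV.add (hB : IsTestKV 𝓜 k B) (hB' : IsTestKV 𝓜 k B') : IsTestKV 𝓜 k (B + B') := by
  obtain ⟨K, hK, hKM, h0⟩ := hB.2
  obtain ⟨K', hK', hKM', h0'⟩ := hB'.2
  refine ⟨hB.1.add hB'.1, K ∪ K', hK.union hK', Set.union_subset hKM hKM', fun Φ U hΦ z hz hzK => ?_⟩
  simp only [Set.mem_union, not_or] at hzK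
  simp only [Pi.add_apply, h0 Φ U hΦ z hz hzK.1, h0' Φ U hΦ z hz hzK.2, add_zero]

theorem IsTestKV.smul_real (t : ℝ) (hB : IsTestKV 𝓜 k B) : IsTestKV 𝓜 k (t • B) := by
  obtain ⟨K, hK, hKM, h0⟩ := hB.2
  refine ⟨hB.1.smul_real t, K, hK, hKM, fun Φ U hΦ z hz hzK => ?_⟩
  simp only [Pi.smul_apply, h0 Φ U hΦ z hz hzK, smul_zero]

/-- cutting off an arbitrary smooth field. -/
theorem IsKVec.isTestKV_fmul (hχ : 𝓜.Smooth χ) (hc : 𝓜.CSupp χ) (hB : IsKVec 𝓜 k B) :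
    IsTestKV 𝓜 k (fmulV χ B) := by
  obtain ⟨K, hK, hKM, h0⟩ := hc
  refine ⟨hB.fmul hχ, K, hK, hKM, fun Φ U hΦ z hz hzK => ?_⟩
  simp only [fmulV, h0 _ (CMfd.mem_carrier hΦ hz) hzK, Complex.ofReal_zero, zero_smul]

variable (𝓜 k) in
/-- the real vector space of test vector fields. -/
def testKV : Submodule ℝ (VFam V ι) where
  carrier := {B | IsTestKV 𝓜 k B}
  add_mem' := fun ha hb => IsTestKV.add ha hb
  zero_mem' := isTestKV_zero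
  smul_mem' := fun t _ hB => IsTestKV.smul_real t hB

theorem mem_testKV : B ∈ testKV 𝓜 k ↔ IsTestKV 𝓜 k B := Iff.rfl

end closure

/-! ### 2. tensor laws and invariant scalars -/

section tensor

/-- `(det J)^k` is holomorphic at the points of the overlap. -/
theorem CMfd.differentiableAt_det_zpow {Φ Ψ : CE ι → V} {U W : Set (CE ι)} (hΦ : 𝓜.IsHol Φ U)
    (hΨ : 𝓜.IsHol Ψ W) {z : CE ι} (hz : z ∈ U ∩ Φ ⁻¹' (Ψ '' W)) (k : ℤ) :
    DifferentiableAt ℂ (fun w => (jac (Function.invFunOn Ψ W ∘ Φ) w).det ^ k) z := by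
  have h1 : DifferentiableAt ℂ (fun w => (jac (Function.invFunOn Ψ W ∘ Φ) w).det) z :=
    (differentiableOn_det_jac (CMfd.isOpen_overlap hΦ hΨ) (𝓜.compat hΦ hΨ) z hz).differentiableAt
      ((CMfd.isOpen_overlap hΦ hΨ).mem_nhds hz)
  exact h1.zpow (Or.inl (CMfd.det_jac_trans_ne_zero hΦ hΨ hz))

/-- the entries of `J` are holomorphic at the points of the overlap. -/
theorem CMfd.differentiableAt_jac_trans {Φ Ψ : CE ι → V} {U W : Set (CE ι)} (hΦ : 𝓜.IsHol Φ U)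
    (hΨ : 𝓜.IsHol Ψ W) {z : CE ι} (hz : z ∈ U ∩ Φ ⁻¹' (Ψ '' W)) (a b : ι) :
    DifferentiableAt ℂ (fun w => jac (Function.invFunOn Ψ W ∘ Φ) w a b) z :=
  (differentiableOn_jac (CMfd.isOpen_overlap hΦ hΨ) (𝓜.compat hΦ hΨ) a b z hz).differentiableAt
    ((CMfd.isOpen_overlap hΦ hΨ).mem_nhds hz)

theorem IsKSec.differentiableAt (hs : IsKSec 𝓜 k s) {Φ : CE ι → V} {U : Set (CE ι)} (hΦ : 𝓜.IsHol Φ U)
    {z : CE ι} (hz : z ∈ U) : DifferentiableAt ℝ (s Φ) z :=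
  ((hs.smooth hΦ z hz).contDiffAt ((CMfd.isOpen_dom hΦ).mem_nhds hz)).differentiableAt (by simp)

theorem IsKVec.differentiableAt (hB : IsKVec 𝓜 k B) {Φ : CE ι → V} {U : Set (CE ι)} (hΦ : 𝓜.IsHol Φ U)
    {z : CE ι} (hz : z ∈ U) (j : ι) : DifferentiableAt ℝ (fun w => B Φ w j) z :=
  ((hB.smooth hΦ j z hz).contDiffAt ((CMfd.isOpen_dom hΦ).mem_nhds hz)).differentiableAt (by simp)

theorem IsKForm.differentiableAt (hb : IsKForm 𝓜 k b) {Φ : CE ι → V} {U : Set (CE ι)} (hΦ : 𝓜.IsHol Φ U)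
    {z : CE ι} (hz : z ∈ U) (j : ι) : DifferentiableAt ℝ (fun w => b Φ w j) z :=
  ((hb.smooth hΦ j z hz).contDiffAt ((CMfd.isOpen_dom hΦ).mem_nhds hz)).differentiableAt (by simp)

/-- `∂̄` of a section is a form. -/
theorem IsKSec.dbarS (hs : IsKSec 𝓜 k s) : IsKForm 𝓜 k (dbarS s) := by
  refine ⟨fun hΦ j => contDiffOn_dzb (CMfd.isOpen_dom hΦ) (hs.smooth hΦ), ?_⟩
  intro Φ Ψ U W hΦ hΨ z hz hzW
  have hzo : z ∈ U ∩ Φ ⁻¹' (Ψ '' W) := ⟨hz, hzW⟩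
  set τ := Function.invFunOn Ψ W ∘ Φ with hτ
  have hev : (fun w => s Ψ (τ w)) =ᶠ[𝓝 z] fun w => (jac τ w).det ^ k * s Φ w := by
    filter_upwards [(CMfd.isOpen_overlap hΦ hΨ).mem_nhds hzo] with w hw
    exact hs.compat hΦ hΨ w hw.1 hw.2
  have hD := CMfd.differentiableAt_det_zpow hΦ hΨ hzo k
  ext j
  have h1 := dzb_congr (j := j) hev
  rw [dzb_comp_hol τ (s Ψ) (CMfd.trans_differentiableAt hΦ hΨ hzo)
    (hs.differentiableAt hΨ (CMfd.trans_mem hΦ hΨ hzo)),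
    dzb_mul (hD.restrictScalars ℝ) (hs.differentiableAt hΦ hz), dzb_of_differentiableAt hD,
    zero_mul, zero_add] at h1
  simp only [Pi.smul_apply, smul_eq_mul, R316.dbarS, Matrix.mulVec, dotProduct,
    Matrix.conjTranspose_apply, Complex.star_def]
  rw [← h1]
  exact Finset.sum_congr rfl fun m _ => mul_comm _ _

theorem IsKForm.raise (hg : IsMetric 𝓜 g) (hb : IsKForm 𝓜 k b) : IsKVec 𝓜 k (raise g b) := by
  refine ⟨fun {Φ U} hΦ j => ?_, ?_⟩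
  · simp only [R316.raise, Matrix.mulVec, dotProduct]
    exact ContDiffOn.sum fun m _ => (contDiffOn_matInv_of_posDef (fun a c => hg.smooth hΦ a c)
      (fun w hw => hg.posDef hΦ w hw) j m).mul (hb.smooth hΦ m)
  · intro Φ Ψ U W hΦ hΨ z hz hzW
    have hzo : z ∈ U ∩ Φ ⁻¹' (Ψ '' W) := ⟨hz, hzW⟩
    set J := jac (Function.invFunOn Ψ W ∘ Φ) z with hJ
    have hJu : IsUnit J.det := (Matrix.isUnit_iff_isUnit_det _).1 (CMfd.isUnit_jac_trans hΦ hΨ hzo)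
    have hJHu : IsUnit J.conjTranspose.det := by
      rw [Matrix.det_conjTranspose]; exact hJu.star
    have hG := hg.compat hΦ hΨ z hz hzW
    have hb' := hb.compat hΦ hΨ z hz hzW
    simp only [R316.raise]
    rw [← Matrix.mulVec_smul, ← Matrix.mulVec_smul, hb', hG, Matrix.mulVec_mulVec, Matrix.mulVec_mulVec,
      Matrix.mul_inv_rev, Matrix.mul_inv_rev]
    congr 1
    rw [← hJ]
    calc (g Ψ (Function.invFunOn Ψ W (Φ z)))⁻¹
        = (J * J⁻¹) * (g Ψ (Function.invFunOn Ψ W (Φ z)))⁻¹ * (J.conjTranspose⁻¹ * J.conjTranspose) := by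
          rw [Matrix.mul_nonsing_inv _ hJu, Matrix.nonsing_inv_mul _ hJHu, Matrix.one_mul, Matrix.mul_one]
      _ = _ := by simp only [Matrix.mul_assoc]

theorem IsKVec.lower (hg : IsMetric 𝓜 g) (hB : IsKVec 𝓜 k B) : IsKForm 𝓜 k (lower g B) := by
  refine ⟨fun {Φ U} hΦ j => ?_, ?_⟩
  · simp only [R316.lower, Matrix.mulVec, dotProduct]
    exact ContDiffOn.sum fun m _ => (hg.smooth hΦ j m).mul (hB.smooth hΦ m)
  · intro Φ Ψ U W hΦ hΨ z hz hzW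
    simp only [R316.lower]
    rw [hB.compat hΦ hΨ z hz hzW, hg.compat hΦ hΨ z hz hzW, Matrix.mulVec_smul, Matrix.mulVec_smul,
      Matrix.mulVec_mulVec, Matrix.mulVec_mulVec, Matrix.mul_assoc]

theorem lower_raise (hg : IsMetric 𝓜 g) {Φ : CE ι → V} {U : Set (CE ι)} (hΦ : 𝓜.IsHol Φ U) {z : CE ι}
    (hz : z ∈ U) (b : VFam V ι) : lower g (raise g b) Φ z = b Φ z := by
  simp only [R316.lower, R316.raise]
  rw [Matrix.mulVec_mulVec, mul_inv_cancel_of_posDef (hg.posDef hΦ z hz), Matrix.one_mulVec]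

/-- the tensor law of `N = ∂̄B`: `N_Φ = (det J)^{-k} Jᴴ (N_Ψ ∘ τ) J⁻ᵀ`, written without inverses. -/
theorem IsKVec.dbarV_compat (hB : IsKVec 𝓜 k B) {Φ Ψ : CE ι → V} {U W : Set (CE ι)} (hΦ : 𝓜.IsHol Φ U)
    (hΨ : 𝓜.IsHol Ψ W) {z : CE ι} (hz : z ∈ U) (hzW : Φ z ∈ Ψ '' W) :
    (jac (Function.invFunOn Ψ W ∘ Φ) z).det ^ k • (dbarV B Φ z * (jac (Function.invFunOn Ψ W ∘ Φ) z).transpose) =
      (jac (Function.invFunOn Ψ W ∘ Φ) z).conjTranspose * dbarV B Ψ (Function.invFunOn Ψ W (Φ z)) := by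
  have hzo : z ∈ U ∩ Φ ⁻¹' (Ψ '' W) := ⟨hz, hzW⟩
  set τ := Function.invFunOn Ψ W ∘ Φ with hτ
  have hD := CMfd.differentiableAt_det_zpow hΦ hΨ hzo k
  ext l j
  have hev : (fun w => B Ψ (τ w) j) =ᶠ[𝓝 z] fun w => (jac τ w).det ^ k * ∑ m, jac τ w j m * B Φ w m := by
    filter_upwards [(CMfd.isOpen_overlap hΦ hΨ).mem_nhds hzo] with w hw
    have := congrFun (hB.compat hΦ hΨ w hw.1 hw.2) j
    simp only [Pi.smul_apply, smul_eq_mul, Matrix.mulVec, dotProduct] at this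
    exact this
  have hJd : ∀ m, DifferentiableAt ℂ (fun w => jac τ w j m) z := fun m =>
    CMfd.differentiableAt_jac_trans hΦ hΨ hzo j m
  have hprod : ∀ m ∈ Finset.univ, DifferentiableAt ℝ (fun w => jac τ w j m * B Φ w m) z := fun m _ =>
    ((hJd m).restrictScalars ℝ).mul (hB.differentiableAt hΦ hz m)
  have h1 := dzb_congr (j := l) hev
  rw [dzb_comp_hol τ (fun y => B Ψ y j) (CMfd.trans_differentiableAt hΦ hΨ hzo)
    (hB.differentiableAt hΨ (CMfd.trans_mem hΦ hΨ hzo) j),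
    dzb_mul (hD.restrictScalars ℝ) (DifferentiableAt.fun_sum hprod), dzb_of_differentiableAt hD,
    zero_mul, zero_add, dzb_sum Finset.univ _ hprod] at h1
  simp only [Matrix.smul_apply, smul_eq_mul, Matrix.mul_apply, Matrix.transpose_apply,
    Matrix.conjTranspose_apply, Complex.star_def, R316.dbarV, cdbar]
  have h2 : ∀ m, dzb l (fun w => jac τ w j m * B Φ w m) z = dzb l (fun w => B Φ w m) z * jac τ z j m := by
    intro m
    rw [dzb_mul ((hJd m).restrictScalars ℝ) (hB.differentiableAt hΦ hz m),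
      dzb_of_differentiableAt (hJd m), zero_mul, zero_add, mul_comm]
  simp only [h2] at h1
  rw [← h1]
  exact Finset.sum_congr rfl fun m _ => mul_comm _ _

theorem kw_pos (hh : IsMetric 𝓜 h) {Φ : CE ι → V} {U : Set (CE ι)} (hΦ : 𝓜.IsHol Φ U) {z : CE ι} (hz : z ∈ U)
    (k : ℤ) : 0 < kw h k Φ z := by
  exact zpow_pos (det_re_pos_of_posDef (hh.posDef hΦ z hz)) k

/-- `(det h_Φ)^k = |det J|^{2k} (det h_Ψ)^k`. -/
theorem kw_compat (hh : IsMetric 𝓜 h) {Φ Ψ : CE ι → V} {U W : Set (CE ι)} (hΦ : 𝓜.IsHol Φ U)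
    (hΨ : 𝓜.IsHol Ψ W) {z : CE ι} (hz : z ∈ U) (hzW : Φ z ∈ Ψ '' W) (k : ℤ) :
    kw h k Φ z = ‖(jac (Function.invFunOn Ψ W ∘ Φ) z).det ^ k‖ ^ 2 * kw h k Ψ (Function.invFunOn Ψ W (Φ z)) := by
  simp only [kw]
  rw [hh.compat hΦ hΨ z hz hzW, det_re_conjTranspose_mul_mul, mul_zpow, norm_zpow, ← zpow_natCast,
    ← zpow_natCast, ← zpow_mul, ← zpow_mul, mul_comm k]

theorem contDiffOn_kw (hh : IsMetric 𝓜 h) {Φ : CE ι → V} {U : Set (CE ι)} (hΦ : 𝓜.IsHol Φ U) (k : ℤ) :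
    ContDiffOn ℝ ∞ (kw h k Φ) U := by
  have hd : ContDiffOn ℝ ∞ (fun w => (h Φ w).det.re) U := contDiffOn_det_re fun a c => hh.smooth hΦ a c
  have h0 : ∀ w ∈ U, (h Φ w).det.re ≠ 0 := fun w hw => det_re_ne_zero_of_posDef (hh.posDef hΦ w hw)
  unfold kw
  cases k with
  | ofNat n => simpa only [Int.ofNat_eq_natCast, zpow_natCast] using hd.pow n
  | negSucc n =>
    simp only [zpow_negSucc]
    exact (hd.pow (n + 1)).inv fun w hw => pow_ne_zero _ (h0 w hw)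

theorem contDiffOn_wt (hh : IsMetric 𝓜 h) (hφ : 𝓜.Smooth φ) {Φ : CE ι → V} {U : Set (CE ι)}
    (hΦ : 𝓜.IsHol Φ U) (k : ℤ) : ContDiffOn ℝ ∞ (wt h φ k Φ) U := by
  unfold wt
  exact (hφ Φ U hΦ).sub (contDiffOn_const.mul (contDiffOn_logDet_of_posDef (fun a c => hh.smooth hΦ a c)
    fun w hw => hh.posDef hΦ w hw))

/-- `e^{-η} = (det h)^k e^{-φ} det h`. -/
theorem exp_neg_wt (hh : IsMetric 𝓜 h) {Φ : CE ι → V} {U : Set (CE ι)} (hΦ : 𝓜.IsHol Φ U) {z : CE ι}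
    (hz : z ∈ U) (φ : V → ℝ) (k : ℤ) :
    Real.exp (-(wt h φ k Φ z)) = kw h k Φ z * Real.exp (-φ (Φ z)) * (h Φ z).det.re := by
  have hd : 0 < (h Φ z).det.re := det_re_pos_of_posDef (hh.posDef hΦ z hz)
  have h1 : Real.exp (((k : ℝ) + 1) * Real.log (h Φ z).det.re) = (h Φ z).det.re ^ (k + 1) := by
    rw [mul_comm, ← Real.rpow_def_of_pos hd, ← Real.rpow_intCast]
    push_cast
    rfl
  simp only [wt, kw]
  rw [neg_sub, sub_eq_add_neg, Real.exp_add, h1, zpow_add_one₀ hd.ne']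
  ring

/-- `levi η = Θ`. -/
theorem levi_wt (hh : IsMetric 𝓜 h) (hφ : 𝓜.Smooth φ) {Φ : CE ι → V} {U : Set (CE ι)} (hΦ : 𝓜.IsHol Φ U)
    {z : CE ι} (hz : z ∈ U) (k : ℤ) : levi (wt h φ k Φ) z = curvF h φ k Φ z := by
  have h1 : ContDiffAt ℝ 2 (φ ∘ Φ) z := hφ.contDiffAt_comp_two hΦ hz
  have h2 : ContDiffAt ℝ 2 (fun w => Real.log (h Φ w).det.re) z :=
    contDiffAt_logDet_of_posDef (fun a c => hh.toIsHForm.contDiffAt_two hΦ hz a c) (hh.posDef hΦ z hz)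
  have h3 : levi (wt h φ k Φ) z = levi (φ ∘ Φ) z
      - ((((k : ℝ) + 1 : ℝ)) : ℂ) • levi (fun w => Real.log (h Φ w).det.re) z := by
    rw [← levi_const_mul _ h2]
    exact levi_sub h1 (contDiffAt_const.mul h2)
  rw [h3]
  simp only [curvF, ricF, ddc, smul_neg]
  abel

theorem isHForm_curvF (hh : IsMetric 𝓜 h) (hφ : 𝓜.Smooth φ) (k : ℤ) : IsHForm 𝓜 (curvF h φ k) := by
  exact ((isHForm_ricF hh).smul_real ((k : ℝ) + 1)).add (isHForm_ddc hφ)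

section matrixlaws
open Matrix

theorem l2m_mul_conj_re (c a b : ℂ) : ((c * a) * conj (c * b)).re = ‖c‖ ^ 2 * (a * conj b).re := by
  have : (c * a) * conj (c * b) = ((‖c‖ ^ 2 : ℝ) : ℂ) * (a * conj b) := by
    rw [← Complex.normSq_eq_norm_sq, Complex.normSq_eq_conj_mul_self, map_mul]
    ring
  rw [this, Complex.re_ofReal_mul]

theorem l2m_qfB_conj (A J : Matrix ι ι ℂ) (c : ℂ) (a b : ι → ℂ) :
    qfB A (c • J *ᵥ a) (c • J *ᵥ b) = ‖c‖ ^ 2 * qfB (Jᴴ * A * J) a b := by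
  have : star (c • J *ᵥ b) ⬝ᵥ A *ᵥ (c • J *ᵥ a) = ((‖c‖ ^ 2 : ℝ) : ℂ) * (star b ⬝ᵥ (Jᴴ * A * J) *ᵥ a) := by
    rw [← Complex.normSq_eq_norm_sq, Complex.normSq_eq_conj_mul_self, star_smul, Matrix.mulVec_smul,
      smul_dotProduct, dotProduct_smul, Matrix.star_mulVec, ← Matrix.mulVec_mulVec,
      ← Matrix.mulVec_mulVec, Matrix.dotProduct_mulVec (star b) Jᴴ]
    simp only [smul_eq_mul, Complex.star_def]
    ring
  simp only [qfB, this, Complex.re_ofReal_mul]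

theorem l2m_fvIP_conj (J : Matrix ι ι ℂ) (c : ℂ) (β β' a : ι → ℂ) (h : c • β = Jᴴ *ᵥ β') :
    fvIP β' (c • J *ᵥ a) = ‖c‖ ^ 2 * fvIP β a := by
  have : star (c • J *ᵥ a) ⬝ᵥ β' = ((‖c‖ ^ 2 : ℝ) : ℂ) * (star a ⬝ᵥ β) := by
    rw [← Complex.normSq_eq_norm_sq, Complex.normSq_eq_conj_mul_self, star_smul, smul_dotProduct,
      Matrix.star_mulVec, ← Matrix.dotProduct_mulVec, ← h, dotProduct_smul]
    simp only [smul_eq_mul, Complex.star_def]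
    ring
  simp only [fvIP_eq, this, Complex.re_ofReal_mul]

theorem l2m_nbIP_conj {G' J N N' M M' : Matrix ι ι ℂ} {c : ℂ} (hJ : IsUnit J.det)
    (hN : c • (N * Jᵀ) = Jᴴ * N') (hM : c • (M * Jᵀ) = Jᴴ * M') :
    nbIP G' N' M' = ‖c‖ ^ 2 * nbIP (Jᴴ * G' * J) N M := by
  have hJH : IsUnit Jᴴ.det := by rw [Matrix.det_conjTranspose]; exact hJ.star
  have e1 : ((‖c‖ ^ 2 : ℝ) : ℂ) • (N * (Jᴴ * G' * J)ᵀ * Mᴴ) = Jᴴ * (N' * G'ᵀ * M'ᴴ) * J := by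
    have h1 : (Jᴴ * M')ᴴ = M'ᴴ * J := by rw [Matrix.conjTranspose_mul, Matrix.conjTranspose_conjTranspose]
    have h2 : (c • (M * Jᵀ))ᴴ = conj c • ((Jᴴ)ᵀ * Mᴴ) := by
      rw [Matrix.conjTranspose_smul, Matrix.conjTranspose_mul, Complex.star_def]
      rfl
    calc ((‖c‖ ^ 2 : ℝ) : ℂ) • (N * (Jᴴ * G' * J)ᵀ * Mᴴ)
        = (c • (N * Jᵀ)) * G'ᵀ * (conj c • ((Jᴴ)ᵀ * Mᴴ)) := by
          rw [← Complex.normSq_eq_norm_sq, Complex.normSq_eq_conj_mul_self, Matrix.transpose_mul,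
            Matrix.transpose_mul]
          simp only [Matrix.smul_mul, Matrix.mul_smul, smul_smul, Matrix.mul_assoc]
      _ = Jᴴ * N' * G'ᵀ * (M'ᴴ * J) := by rw [← h2, hM, hN, h1]
      _ = _ := by simp only [Matrix.mul_assoc]
  have e2 : ((‖c‖ ^ 2 : ℝ) : ℂ) * ((Jᴴ * G' * J)⁻¹ * N * (Jᴴ * G' * J)ᵀ * Mᴴ).trace
      = (G'⁻¹ * N' * G'ᵀ * M'ᴴ).trace := by
    rw [← smul_eq_mul, ← Matrix.trace_smul]
    have : ((‖c‖ ^ 2 : ℝ) : ℂ) • ((Jᴴ * G' * J)⁻¹ * N * (Jᴴ * G' * J)ᵀ * Mᴴ)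
        = (Jᴴ * G' * J)⁻¹ * (((‖c‖ ^ 2 : ℝ) : ℂ) • (N * (Jᴴ * G' * J)ᵀ * Mᴴ)) := by
      simp only [Matrix.mul_smul, Matrix.mul_assoc]
    rw [this, e1, Matrix.mul_inv_rev, Matrix.mul_inv_rev]
    calc (J⁻¹ * (G'⁻¹ * Jᴴ⁻¹) * (Jᴴ * (N' * G'ᵀ * M'ᴴ) * J)).trace
        = (J⁻¹ * (G'⁻¹ * (Jᴴ⁻¹ * Jᴴ) * (N' * G'ᵀ * M'ᴴ) * J)).trace := by
          simp only [Matrix.mul_assoc]
      _ = (G'⁻¹ * (N' * G'ᵀ * M'ᴴ) * (J * J⁻¹)).trace := by
          rw [Matrix.nonsing_inv_mul _ hJH, Matrix.mul_one, Matrix.trace_mul_comm, Matrix.mul_assoc]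
      _ = _ := by rw [Matrix.mul_nonsing_inv _ hJ, Matrix.mul_one]; simp only [Matrix.mul_assoc]
  simp only [nbIP, ← e2, Complex.re_ofReal_mul]

theorem l2m_swIP_conj {J N N' M M' : Matrix ι ι ℂ} {c : ℂ} (hJ : IsUnit J.det)
    (hN : c • (N * Jᵀ) = Jᴴ * N') (hM : c • (M * Jᵀ) = Jᴴ * M') :
    swIP N' M' = ‖c‖ ^ 2 * swIP N M := by
  set K : Matrix ι ι ℂ := (Jᴴ)ᵀ with hK
  have hKu : IsUnit K.det := by
    rw [hK, Matrix.det_transpose, Matrix.det_conjTranspose]; exact hJ.star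
  have h1 : N'ᵀ * K = c • (J * Nᵀ) := by
    have := congrArg Matrix.transpose hN
    rw [Matrix.transpose_smul, Matrix.transpose_mul, Matrix.transpose_mul,
      Matrix.transpose_transpose] at this
    exact this.symm
  have h2 : M'ᴴ * J = conj c • (K * Mᴴ) := by
    have := congrArg Matrix.conjTranspose hM
    rw [Matrix.conjTranspose_smul, Matrix.conjTranspose_mul, Matrix.conjTranspose_mul,
      Matrix.conjTranspose_conjTranspose, Complex.star_def] at this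
    exact this.symm
  have e : (N'ᵀ * M'ᴴ).trace = ((‖c‖ ^ 2 : ℝ) : ℂ) * (Nᵀ * Mᴴ).trace := by
    calc (N'ᵀ * M'ᴴ).trace = ((N'ᵀ * K) * K⁻¹ * (M'ᴴ * J) * J⁻¹).trace := by
          congr 1
          calc N'ᵀ * M'ᴴ = N'ᵀ * (K * K⁻¹) * M'ᴴ * (J * J⁻¹) := by
                rw [Matrix.mul_nonsing_inv _ hKu, Matrix.mul_nonsing_inv _ hJ, Matrix.mul_one,
                  Matrix.mul_one]
            _ = _ := by simp only [Matrix.mul_assoc]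
      _ = ((c * conj c) • (J * (Nᵀ * (K⁻¹ * K) * Mᴴ) * J⁻¹)).trace := by
          rw [h1, h2]
          congr 1
          simp only [Matrix.smul_mul, Matrix.mul_smul, smul_smul, Matrix.mul_assoc, mul_comm c]
      _ = _ := by
          rw [Matrix.nonsing_inv_mul _ hKu, Matrix.mul_one, Matrix.trace_smul, Matrix.mul_assoc,
            Matrix.trace_mul_comm, Matrix.mul_assoc, Matrix.nonsing_inv_mul _ hJ, Matrix.mul_one,
            ← Complex.normSq_eq_norm_sq, Complex.normSq_eq_conj_mul_self, smul_eq_mul, mul_comm c]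
  simp only [swIP_eq_trace, e, Complex.re_ofReal_mul]

end matrixlaws

theorem invariant_kw_sec (hh : IsMetric 𝓜 h) (hs : IsKSec 𝓜 k s) (hs' : IsKSec 𝓜 k s') :
    𝓜.Invariant (fun Φ z => kw h k Φ z * (s Φ z * conj (s' Φ z)).re) := by
  rw [CMfd.invariant_iff]
  intro Φ Ψ U W hΦ hΨ z hz
  rw [kw_compat hh hΦ hΨ hz.1 hz.2 k]
  simp only [Function.comp_apply]
  rw [hs.compat hΦ hΨ z hz.1 hz.2, hs'.compat hΦ hΨ z hz.1 hz.2, l2m_mul_conj_re]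
  ring

theorem invariant_kw_normSq (hh : IsMetric 𝓜 h) (hs : IsKSec 𝓜 k s) :
    𝓜.Invariant (fun Φ z => kw h k Φ z * ‖s Φ z‖ ^ 2) := by
  rw [CMfd.invariant_iff]
  intro Φ Ψ U W hΦ hΨ z hz
  rw [kw_compat hh hΦ hΨ hz.1 hz.2 k]
  simp only [Function.comp_apply]
  rw [hs.compat hΦ hΨ z hz.1 hz.2, norm_mul]
  ring

theorem invariant_kw_qfB (hh : IsMetric 𝓜 h) (hA : IsHForm 𝓜 A) (hB : IsKVec 𝓜 k B) (hB' : IsKVec 𝓜 k B') :
    𝓜.Invariant (fun Φ z => kw h k Φ z * qfB (A Φ z) (B Φ z) (B' Φ z)) := by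
  rw [CMfd.invariant_iff]
  intro Φ Ψ U W hΦ hΨ z hz
  rw [kw_compat hh hΦ hΨ hz.1 hz.2 k]
  simp only [Function.comp_apply]
  rw [hB.compat hΦ hΨ z hz.1 hz.2, hB'.compat hΦ hΨ z hz.1 hz.2, l2m_qfB_conj,
    ← hA.compat hΦ hΨ z hz.1 hz.2]
  ring

theorem invariant_kw_fvIP (hh : IsMetric 𝓜 h) (hβ : IsKForm 𝓜 k β) (hB : IsKVec 𝓜 k B) :
    𝓜.Invariant (fun Φ z => kw h k Φ z * fvIP (β Φ z) (B Φ z)) := by
  rw [CMfd.invariant_iff]
  intro Φ Ψ U W hΦ hΨ z hz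
  rw [kw_compat hh hΦ hΨ hz.1 hz.2 k]
  simp only [Function.comp_apply]
  rw [hB.compat hΦ hΨ z hz.1 hz.2, l2m_fvIP_conj _ _ _ _ _ (hβ.compat hΦ hΨ z hz.1 hz.2)]
  ring

theorem invariant_kw_nbIP (hh : IsMetric 𝓜 h) (hg : IsMetric 𝓜 g) (hB : IsKVec 𝓜 k B) (hB' : IsKVec 𝓜 k B') :
    𝓜.Invariant (fun Φ z => kw h k Φ z * nbIP (g Φ z) (dbarV B Φ z) (dbarV B' Φ z)) := by
  rw [CMfd.invariant_iff]
  intro Φ Ψ U W hΦ hΨ z hz
  have hJu := (Matrix.isUnit_iff_isUnit_det _).1 (CMfd.isUnit_jac_trans hΦ hΨ hz)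
  rw [kw_compat hh hΦ hΨ hz.1 hz.2 k]
  simp only [Function.comp_apply]
  rw [l2m_nbIP_conj hJu (hB.dbarV_compat hΦ hΨ hz.1 hz.2) (hB'.dbarV_compat hΦ hΨ hz.1 hz.2),
    ← hg.compat hΦ hΨ z hz.1 hz.2]
  ring

theorem invariant_kw_swIP (hh : IsMetric 𝓜 h) (hB : IsKVec 𝓜 k B) (hB' : IsKVec 𝓜 k B') :
    𝓜.Invariant (fun Φ z => kw h k Φ z * swIP (dbarV B Φ z) (dbarV B' Φ z)) := by
  rw [CMfd.invariant_iff]
  intro Φ Ψ U W hΦ hΨ z hz
  have hJu := (Matrix.isUnit_iff_isUnit_det _).1 (CMfd.isUnit_jac_trans hΦ hΨ hz)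
  rw [kw_compat hh hΦ hΨ hz.1 hz.2 k]
  simp only [Function.comp_apply]
  rw [l2m_swIP_conj hJu (hB.dbarV_compat hΦ hΨ hz.1 hz.2) (hB'.dbarV_compat hΦ hΨ hz.1 hz.2)]
  ring

/-- **Kaehler identity**: `N Gᵀ - G Nᵀ = ∂̄ (G B)` (`IsClosedForm.dzb`: `∂_{\bar l} g_{j \bar k} = ∂_{\bar k} g_{j \bar l}`). -/
theorem curlM_lower (hg : IsKahler 𝓜 g) (hB : IsKVec 𝓜 k B) {Φ : CE ι → V} {U : Set (CE ι)}
    (hΦ : 𝓜.IsHol Φ U) {z : CE ι} (hz : z ∈ U) :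
    dbarV B Φ z * (g Φ z).transpose - g Φ z * (dbarV B Φ z).transpose = curlM (lower g B) Φ z := by
  have hgd : ∀ a c, DifferentiableAt ℝ (fun w => g Φ w a c) z := fun a c =>
    hg.toIsHForm.differentiableAt hΦ hz a c
  have hBd : ∀ c, DifferentiableAt ℝ (fun w => B Φ w c) z := fun c => hB.differentiableAt hΦ hz c
  ext l m
  simp only [curlM, R316.lower]
  rw [dzb_mulVec hgd hBd, dzb_mulVec hgd hBd]
  have h1 : (dzbM l (g Φ) z).mulVec (B Φ z) m = (dzbM m (g Φ) z).mulVec (B Φ z) l := by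
    simp only [Matrix.mulVec, dotProduct, dzbM_apply]
    exact Finset.sum_congr rfl fun j _ => by
      rw [IsClosedForm.dzb hg.toIsHForm hg.closed hΦ hz m j l]
  rw [h1]
  simp only [Matrix.sub_apply, Matrix.mul_apply, Matrix.transpose_apply, Matrix.mulVec, dotProduct,
    R316.dbarV, cdbar]
  rw [add_sub_add_left_eq_sub]
  congr 1
  exact Finset.sum_congr rfl fun j _ => mul_comm _ _

/-- `∂̄∂̄ = 0`. -/
theorem curlM_dbarS (hs : IsKSec 𝓜 k s) {Φ : CE ι → V} {U : Set (CE ι)} (hΦ : 𝓜.IsHol Φ U) {z : CE ι}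
    (hz : z ∈ U) : curlM (dbarS s) Φ z = 0 := by
  have h2 : ContDiffAt ℝ 2 (s Φ) z :=
    ((hs.smooth hΦ z hz).contDiffAt ((CMfd.isOpen_dom hΦ).mem_nhds hz)).of_le lv_two_le_infty
  ext l m
  simp only [curlM, R316.dbarS, Matrix.zero_apply]
  exact sub_eq_zero.2 (dzb_dzb_comm h2)

/-- Leibniz rule. -/
theorem curlM_fmulV (hχ : 𝓜.Smooth χ) (hb : IsKForm 𝓜 k b) {Φ : CE ι → V} {U : Set (CE ι)}
    (hΦ : 𝓜.IsHol Φ U) {z : CE ι} (hz : z ∈ U) :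
    curlM (fmulV χ b) Φ z = ((χ (Φ z) : ℝ) : ℂ) • curlM b Φ z +
      Matrix.of fun l k => conj (grad10 (χ ∘ Φ) z l) * b Φ z k - conj (grad10 (χ ∘ Φ) z k) * b Φ z l := by
  have hχd : DifferentiableAt ℝ (fun w => ((χ (Φ w) : ℝ) : ℂ)) z :=
    differentiableAt_ofReal (hχ.differentiableAt_comp hΦ hz)
  ext l m
  simp only [curlM, fmulV, Pi.smul_apply, smul_eq_mul, Matrix.add_apply, Matrix.smul_apply,
    Matrix.of_apply]
  rw [dzb_mul hχd (hb.differentiableAt hΦ hz m), dzb_mul hχd (hb.differentiableAt hΦ hz l)]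
  have e : ∀ a, dzb a (fun w => ((χ (Φ w) : ℝ) : ℂ)) z = conj (grad10 (χ ∘ Φ) z a) := fun a =>
    dzb_ofReal_eq_grad10 (χ ∘ Φ)
  rw [e, e]
  ring

end tensor

end Claimed.Agent.R316
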