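import Claimed.Agent.R316.Base.L2M.Main
import Claimed.Agent.R316.Pack019

/-!
# Row 316, `BP-G11`: interpolation of 1-jets at finitely many points by `L²` holomorphic sections of `K^{-k}`

NO singular weights, no limits of solutions: smooth weights `k₀ ψ + (n+2) ∑_a θ_a log(|z_a|² + δ)`, and "a linear subspace of a finite dimensional space is closed".

SETTING: `g` Kaehler with a good exhaustion, `ψ` smooth strictly psh, `(k+1) Ric g ≥ 0`; `m` charts `Φ a : ball 0 (2r) → M` with pairwise disjoint images (centres `x_a = Φ a 0`).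
`annuli Φ r = ⋃_a Φ a '' (closedBall 0 (3r/2) \ ball 0 r)` (compact).

Leaves: `G11-JET-A` (`exists_jet_weights`), `G11-JET-B` (`exists_jet_model`, `dbarS_jet_model`), `G11-JET-C` (`exists_jet_solutions`), `G11-JET-D` (`l2_cauchy_estimate`, `jet_small`),
`G11-JET-E` (`mem_range_of_approx`, `l2Hol`, `exists_khol_jets`).

## `exists_jet_weights`
`θ̃ : CE ι → ℝ` smooth, `= 1` on `closedBall 0 r`, `tsupport ⊆ ball 0 (3r/2)`, `0 ≤ θ̃ ≤ 1`.  `μ_δ(z) = (n+2) θ̃(z) log(‖z‖² + δ)`, transplanted by `CMfd.exists_smooth_of_chart`; `lam δ = ∑_a` (disjoint supports).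
* on `ball 0 r`: `levi (log(‖z‖²+δ)) ≥ 0` (explicit: `((‖z‖²+δ) 1 - z̄ zᵀ)/(‖z‖²+δ)²`, Cauchy-Schwarz);
* on the compact annulus `r ≤ ‖z‖ ≤ 3r/2`: the entries of `levi μ_δ` are continuous functions of `(z,δ) ∈ annulus × [0,1]`, hence bounded by a constant independent of `δ`; `dd ψ ≥ c > 0`, `g ≤ C` there: choose `k₀`;
* elsewhere `lam δ = 0` near the point and `curvF = (k+1) Ric g + k₀ dd ψ > 0`.
* `lam δ ≤ (n+2) log((3r/2)² + 1)⁺`; on the annuli `lam δ ≥ (n+2) min(0, log r²)`.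

## `exists_jet_solutions`
`N = c₁⁻¹ |∂̄F|²_{g,k}` (`= c₁⁻¹ 𝓜.scal (kw · qf g⁻¹ (∂̄F))`), supported in the annuli; `hdom` of `l2_dbar` from `Θ ≥ c₁ g` on the annuli (`B6E.dom_of_metric_lower_bound`-type algebra) and `∂̄F = 0` elsewhere;
`∫ N e^{-k₀ψ - lam δ} ≤ e^{C₁} ∫ N e^{-k₀ψ} =: I₀`.

## `jet_small`
on `ball 0 r` of the chart `Φ a`: `u` is holomorphic, `e^{-η} = kw · det g · e^{-k₀ψ} (‖z‖²+δ)^{-(n+2)} ≥ c₂ (2δ)^{-(n+2)}` on `ball 0 √δ`, so `∫_{ball 0 √δ} |u|² ≤ I₀ (2δ)^{n+2}/c₂`; `l2_cauchy_estimate` with `R = √δ`.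

## `exists_khol_jets`
`T : l2Hol → (Fin m → ℂ × (ι → ℂ))`, `T s = (s (Φ a) 0, ∂_j (s (Φ a)) 0)`; `s_δ = F - u_δ ∈ l2Hol` (`e^{-k₀ψ} ≤ e^{C₁} e^{-k₀ψ - lam δ}`; `F` compactly supported), `‖T s_δ - (c,l)‖ = ‖T u_δ‖ ≤ C √δ`.
-/

set_option autoImplicit false
set_option linter.unusedSectionVars false
open scoped ContDiff ComplexOrder ComplexConjugate Topology
open MeasureTheory Filter Metric

namespace Claimed.Agent.R316

variable {V : Type} [NormedAddCommGroup V] [NormedSpace ℝ V] [MeasurableSpace V] [BorelSpace V]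
  [FiniteDimensional ℝ V]
variable {ι : Type} [Fintype ι] [DecidableEq ι]
variable {𝓜 : CMfd V ι} {g : HFam V ι} {ψ ρ : V → ℝ} {k : ℤ}

/-- the union of the closed annuli. -/
def annuli {m : ℕ} (Φ : Fin m → CE ι → V) (r : ℝ) : Set V :=
  ⋃ a, Φ a '' (closedBall 0 (3 * r / 2) \ ball 0 r)

/-- the hypotheses on the manifold. -/
structure JetSetting (𝓜 : CMfd V ι) (g : HFam V ι) (ψ : V → ℝ) (k : ℤ) : Prop where
  kahler : IsKahler 𝓜 g
  smooth : 𝓜.Smooth ψ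
  spsh : ∀ (Φ : CE ι → V) (U : Set (CE ι)), 𝓜.IsHol Φ U → ∀ z ∈ U, (ddc ψ Φ z).PosDef
  ric : ∀ (Φ : CE ι → V) (U : Set (CE ι)), 𝓜.IsHol Φ U → ∀ z ∈ U,
    (((((k : ℝ) + 1 : ℝ)) : ℂ) • ricF g Φ z).PosSemidef

/-- the hypotheses on the charts. -/
structure JetCharts (𝓜 : CMfd V ι) {m : ℕ} (Φ : Fin m → CE ι → V) (r : ℝ) : Prop where
  pos : 0 < r
  hol : ∀ a, 𝓜.IsHol (Φ a) (ball 0 (2 * r))
  disj : Pairwise fun a b => Disjoint (Φ a '' ball 0 (2 * r)) (Φ b '' ball 0 (2 * r))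

variable {m : ℕ} {Φ : Fin m → CE ι → V} {r : ℝ}

/-- the cutoff of the jet construction. -/
theorem exists_jet_bump (ι : Type) [Fintype ι] {r : ℝ} (hr : 0 < r) :
    ∃ θ : CE ι → ℝ, ContDiff ℝ ∞ θ ∧ (∀ z, 0 ≤ θ z) ∧ (∀ z, θ z ≤ 1) ∧
      (∀ z ∈ closedBall (0 : CE ι) r, θ z = 1) ∧ ∀ z, z ∉ ball (0 : CE ι) (3 * r / 2) → θ z = 0 := by
  let f : ContDiffBump (0 : CE ι) := ⟨r, 3 * r / 2, hr, by linarith⟩
  refine ⟨f, f.contDiff, fun z => f.nonneg, fun z => f.le_one, fun z hz => f.one_of_mem_closedBall hz,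
    fun z hz => f.zero_of_le_dist ?_⟩
  rw [mem_ball, not_lt] at hz
  exact hz

theorem IsKSec.finset_sum {α : Type} (s : Finset α) {F : α → SFam V ι}
    (h : ∀ a ∈ s, IsKSec 𝓜 k (F a)) : IsKSec 𝓜 k (∑ a ∈ s, F a) := by
  classical
  induction s using Finset.induction_on with
  | empty => simpa using isKSec_zero
  | insert a s ha ih =>
    rw [Finset.sum_insert ha]
    exact (h a (Finset.mem_insert_self a s)).add (ih fun b hb => h b (Finset.mem_insert_of_mem hb))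

theorem JetCharts.closedBall_subset (hΦ : JetCharts 𝓜 Φ r) :
    closedBall (0 : CE ι) (3 * r / 2) ⊆ ball 0 (2 * r) :=
  closedBall_subset_ball (by have := hΦ.pos; linarith)

theorem JetCharts.ball_subset (hΦ : JetCharts 𝓜 Φ r) :
    ball (0 : CE ι) r ⊆ ball 0 (2 * r) :=
  ball_subset_ball (by have := hΦ.pos; linarith)

theorem JetCharts.notMem_of_ne (hΦ : JetCharts 𝓜 Φ r) {a b : Fin m} (hab : a ≠ b) {z : CE ι}
    (hz : z ∈ ball (0 : CE ι) (2 * r)) : Φ a z ∉ Φ b '' closedBall 0 (3 * r / 2) := fun h =>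
  Set.disjoint_left.1 (hΦ.disj hab) ⟨z, hz, rfl⟩ (Set.image_mono hΦ.closedBall_subset h)

theorem JetCharts.isCompact_image (hΦ : JetCharts 𝓜 Φ r) (a : Fin m) :
    IsCompact (Φ a '' closedBall 0 (3 * r / 2)) :=
  (isCompact_closedBall _ _).image_of_continuousOn
    ((𝓜.isParam (hΦ.hol a)).continuousOn.mono hΦ.closedBall_subset)

theorem JetCharts.isCompact_iUnion (hΦ : JetCharts 𝓜 Φ r) :
    IsCompact (⋃ a, Φ a '' closedBall 0 (3 * r / 2)) :=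
  _root_.isCompact_iUnion fun a => hΦ.isCompact_image a

/-- the model section with the prescribed jets. -/
theorem exists_jet_model (hΦ : JetCharts 𝓜 Φ r) (k : ℤ) (c : Fin m → ℂ) (l : Fin m → ι → ℂ) :
    ∃ F : SFam V ι, IsKSec 𝓜 k F ∧ SFamSuppIn 𝓜 F (⋃ a, Φ a '' closedBall 0 (3 * r / 2)) ∧
      ∀ a, ∀ z ∈ ball (0 : CE ι) r, F (Φ a) z = c a + ∑ j, l a j * z j := by
  obtain ⟨θ, hθ, -, -, hθ1, hθ0⟩ := exists_jet_bump ι hΦ.pos
  have hf : ∀ a, ContDiff ℝ ∞ (fun z : CE ι => ((θ z : ℝ) : ℂ) * (c a + ∑ j, l a j * z j)) := by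
    intro a
    refine (Complex.ofRealCLM.contDiff.comp hθ).mul (contDiff_const.add (ContDiff.sum fun j _ => ?_))
    refine contDiff_const.mul ?_
    exact ((EuclideanSpace.proj j : CE ι →L[ℂ] ℂ).restrictScalars ℝ).contDiff
  have hex : ∀ a, ∃ s : SFam V ι, IsKSec 𝓜 k s ∧
      (∀ z ∈ ball (0 : CE ι) (2 * r), s (Φ a) z = ((θ z : ℝ) : ℂ) * (c a + ∑ j, l a j * z j)) ∧
      SFamSuppIn 𝓜 s (Φ a '' closedBall 0 (3 * r / 2)) := fun a =>
    exists_kSec_of_chart (hΦ.hol a) (isCompact_closedBall _ _) hΦ.closedBall_subset (hf a).contDiffOn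
      (fun z _ hz => by
        rw [hθ0 z fun h => hz (ball_subset_closedBall h)]; simp) k
  choose s hs hs1 hs0 using hex
  refine ⟨∑ a, s a, IsKSec.finset_sum _ fun a _ => hs a, ?_, ?_⟩
  · intro Ψ W hΨ w hw hnot
    rw [Finset.sum_apply, Finset.sum_apply]
    refine Finset.sum_eq_zero fun a _ => hs0 a Ψ W hΨ w hw fun h => hnot (Set.mem_iUnion.2 ⟨a, h⟩)
  · intro a z hz
    rw [Finset.sum_apply, Finset.sum_apply, Finset.sum_eq_single a]
    · rw [hs1 a z (hΦ.ball_subset hz), hθ1 z (ball_subset_closedBall hz)]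
      simp
    · intro b _ hb
      exact hs0 b (Φ a) _ (hΦ.hol a) z (hΦ.ball_subset hz) (hΦ.notMem_of_ne (Ne.symm hb) (hΦ.ball_subset hz))
    · intro h
      exact absurd (Finset.mem_univ a) h

/-- `∂̄F` is supported in the annuli. -/
theorem dbarS_jet_model (hΦ : JetCharts 𝓜 Φ r) {F : SFam V ι} (hF : IsKSec 𝓜 k F)
    (hsupp : SFamSuppIn 𝓜 F (⋃ a, Φ a '' closedBall 0 (3 * r / 2)))
    (hhol : ∀ a, DifferentiableOn ℂ (F (Φ a)) (ball 0 r)) : VFamSuppIn 𝓜 (dbarS F) (annuli Φ r) := by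
  intro Ψ W hΨ w hw hnot
  by_cases h : Ψ w ∈ ⋃ a, Φ a '' closedBall 0 (3 * r / 2)
  · obtain ⟨a, z, hz, hzw⟩ := Set.mem_iUnion.1 h
    have hzr : z ∈ ball (0 : CE ι) r := by
      by_contra hcon
      exact hnot (Set.mem_iUnion.2 ⟨a, z, ⟨hz, hcon⟩, hzw⟩)
    have hz2 : z ∈ ball (0 : CE ι) (2 * r) := hΦ.ball_subset hzr
    have hmem : Ψ w ∈ Φ a '' ball 0 (2 * r) := ⟨z, hz2, hzw⟩
    have h1 := hF.dbarS.compat hΨ (hΦ.hol a) w hw hmem
    have hinv : Function.invFunOn (Φ a) (ball 0 (2 * r)) (Ψ w) = z := by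
      rw [← hzw]; exact (𝓜.isParam (hΦ.hol a)).leftInv hz2
    have h0 : dbarS F (Φ a) z = 0 := by
      funext j
      exact dzb_of_differentiableAt ((hhol a z hzr).differentiableAt (isOpen_ball.mem_nhds hzr))
    rw [hinv, h0, Matrix.mulVec_zero] at h1
    exact (smul_eq_zero.1 h1).resolve_left
      (zpow_ne_zero _ (CMfd.det_jac_trans_ne_zero hΨ (hΦ.hol a) ⟨hw, hmem⟩))
  · have hopen : IsOpen (W ∩ Ψ ⁻¹' (⋃ a, Φ a '' closedBall 0 (3 * r / 2))ᶜ) :=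
      (𝓜.isParam hΨ).isOpen_inter_preimage hΦ.isCompact_iUnion.isClosed.isOpen_compl
    have hev : F Ψ =ᶠ[𝓝 w] fun _ => 0 := by
      filter_upwards [hopen.mem_nhds ⟨hw, h⟩] with y hy
      exact hsupp Ψ W hΨ y hy.1 hy.2
    funext j
    show dzb j (F Ψ) w = 0
    rw [dzb_congr hev]
    exact dzb_const _

/-- upper bound of a continuous Hermitian matrix function on a compact set. -/
theorem exists_le_cI {U C : Set (CE ι)} (hC : IsCompact C) (hCU : C ⊆ U)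
    {G : CE ι → Matrix ι ι ℂ} (hG : ∀ j k, ContinuousOn (fun z => G z j k) U)
    (hherm : ∀ z ∈ U, (G z).IsHermitian) : ∃ Λ : ℝ, 0 < Λ ∧ ∀ z ∈ C, (cI Λ - G z).PosSemidef := by
  have hcont : ContinuousOn (fun z => (fun j k => G z j k : ι → ι → ℂ)) C :=
    continuousOn_pi.2 fun j => continuousOn_pi.2 fun k => (hG j k).mono hCU
  obtain ⟨M, hM⟩ := hC.exists_bound_of_continuousOn hcont
  refine ⟨|M| * Fintype.card ι + 1, by positivity, fun z hz => ?_⟩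
  have h1 := posSemidef_add_cI_of_entry_le (E := - G z) (hherm z (hCU hz)).neg (b := |M|) fun j k => by
    rw [Matrix.neg_apply, norm_neg]
    exact ((norm_le_pi_norm (fun k => G z j k) k).trans
      (norm_le_pi_norm (fun j k => G z j k : ι → ι → ℂ) j)).trans ((hM z hz).trans (le_abs_self M))
  have e : cI (|M| * Fintype.card ι + 1) - G z = (- G z + cI (|M| * Fintype.card ι)) + cI 1 := by
    simp only [cI]
    push_cast
    module
  rw [e]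
  exact h1.add (rich_posSemidef_cI zero_le_one)

/-- `log (‖z‖² + δ)` is plurisubharmonic. -/
theorem levi_log_normSq_add_posSemidef {δ : ℝ} (hδ : 0 < δ) (z : CE ι) :
    (levi (fun w : CE ι => Real.log (‖w‖ ^ 2 + δ)) z).PosSemidef := by
  have h := levi_log_sum_normSq_hol_posSemidef (z := z) (Finset.univ : Finset (Option ι))
    (fun a w => match a with
      | none => ((Real.sqrt δ : ℝ) : ℂ)
      | some j => w j)
    (fun a _ => Eventually.of_forall fun w => by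
      cases a with
      | none => exact differentiableAt_const _
      | some j => exact differentiableAt_coord_complex)
    (by
      rw [Fintype.sum_option]
      have : 0 < ‖((Real.sqrt δ : ℝ) : ℂ)‖ ^ 2 := by
        rw [Complex.norm_real, Real.norm_eq_abs, sq_abs, Real.sq_sqrt hδ.le]; exact hδ
      have h2 : 0 ≤ ∑ j, ‖z j‖ ^ 2 := Finset.sum_nonneg fun j _ => by positivity
      linarith)
  have e : (fun w : CE ι => Real.log (‖w‖ ^ 2 + δ)) = fun w : CE ι => Real.log (∑ a : Option ι,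
      ‖(match a with
        | none => ((Real.sqrt δ : ℝ) : ℂ)
        | some j => w j : ℂ)‖ ^ 2) := by
    funext w
    rw [Fintype.sum_option, Complex.norm_real, Real.norm_eq_abs, sq_abs, Real.sq_sqrt hδ.le,
      EuclideanSpace.norm_sq_eq, add_comm]
  rw [e]
  exact h

/-- uniform lower bound of the Levi forms of the cut off logarithms. -/
theorem exists_jet_levi_lower {r : ℝ} (hr : 0 < r) {θ : CE ι → ℝ} (hθ : ContDiff ℝ ∞ θ)
    (hθ1 : ∀ z ∈ closedBall (0 : CE ι) r, θ z = 1) :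
    ∃ b : ℝ, 0 ≤ b ∧ ∀ δ : ℝ, 0 < δ → δ ≤ 1 → ∀ z ∈ closedBall (0 : CE ι) (3 * r / 2),
      (levi (fun w => θ w * Real.log (‖w‖ ^ 2 + δ)) z + cI b).PosSemidef := by
  obtain ⟨U, hUdef⟩ : ∃ U : Set (CE ι), U = (closedBall 0 (r / 2))ᶜ := ⟨_, rfl⟩
  have hU : IsOpen U := by rw [hUdef]; exact isClosed_closedBall.isOpen_compl
  have hUpos : ∀ w ∈ U, 0 < ‖w‖ ^ 2 := by
    intro w hw
    rw [hUdef, Set.mem_compl_iff, mem_closedBall_zero_iff, not_le] at hw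
    have : 0 < ‖w‖ := lt_trans (by positivity) hw
    positivity
  have hF : ContDiffOn ℝ ∞ (fun q : ℝ × CE ι => θ q.2 * Real.log (‖q.2‖ ^ 2 + q.1))
      (Set.Icc (0 : ℝ) 1 ×ˢ U) :=
    (hθ.comp contDiff_snd).contDiffOn.mul
      (ContDiffOn.log (((contDiff_norm_sq ℂ).comp contDiff_snd).add contDiff_fst).contDiffOn
        fun q hq => by
          have h1 := hUpos q.2 hq.2
          have h2 := hq.1.1
          positivity)
  have hc : ContinuousOn (fun q : ℝ × CE ι =>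
      (fun j k => levi (fun w => θ w * Real.log (‖w‖ ^ 2 + q.1)) q.2 j k : ι → ι → ℂ))
      (Set.Icc (0 : ℝ) 1 ×ˢ U) :=
    continuousOn_pi.2 fun j => continuousOn_pi.2 fun k =>
      (contDiffOn_levi_param (uniqueDiffOn_Icc zero_lt_one) hU hF j k).continuousOn
  have hK : IsCompact (Set.Icc (0 : ℝ) 1 ×ˢ (closedBall (0 : CE ι) (3 * r / 2) \ ball 0 r)) :=
    isCompact_Icc.prod ((isCompact_closedBall _ _).diff isOpen_ball)
  have hKU : closedBall (0 : CE ι) (3 * r / 2) \ ball 0 r ⊆ U := by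
    intro z hz
    rw [hUdef, Set.mem_compl_iff, mem_closedBall_zero_iff, not_le]
    have := hz.2
    rw [mem_ball_zero_iff, not_lt] at this
    linarith
  obtain ⟨M, hM⟩ := hK.exists_bound_of_continuousOn (hc.mono (Set.prod_mono subset_rfl hKU))
  refine ⟨|M| * Fintype.card ι, by positivity, fun δ hδ hδ1 z hz => ?_⟩
  by_cases hzr : z ∈ ball (0 : CE ι) r
  · have e : levi (fun w => θ w * Real.log (‖w‖ ^ 2 + δ)) z = levi (fun w => Real.log (‖w‖ ^ 2 + δ)) z :=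
      levi_congr (Filter.eventually_of_mem (isOpen_ball.mem_nhds hzr) fun w hw => by
        simp only [hθ1 w (ball_subset_closedBall hw), one_mul])
    rw [e]
    exact (levi_log_normSq_add_posSemidef hδ z).add (rich_posSemidef_cI (by positivity))
  · have hsm : ContDiffAt ℝ 2 (fun w => θ w * Real.log (‖w‖ ^ 2 + δ)) z :=
      ((hθ.of_le lv_two_le_infty).contDiffAt).mul
        (ContDiffAt.log ((contDiff_norm_sq ℂ).add contDiff_const).contDiffAt (by positivity))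
    refine posSemidef_add_cI_of_entry_le (levi_isHermitian hsm) fun j k => ?_
    have h1 := hM (δ, z) ⟨⟨hδ.le, hδ1⟩, hz, hzr⟩
    exact ((norm_le_pi_norm (fun k => levi (fun w => θ w * Real.log (‖w‖ ^ 2 + δ)) z j k) k).trans
      (norm_le_pi_norm (fun j k => levi (fun w => θ w * Real.log (‖w‖ ^ 2 + δ)) z j k : ι → ι → ℂ) j)).trans
      (h1.trans (le_abs_self M))

/-- the algebra of the curvature estimate. -/
theorem jet_curv_alg {R D L G : Matrix ι ι ℂ} {k₀ c N b c₁ Λ : ℝ} (hR : R.PosSemidef)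
    (hD : (D - cI c).PosSemidef) (hL : (L + cI b).PosSemidef) (hG : (cI Λ - G).PosSemidef)
    (hk₀ : 0 ≤ k₀) (hN : 0 ≤ N) (hc₁ : 0 ≤ c₁) (h : N * b + c₁ * Λ ≤ k₀ * c) :
    (R + (((k₀ : ℝ) : ℂ) • D + ((N : ℝ) : ℂ) • L) - ((c₁ : ℝ) : ℂ) • G).PosSemidef := by
  have e : R + (((k₀ : ℝ) : ℂ) • D + ((N : ℝ) : ℂ) • L) - ((c₁ : ℝ) : ℂ) • G =
      R + ((k₀ : ℝ) : ℂ) • (D - cI c) + ((N : ℝ) : ℂ) • (L + cI b) + ((c₁ : ℝ) : ℂ) • (cI Λ - G)
        + cI (k₀ * c - (N * b + c₁ * Λ)) := by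
    simp only [cI]
    push_cast
    module
  rw [e]
  exact (((hR.add (posSemidef_smul_real hk₀ hD)).add (posSemidef_smul_real hN hL)).add
    (posSemidef_smul_real hc₁ hG)).add (rich_posSemidef_cI (by linarith))

/-- the weights, for one `δ`. -/
theorem exists_jet_weight_aux (S : JetSetting 𝓜 g ψ k) (hΦ : JetCharts 𝓜 Φ r) :
    ∃ (k₀ c₁ C₁ : ℝ), 0 ≤ k₀ ∧ 0 < c₁ ∧ ∀ δ : ℝ, 0 < δ → δ ≤ 1 → ∃ lam : V → ℝ,
      𝓜.Smooth lam ∧ (∀ x ∈ 𝓜.carrier, lam x ≤ C₁) ∧ (∀ x ∈ annuli Φ r, -C₁ ≤ lam x) ∧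
      (∀ a, ∀ z ∈ ball (0 : CE ι) r, lam (Φ a z) = ((Fintype.card ι : ℝ) + 2) * Real.log (‖z‖ ^ 2 + δ)) ∧
      (∀ (Ψ : CE ι → V) (W : Set (CE ι)), 𝓜.IsHol Ψ W → ∀ w ∈ W,
        (curvF g (fun x => k₀ * ψ x + lam x) k Ψ w).PosDef) ∧
      leFOn 𝓜 (annuli Φ r) (smulF (fun _ => c₁) g) (curvF g (fun x => k₀ * ψ x + lam x) k) := by
  have hg : IsMetric 𝓜 g := S.kahler.toIsMetric
  have hr := hΦ.pos
  obtain ⟨θ, hθ, hθ0, hθle, hθ1, hθs⟩ := exists_jet_bump ι hr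
  obtain ⟨b, hb, hlev⟩ := exists_jet_levi_lower hr hθ hθ1
  obtain ⟨N, hN⟩ : ∃ N : ℝ, N = (Fintype.card ι : ℝ) + 2 := ⟨_, rfl⟩
  have hN0 : 0 ≤ N := by rw [hN]; positivity
  rw [← hN]
  -- constants of the charts
  have hex1 : ∀ a, ∃ c > 0, ∀ z ∈ closedBall (0 : CE ι) (3 * r / 2), (ddc ψ (Φ a) z - cI c).PosSemidef :=
    fun a => exists_cI_le (isCompact_closedBall _ _) hΦ.closedBall_subset
      (fun j k => ((isHForm_ddc S.smooth).smooth (hΦ.hol a) j k).continuousOn)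
      (fun z hz => S.spsh _ _ (hΦ.hol a) z hz)
  have hex2 : ∀ a, ∃ Λ : ℝ, 0 < Λ ∧ ∀ z ∈ closedBall (0 : CE ι) (3 * r / 2), (cI Λ - g (Φ a) z).PosSemidef :=
    fun a => exists_le_cI (isCompact_closedBall _ _) hΦ.closedBall_subset
      (fun j k => (hg.smooth (hΦ.hol a) j k).continuousOn) (fun z hz => hg.herm (hΦ.hol a) z hz)
  choose c hc hcD using hex1
  choose Λ hΛ hΛG using hex2
  obtain ⟨k₀, hk₀def⟩ : ∃ k₀ : ℝ, k₀ = 1 + ∑ a, (N * b + 1) / c a := ⟨_, rfl⟩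
  obtain ⟨Λ₀, hΛ₀def⟩ : ∃ Λ₀ : ℝ, Λ₀ = 1 + ∑ a, Λ a := ⟨_, rfl⟩
  have hk₀pos : 0 < k₀ := by
    rw [hk₀def]
    have : 0 ≤ ∑ a, (N * b + 1) / c a := Finset.sum_nonneg fun a _ => by have := hc a; positivity
    linarith
  have hΛ₀pos : 0 < Λ₀ := by
    rw [hΛ₀def]
    have : 0 ≤ ∑ a, Λ a := Finset.sum_nonneg fun a _ => (hΛ a).le
    linarith
  have hk₀c : ∀ a, N * b + 1 ≤ k₀ * c a := by
    intro a
    have h1 : (N * b + 1) / c a ≤ ∑ a, (N * b + 1) / c a :=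
      Finset.single_le_sum (f := fun a => (N * b + 1) / c a)
        (fun a _ => by have := hc a; positivity) (Finset.mem_univ a)
    have h2 : (N * b + 1) / c a ≤ k₀ := by rw [hk₀def]; linarith
    rwa [div_le_iff₀ (hc a)] at h2
  have hΛle : ∀ a, Λ₀⁻¹ * Λ a ≤ 1 := by
    intro a
    have h1 : Λ a ≤ ∑ a, Λ a :=
      Finset.single_le_sum (f := fun a => Λ a) (fun a _ => (hΛ a).le) (Finset.mem_univ a)
    rw [inv_mul_le_iff₀ hΛ₀pos, mul_one, hΛ₀def]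
    linarith
  obtain ⟨L₁, hL₁⟩ : ∃ L₁ : ℝ, L₁ = |Real.log (r ^ 2)| := ⟨_, rfl⟩
  obtain ⟨L₂, hL₂⟩ : ∃ L₂ : ℝ, L₂ = |Real.log ((3 * r / 2) ^ 2 + 1)| := ⟨_, rfl⟩
  have hL₁0 : 0 ≤ L₁ := by rw [hL₁]; positivity
  have hL₂0 : 0 ≤ L₂ := by rw [hL₂]; positivity
  refine ⟨k₀, Λ₀⁻¹, N * (L₁ + L₂), hk₀pos.le, inv_pos.2 hΛ₀pos, fun δ hδ hδ1 => ?_⟩
  -- the chart function
  obtain ⟨μ, hμdef⟩ : ∃ μ : CE ι → ℝ, μ = fun z => N * (θ z * Real.log (‖z‖ ^ 2 + δ)) := ⟨_, rfl⟩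
  have hlogsm : ContDiff ℝ ∞ (fun z : CE ι => θ z * Real.log (‖z‖ ^ 2 + δ)) :=
    hθ.mul (ContDiff.log ((contDiff_norm_sq ℂ).add contDiff_const) fun z => by positivity)
  have hμ : ContDiff ℝ ∞ μ := by rw [hμdef]; exact contDiff_const.mul hlogsm
  have hμ0 : ∀ z, z ∉ closedBall (0 : CE ι) (3 * r / 2) → μ z = 0 := by
    intro z hz
    rw [hμdef]
    simp only [hθs z fun h => hz (ball_subset_closedBall h), zero_mul, mul_zero]
  have hμup : ∀ z, μ z ≤ N * (L₁ + L₂) := by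
    intro z
    by_cases hz : z ∈ closedBall (0 : CE ι) (3 * r / 2)
    · rw [hμdef]
      refine mul_le_mul_of_nonneg_left ?_ hN0
      have h1 : Real.log (‖z‖ ^ 2 + δ) ≤ L₂ := by
        rw [hL₂]
        refine le_trans (Real.log_le_log (by positivity) ?_) (le_abs_self _)
        have : ‖z‖ ^ 2 ≤ (3 * r / 2) ^ 2 :=
          pow_le_pow_left₀ (norm_nonneg _) (mem_closedBall_zero_iff.1 hz) 2
        linarith
      calc θ z * Real.log (‖z‖ ^ 2 + δ) ≤ θ z * L₂ := mul_le_mul_of_nonneg_left h1 (hθ0 z)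
        _ ≤ 1 * L₂ := mul_le_mul_of_nonneg_right (hθle z) hL₂0
        _ ≤ L₁ + L₂ := by linarith
    · rw [hμ0 z hz]; positivity
  have hμlow : ∀ z, z ∉ ball (0 : CE ι) r → -(N * (L₁ + L₂)) ≤ μ z := by
    intro z hz
    rw [mem_ball_zero_iff, not_lt] at hz
    rw [hμdef, ← mul_neg]
    refine mul_le_mul_of_nonneg_left ?_ hN0
    have h1 : -L₁ ≤ Real.log (‖z‖ ^ 2 + δ) := by
      rw [hL₁]
      refine le_trans (neg_abs_le _) (Real.log_le_log (by positivity) ?_)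
      have : r ^ 2 ≤ ‖z‖ ^ 2 := pow_le_pow_left₀ hr.le hz 2
      linarith
    calc -(L₁ + L₂) ≤ 1 * (-L₁) := by linarith
      _ ≤ θ z * (-L₁) := mul_le_mul_of_nonpos_right (hθle z) (by linarith)
      _ ≤ θ z * Real.log (‖z‖ ^ 2 + δ) := mul_le_mul_of_nonneg_left h1 (hθ0 z)
  -- transplantation
  have hex : ∀ a, ∃ u : V → ℝ, 𝓜.Smooth u ∧ (∀ z ∈ ball (0 : CE ι) (2 * r), u (Φ a z) = μ z) ∧
      ∀ y, y ∉ Φ a '' closedBall 0 (3 * r / 2) → u y = 0 := fun a =>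
    CMfd.exists_smooth_of_chart (hΦ.hol a) (isCompact_closedBall _ _) hΦ.closedBall_subset
      hμ.contDiffOn fun z _ hz => hμ0 z hz
  choose u hu hu1 hu0 using hex
  obtain ⟨lam, hlamdef⟩ : ∃ lam : V → ℝ, lam = fun x => ∑ a, u a x := ⟨_, rfl⟩
  have hlam : 𝓜.Smooth lam := by rw [hlamdef]; exact CMfd.Smooth.sum _ fun a _ => hu a
  have hA : ∀ a, ∀ z ∈ ball (0 : CE ι) (2 * r), lam (Φ a z) = μ z := by
    intro a z hz
    rw [hlamdef]
    simp only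
    rw [Finset.sum_eq_single a, hu1 a z hz]
    · intro b _ hb
      exact hu0 b _ (hΦ.notMem_of_ne (Ne.symm hb) hz)
    · intro h
      exact absurd (Finset.mem_univ a) h
  have hB : ∀ x, x ∉ ⋃ a, Φ a '' closedBall 0 (3 * r / 2) → lam x = 0 := by
    intro x hx
    rw [hlamdef]
    exact Finset.sum_eq_zero fun a _ => hu0 a x fun h => hx (Set.mem_iUnion.2 ⟨a, h⟩)
  have hψ0 : 𝓜.Smooth (fun x => k₀ * ψ x) := S.smooth.const_mul k₀
  have hφ : 𝓜.Smooth (fun x => k₀ * ψ x + lam x) := hψ0.add hlam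
  have hcurv : ∀ (Ψ : CE ι → V) (W : Set (CE ι)), 𝓜.IsHol Ψ W → ∀ w ∈ W,
      curvF g (fun x => k₀ * ψ x + lam x) k Ψ w = ((((k : ℝ) + 1 : ℝ)) : ℂ) • ricF g Ψ w +
        (((k₀ : ℝ) : ℂ) • ddc ψ Ψ w + ddc lam Ψ w) := by
    intro Ψ W hΨ w hw
    simp only [curvF]
    rw [ddc_add hψ0 hlam hΨ hw, ddc_const_mul k₀ S.smooth hΨ hw]
  have hddc : ∀ a, ∀ z ∈ ball (0 : CE ι) (2 * r), ddc lam (Φ a) z =
      ((N : ℝ) : ℂ) • levi (fun w => θ w * Real.log (‖w‖ ^ 2 + δ)) z := by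
    intro a z hz
    have e1 : ddc lam (Φ a) z = levi μ z :=
      levi_congr (Filter.eventually_of_mem (isOpen_ball.mem_nhds hz) fun w hw => hA a w hw)
    rw [e1, hμdef]
    exact levi_const_mul N (hlogsm.of_le lv_two_le_infty).contDiffAt
  have hmain : leFOn 𝓜 (⋃ a, Φ a '' closedBall 0 (3 * r / 2)) (smulF (fun _ => Λ₀⁻¹) g)
      (curvF g (fun x => k₀ * ψ x + lam x) k) := by
    intro Ψ W hΨ w hw hx
    obtain ⟨a, z, hz, hzw⟩ := Set.mem_iUnion.1 hx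
    have hz2 := hΦ.closedBall_subset hz
    refine leFOn_singleton_of_chart ((hg.toIsHForm.smulF (CMfd.smooth_const _)).isCForm)
      (isHForm_curvF hg hφ k).isCForm (hΦ.hol a) hz2 ?_ Ψ W hΨ w hw
      (by rw [Set.mem_singleton_iff]; exact hzw.symm)
    rw [hcurv _ _ (hΦ.hol a) z hz2, hddc a z hz2]
    simp only [smulF]
    refine jet_curv_alg (S.ric _ _ (hΦ.hol a) z hz2) (hcD a z hz) (hlev δ hδ hδ1 z hz) (hΛG a z hz)
      hk₀pos.le hN0 (inv_pos.2 hΛ₀pos).le ?_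
    have := hk₀c a
    have := hΛle a
    linarith
  refine ⟨lam, hlam, ?_, ?_, ?_, ?_, ?_⟩
  · intro x _
    by_cases hx : x ∈ ⋃ a, Φ a '' closedBall 0 (3 * r / 2)
    · obtain ⟨a, z, hz, rfl⟩ := Set.mem_iUnion.1 hx
      rw [hA a z (hΦ.closedBall_subset hz)]
      exact hμup z
    · rw [hB x hx]; positivity
  · intro x hx
    obtain ⟨a, z, hz, rfl⟩ := Set.mem_iUnion.1 hx
    rw [hA a z (hΦ.closedBall_subset hz.1)]
    exact hμlow z hz.2
  · intro a z hz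
    rw [hA a z (hΦ.ball_subset hz), hμdef]
    simp only [hθ1 z (ball_subset_closedBall hz), one_mul]
  · intro Ψ W hΨ w hw
    by_cases hx : Ψ w ∈ ⋃ a, Φ a '' closedBall 0 (3 * r / 2)
    · have h1 := hmain Ψ W hΨ w hw hx
      exact posDef_of_loewner (posDef_smul_real (inv_pos.2 hΛ₀pos) (hg.posDef hΨ w hw)) h1
    · have hopen : IsOpen (W ∩ Ψ ⁻¹' (⋃ a, Φ a '' closedBall 0 (3 * r / 2))ᶜ) :=
        (𝓜.isParam hΨ).isOpen_inter_preimage hΦ.isCompact_iUnion.isClosed.isOpen_compl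
      have e1 : ddc lam Ψ w = 0 := by
        have : ddc lam Ψ w = levi (fun _ => (0 : ℝ)) w :=
          levi_congr (Filter.eventually_of_mem (hopen.mem_nhds ⟨hw, hx⟩) fun y hy => hB _ hy.2)
        rw [this, levi_const]
      rw [hcurv Ψ W hΨ w hw, e1, add_zero]
      exact Matrix.PosDef.posSemidef_add (S.ric Ψ W hΨ w hw)
        (posDef_smul_real hk₀pos (S.spsh Ψ W hΨ w hw))
  · refine hmain.mono fun x hx => ?_
    obtain ⟨a, z, hz, rfl⟩ := Set.mem_iUnion.1 hx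
    exact Set.mem_iUnion.2 ⟨a, z, hz.1, rfl⟩

/-- the weights. -/
theorem exists_jet_weights (S : JetSetting 𝓜 g ψ k) (hΦ : JetCharts 𝓜 Φ r) :
    ∃ (k₀ c₁ C₁ : ℝ) (lam : ℝ → V → ℝ), 0 ≤ k₀ ∧ 0 < c₁ ∧ ∀ δ : ℝ, 0 < δ → δ ≤ 1 →
      𝓜.Smooth (lam δ) ∧ (∀ x ∈ 𝓜.carrier, lam δ x ≤ C₁) ∧ (∀ x ∈ annuli Φ r, -C₁ ≤ lam δ x) ∧
      (∀ a, ∀ z ∈ ball (0 : CE ι) r, lam δ (Φ a z) = ((Fintype.card ι : ℝ) + 2) * Real.log (‖z‖ ^ 2 + δ)) ∧
      (∀ (Ψ : CE ι → V) (W : Set (CE ι)), 𝓜.IsHol Ψ W → ∀ w ∈ W,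
        (curvF g (fun x => k₀ * ψ x + lam δ x) k Ψ w).PosDef) ∧
      leFOn 𝓜 (annuli Φ r) (smulF (fun _ => c₁) g) (curvF g (fun x => k₀ * ψ x + lam δ x) k) := by
  classical
  obtain ⟨k₀, c₁, C₁, hk₀, hc₁, H⟩ := exists_jet_weight_aux S hΦ
  refine ⟨k₀, c₁, C₁, fun δ => if h : 0 < δ ∧ δ ≤ 1 then (H δ h.1 h.2).choose else 0, hk₀, hc₁,
    fun δ hδ hδ1 => ?_⟩
  have h : 0 < δ ∧ δ ≤ 1 := ⟨hδ, hδ1⟩
  simp only [dif_pos h]
  exact (H δ hδ hδ1).choose_spec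

end Claimed.Agent.R316
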