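import Claimed.Agent.R316.Base.L2M.Int
import Claimed.Agent.R316.Base.L2M.ChartReg

/-!
# Row 316, `BP-G11`: from a `dirQ`-Cauchy sequence of test fields to a smooth limit of the divergences

Leaves: `G11-LIM-A` (`local_coercive`), `G11-LIM-B` (`dirQ_chart`, `pairQ_chart`, `exists_chart_limit`), `G11-LIM-C` (`glue_sections`, `exists_limit_section`).

* `local_coercive`: `K' , C₀` from `garding_dbar`.  `dirQ B B ≥ ∫_{Φ '' K'} kDens(…)` (the integrand is `≥ 0` and integrable) `= ∫_{K'} (nbIP G N N + qf Θ B) e^{-η}` (`setIntegral_kDens_image`)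
  `≥ c ∫_{K'} (∑ |N_{lj}|² + ∑ |B^j|²)`: on the compact `K'` the continuous positive definite `G`, `Θ` satisfy `a ≤ G ≤ A`, `Θ ≥ a`, and `e^{-η} ≥ a` (`nbIP_self_ge`).
* `dirQ_chart`: `kInt_of_support` for the integrand of `dirQ B B'`, which vanishes off `Φ '' tsupport Z` (`VFamSuppIn.dbarV`), and `B' Φ = Z` near every point of `U` (so `dbarV B' Φ z = cdbar Z z` on `U`).
* `exists_chart_limit`: `chart_regularity` with `G = g Φ`, `Θ = curvF h φ k Φ`, `η = wt h φ k Φ`, `β = dbarS F Φ`, `Y m = B m Φ`; `hcauchy` from `local_coercive` applied to `B m - B l`;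
  `hweak` from `exists_testKV_of_chart`, `dirQ_chart`, `pairQ_chart`.
* `glue_sections`: `v Φ z := r Φ U z` for a chosen `U ∋ z` with `𝓜.IsHol Φ U`.
* `exists_limit_section`: `r Φ U := cdiv (wt h φ k Φ) (W_{Φ,U})`; `kdiv (B m) Φ → r Φ U` in `L²(C)` (`integral_cdiv_sq_le`, `cdiv_sub`); compatibility: the sections `kdiv (B m)` satisfy the law exactly
  (`IsKVec.kdiv`), both sides converge in `L²` of a small compact neighbourhood (change of variables by the biholomorphic `τ`, or: a subsequence converges a.e. on both sides), limits are continuous.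
-/

set_option autoImplicit false
set_option linter.unusedSectionVars false
set_option linter.unusedVariables false
set_option maxSynthPendingDepth 6
open scoped ContDiff ComplexOrder ComplexConjugate Topology
open MeasureTheory Filter

namespace Claimed.Agent.R316

variable {V : Type} [NormedAddCommGroup V] [NormedSpace ℝ V] [MeasurableSpace V] [BorelSpace V]
  [FiniteDimensional ℝ V]
variable {ι : Type} [Fintype ι] [DecidableEq ι]
variable {𝓜 : CMfd V ι} {g h : HFam V ι} {φ : V → ℝ} {k : ℤ}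

/-- upper Loewner bound on compact sets. -/
theorem lim_exists_upper {K : Set (CE ι)} (hK : IsCompact K) {H : CE ι → Matrix ι ι ℂ}
    (hH : ∀ j l, ContinuousOn (fun z => H z j l) K) (hp : ∀ z ∈ K, (H z).PosSemidef) :
    ∃ A : ℝ, 0 < A ∧ ∀ z ∈ K, (((A : ℝ) : ℂ) • (1 : Matrix ι ι ℂ) - H z).PosSemidef := by
  have hc : ContinuousOn (fun z => (H z).trace.re) K := by
    refine Complex.continuous_re.comp_continuousOn ?_
    unfold Matrix.trace
    exact continuousOn_finsetSum _ fun j _ => hH j j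
  obtain ⟨M, hM⟩ := hK.exists_bound_of_continuousOn hc
  refine ⟨|M| + 1, by positivity, fun z hz => ?_⟩
  have h1 := le_trace_smul (Matrix.PosDef.one (n := ι) (R := ℂ)) (hp z hz)
  rw [inv_one, Matrix.one_mul] at h1
  have h2 : (H z).trace.re ≤ |M| + 1 := by
    have := hM z hz
    rw [Real.norm_eq_abs] at this
    linarith [le_abs_self (H z).trace.re, le_abs_self M]
  have h3 := loewner_smul_le h2 (Matrix.PosSemidef.one (n := ι) (R := ℂ))
  exact loewner_trans h1 h3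

/-- lower Loewner bound on compact sets. -/
theorem lim_exists_lower {K : Set (CE ι)} (hK : IsCompact K) {H : CE ι → Matrix ι ι ℂ}
    (hH : ∀ j l, ContinuousOn (fun z => H z j l) K) (hp : ∀ z ∈ K, (H z).PosDef) :
    ∃ a : ℝ, 0 < a ∧ ∀ z ∈ K, (H z - ((a : ℝ) : ℂ) • (1 : Matrix ι ι ℂ)).PosSemidef := by
  have hHi : ∀ j l, ContinuousOn (fun z => (H z)⁻¹ j l) K := fun j l =>
    (contDiffOn_matInv_of_posDef (N := 0) (fun j l => contDiffOn_zero.2 (hH j l)) hp j l).continuousOn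
  obtain ⟨A, hA, hle⟩ := lim_exists_upper hK hHi fun z hz => (hp z hz).inv.posSemidef
  refine ⟨A⁻¹, inv_pos.2 hA, fun z hz => ?_⟩
  have h3 := loewner_inv_anti (hp z hz).inv (hle z hz)
  have hAinv : (((A : ℝ) : ℂ) • (1 : Matrix ι ι ℂ))⁻¹ = (((A⁻¹ : ℝ)) : ℂ) • (1 : Matrix ι ι ℂ) := by
    apply Matrix.inv_eq_left_inv
    rw [Matrix.smul_mul, Matrix.mul_smul, Matrix.one_mul, smul_smul, ← Complex.ofReal_mul,
      inv_mul_cancel₀ hA.ne', Complex.ofReal_one, one_smul]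
  rwa [hAinv, Matrix.nonsing_inv_nonsing_inv _ ((Matrix.isUnit_iff_isUnit_det _).1 (hp z hz).isUnit)] at h3

/-- the coefficient function of a smooth family is smooth as a vector function. -/
theorem IsKVec.contDiffOn {B : VFam V ι} (hB : IsKVec 𝓜 k B) {Φ : CE ι → V} {U : Set (CE ι)}
    (hΦ : 𝓜.IsHol Φ U) : ContDiffOn ℝ ∞ (B Φ) U :=
  contDiffOn_pi.2 fun j => hB.smooth hΦ j

theorem invariant_kw_dir (S : L2Setting 𝓜 g h φ k) {B B' : VFam V ι} (hB : IsKVec 𝓜 k B) (hB' : IsKVec 𝓜 k B') :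
    𝓜.Invariant (fun Φ z => kw h k Φ z * (nbIP (g Φ z) (dbarV B Φ z) (dbarV B' Φ z) +
      qfB (curvF h φ k Φ z) (B Φ z) (B' Φ z))) :=
  CMfd.Invariant.kw_add (invariant_kw_nbIP S.metric S.kahler.toIsMetric hB hB')
    (invariant_kw_qfB S.metric (isHForm_curvF S.metric S.smooth k) hB hB')

/-- **local coercivity of the Dirichlet form.** -/
theorem local_coercive (S : L2Setting 𝓜 g h φ k) {Φ : CE ι → V} {U : Set (CE ι)} (hΦ : 𝓜.IsHol Φ U)
    {K : Set (CE ι)} (hK : IsCompact K) (hKU : K ⊆ U) :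
    ∃ C : ℝ, 0 ≤ C ∧ ∀ B : VFam V ι, IsTestKV 𝓜 k B → h1Sq K (B Φ) ≤ C * dirQ 𝓜 g h φ k B B := by
  have hU : IsOpen U := 𝓜.isOpen_dom hΦ
  obtain ⟨K', C₀, hK', hKK', hK'U, hC₀, hgard⟩ := garding_dbar hU hK hKU
  have hg := S.kahler.toIsMetric
  have hΘ := isHForm_curvF S.metric S.smooth k
  obtain ⟨a, ha, hga⟩ := lim_exists_lower hK' (fun j l => ((hg.smooth hΦ j l).continuousOn.mono hK'U))
    (fun z hz => hg.posDef hΦ z (hK'U hz))
  obtain ⟨A, hA, hgA⟩ := lim_exists_upper hK' (fun j l => ((hg.smooth hΦ j l).continuousOn.mono hK'U))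
    (fun z hz => (hg.posDef hΦ z (hK'U hz)).posSemidef)
  obtain ⟨b, hb, hΘb⟩ := lim_exists_lower hK' (fun j l => ((hΘ.smooth hΦ j l).continuousOn.mono hK'U))
    (fun z hz => S.pos Φ U hΦ z (hK'U hz))
  have hη : ContDiffOn ℝ ∞ (wt h φ k Φ) U := contDiffOn_wt S.metric S.smooth hΦ k
  obtain ⟨M, hM⟩ := hK'.exists_bound_of_continuousOn (hη.continuousOn.mono hK'U)
  set c : ℝ := min (a / A) b * Real.exp (-M) with hc
  have hc0 : 0 < c := mul_pos (lt_min (div_pos ha hA) hb) (Real.exp_pos _)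
  refine ⟨C₀ / c, by positivity, fun B hB => ?_⟩
  set F : (CE ι → V) → CE ι → ℝ := fun Φ z => nbIP (g Φ z) (dbarV B Φ z) (dbarV B Φ z) +
      qfB (curvF h φ k Φ z) (B Φ z) (B Φ z) with hF
  have hF0 : ∀ (Ψ : CE ι → V) (W : Set (CE ι)), 𝓜.IsHol Ψ W → ∀ z ∈ W, 0 ≤ F Ψ z := fun Ψ W hΨ z hz =>
    add_nonneg (nbIP_self_nonneg (hg.posDef hΨ z hz) _) (qf_nonneg (S.pos Ψ W hΨ z hz).posSemidef _)
  have hint := integrable_kDens_dir S hB hB.1
  have h1 : ∫ x in Φ '' K', kDens 𝓜 h φ k F x ∂(hvol 𝓜 h) ≤ dirQ 𝓜 g h φ k B B :=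
    setIntegral_le_integral hint (ae_hvol_of_forall_mem fun x hx => kDens_nonneg S.metric hF0 hx)
  rw [setIntegral_kDens_image S.metric (invariant_kw_dir S hB.1 hB.1) hΦ hK'U hK'.measurableSet] at h1
  have hBs := hB.1.contDiffOn hΦ
  have hcont1 : ContinuousOn (fun z => (∑ l, ∑ j, ‖cdbar (B Φ) z l j‖ ^ 2) + ∑ j, ‖B Φ z j‖ ^ 2) U :=
    (continuousOn_finsetSum _ fun l _ => continuousOn_finsetSum _ fun j _ =>
      ((contDiffOn_dbarV hB.1 hΦ l j).continuousOn.norm.pow 2)).add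
      (continuousOn_finsetSum _ fun j _ => ((hB.1.smooth hΦ j).continuousOn.norm.pow 2))
  have hcont2 : ContinuousOn (fun z => F Φ z * Real.exp (-(wt h φ k Φ z))) U :=
    (((contDiffOn_nbIP hg hB.1 hB.1 hΦ).continuousOn).add (contDiffOn_qfB hΘ hB.1 hB.1 hΦ).continuousOn).mul
      (Real.continuous_exp.comp_continuousOn hη.continuousOn.neg)
  have h2 : c * ∫ z in K', ((∑ l, ∑ j, ‖cdbar (B Φ) z l j‖ ^ 2) + ∑ j, ‖B Φ z j‖ ^ 2)
      ≤ ∫ z in K', F Φ z * Real.exp (-(wt h φ k Φ z)) := by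
    rw [← integral_const_mul]
    refine setIntegral_mono_on (((hcont1.mono hK'U).integrableOn_compact hK').const_mul _)
      ((hcont2.mono hK'U).integrableOn_compact hK') hK'.measurableSet fun z hz => ?_
    have e1 := nbIP_self_ge ha hA (hga z hz) (hgA z hz) (dbarV B Φ z)
    have e2 : b * ∑ j, ‖B Φ z j‖ ^ 2 ≤ qfB (curvF h φ k Φ z) (B Φ z) (B Φ z) := by
      have := qf_mono (hΘb z hz) (B Φ z)
      rwa [qf_smul, qf_one] at this
    have e3 : Real.exp (-M) ≤ Real.exp (-(wt h φ k Φ z)) := by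
      refine Real.exp_le_exp.2 (neg_le_neg ?_)
      exact (le_abs_self _).trans (hM z hz)
    have s1 : 0 ≤ ∑ l, ∑ j, ‖cdbar (B Φ) z l j‖ ^ 2 :=
      Finset.sum_nonneg fun l _ => Finset.sum_nonneg fun j _ => by positivity
    have s2 : 0 ≤ ∑ j, ‖B Φ z j‖ ^ 2 := Finset.sum_nonneg fun j _ => by positivity
    have e4 : min (a / A) b * ((∑ l, ∑ j, ‖cdbar (B Φ) z l j‖ ^ 2) + ∑ j, ‖B Φ z j‖ ^ 2) ≤ F Φ z := by
      have m1 := mul_le_mul_of_nonneg_right (min_le_left (a / A) b) s1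
      have m2 := mul_le_mul_of_nonneg_right (min_le_right (a / A) b) s2
      have e1' : a / A * ∑ l, ∑ j, ‖cdbar (B Φ) z l j‖ ^ 2 ≤ nbIP (g Φ z) (dbarV B Φ z) (dbarV B Φ z) := e1
      simp only [hF]
      rw [mul_add]
      linarith
    have e5 : 0 ≤ min (a / A) b * ((∑ l, ∑ j, ‖cdbar (B Φ) z l j‖ ^ 2) + ∑ j, ‖B Φ z j‖ ^ 2) :=
      mul_nonneg (le_min (div_pos ha hA).le hb.le) (add_nonneg s1 s2)
    calc c * ((∑ l, ∑ j, ‖cdbar (B Φ) z l j‖ ^ 2) + ∑ j, ‖B Φ z j‖ ^ 2)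
        = (min (a / A) b * ((∑ l, ∑ j, ‖cdbar (B Φ) z l j‖ ^ 2) + ∑ j, ‖B Φ z j‖ ^ 2)) * Real.exp (-M) := by
          rw [hc]; ring
      _ ≤ F Φ z * Real.exp (-(wt h φ k Φ z)) := mul_le_mul e4 e3 (Real.exp_pos _).le (e5.trans e4)
  have h3 := hgard (B Φ) hBs
  have h4 : ∫ z in K', ((∑ l, ∑ j, ‖cdbar (B Φ) z l j‖ ^ 2) + ∑ j, ‖B Φ z j‖ ^ 2) ≤ dirQ 𝓜 g h φ k B B / c := by
    rw [le_div_iff₀ hc0, mul_comm]
    exact h2.trans h1
  calc h1Sq K (B Φ) ≤ C₀ * (dirQ 𝓜 g h φ k B B / c) := h3.trans (mul_le_mul_of_nonneg_left h4 hC₀)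
    _ = C₀ / c * dirQ 𝓜 g h φ k B B := by ring

theorem lim_cdbar_congr {U : Set (CE ι)} (hU : IsOpen U) {Y Z : CE ι → ι → ℂ} (h : ∀ z ∈ U, Y z = Z z)
    {z : CE ι} (hz : z ∈ U) : cdbar Y z = cdbar Z z := by
  ext l j
  unfold cdbar
  refine dzb_congr ?_
  filter_upwards [hU.mem_nhds hz] with w hw
  rw [h w hw]

/-- the Dirichlet form against a field transplanted from a chart. -/
theorem dirQ_chart (S : L2Setting 𝓜 g h φ k) {Φ : CE ι → V} {U : Set (CE ι)} (hΦ : 𝓜.IsHol Φ U)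
    {B B' : VFam V ι} (hB : IsKVec 𝓜 k B) (hB' : IsTestKV 𝓜 k B') {Z : CE ι → ι → ℂ}
    (hc : HasCompactSupport Z) (hs : tsupport Z ⊆ U) (hZ : ∀ z ∈ U, B' Φ z = Z z)
    (hsupp : VFamSuppIn 𝓜 B' (Φ '' tsupport Z)) :
    dirQ 𝓜 g h φ k B B' = chartQ U (g Φ) (curvF h φ k Φ) (wt h φ k Φ) (B Φ) Z := by
  have hU : IsOpen U := 𝓜.isOpen_dom hΦ
  have hKc : IsCompact (Φ '' tsupport Z) :=
    hc.isCompact.image_of_continuousOn ((𝓜.isParam hΦ).continuousOn.mono hs)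
  unfold dirQ chartQ
  rw [kInt_of_support S.metric (invariant_kw_dir S hB hB'.1) hΦ (fun Ψ W hΨ w hw hn => by
    have hn' : Ψ w ∉ Φ '' tsupport Z := fun hh => hn (Set.image_mono hs hh)
    rw [hsupp.dbarV hKc.isClosed hΨ hw hn', hsupp Ψ W hΨ w hw hn']
    simp [nbIP, qfB])]
  refine setIntegral_congr_fun hU.measurableSet fun z hz => ?_
  simp only [dbarV]
  rw [lim_cdbar_congr hU hZ hz, hZ z hz]

theorem pairQ_chart (S : L2Setting 𝓜 g h φ k) {Φ : CE ι → V} {U : Set (CE ι)} (hΦ : 𝓜.IsHol Φ U)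
    {β B' : VFam V ι} (hβ : IsKForm 𝓜 k β) (hB' : IsTestKV 𝓜 k B') {Z : CE ι → ι → ℂ}
    (hc : HasCompactSupport Z) (hs : tsupport Z ⊆ U) (hZ : ∀ z ∈ U, B' Φ z = Z z)
    (hsupp : VFamSuppIn 𝓜 B' (Φ '' tsupport Z)) :
    pairQ 𝓜 h φ k β B' = chartL U (wt h φ k Φ) (β Φ) Z := by
  have hU : IsOpen U := 𝓜.isOpen_dom hΦ
  unfold pairQ chartL
  rw [kInt_of_support S.metric (invariant_kw_fvIP S.metric hβ hB'.1) hΦ (fun Ψ W hΨ w hw hn => by
    have hn' : Ψ w ∉ Φ '' tsupport Z := fun hh => hn (Set.image_mono hs hh)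
    rw [hsupp Ψ W hΨ w hw hn', fvIP_zero_right])]
  refine setIntegral_congr_fun hU.measurableSet fun z hz => ?_
  show fvIP (β Φ z) (B' Φ z) * _ = _
  rw [hZ z hz]

/-- the smooth `H¹_loc` limit in one chart. -/
theorem exists_chart_limit (S : L2Setting 𝓜 g h φ k) {β : VFam V ι} (hβ : IsKForm 𝓜 k β)
    {B : ℕ → VFam V ι} (hB : ∀ m, IsTestKV 𝓜 k (B m))
    (hcauchy : ∀ ε : ℝ, 0 < ε → ∃ M : ℕ, ∀ m ≥ M, ∀ l ≥ M, dirQ 𝓜 g h φ k (B m - B l) (B m - B l) ≤ ε)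
    (hweak : ∀ B' ∈ testKV 𝓜 k, Tendsto (fun m => dirQ 𝓜 g h φ k (B m) B') atTop (𝓝 (pairQ 𝓜 h φ k β B')))
    {Φ : CE ι → V} {U : Set (CE ι)} (hΦ : 𝓜.IsHol Φ U) :
    ∃ W : CE ι → ι → ℂ, ContDiffOn ℝ ∞ W U ∧
      ∀ K : Set (CE ι), IsCompact K → K ⊆ U → Tendsto (fun m => h1Sq K (B m Φ - W)) atTop (𝓝 0) := by
  have hU : IsOpen U := 𝓜.isOpen_dom hΦ
  have hg := S.kahler.toIsMetric
  refine chart_regularity hU (G := g Φ) (Θ := curvF h φ k Φ) (η := wt h φ k Φ) (β := β Φ) (hg.smooth hΦ)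
    (hg.posDef hΦ) ((isHForm_curvF S.metric S.smooth k).smooth hΦ) (contDiffOn_wt S.metric S.smooth hΦ k)
    (contDiffOn_pi.2 fun j => hβ.smooth hΦ j) (fun m => (hB m).1.contDiffOn hΦ) ?_ ?_
  · intro K hK hKU ε hε
    obtain ⟨C, hC, hco⟩ := local_coercive S hΦ hK hKU
    obtain ⟨M, hM⟩ := hcauchy (ε / (C + 1)) (by positivity)
    refine ⟨M, fun m hm l hl => ?_⟩
    have ht : IsTestKV 𝓜 k (B m - B l) := (testKV 𝓜 k).sub_mem (hB m) (hB l)
    have h1 := hco _ ht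
    have h2 := hM m hm l hl
    have h3 : C * dirQ 𝓜 g h φ k (B m - B l) (B m - B l) ≤ C * (ε / (C + 1)) := mul_le_mul_of_nonneg_left h2 hC
    have h4 : C * (ε / (C + 1)) ≤ ε := by
      rw [mul_div_assoc', div_le_iff₀ (by positivity)]
      nlinarith
    exact h1.trans (h3.trans h4)
  · intro Z hZ hc hs
    obtain ⟨B', hB', hBZ, hsupp⟩ := exists_testKV_of_chart (𝓜 := 𝓜) hΦ hZ hc hs k
    have := hweak B' hB'
    rw [pairQ_chart S hΦ hβ hB' hc hs hBZ hsupp] at this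
    simpa only [dirQ_chart S hΦ (hB _).1 hB' hc hs hBZ hsupp] using this

/-- uniqueness of continuous `L²_loc` limits. -/
theorem lim_eqOn_of_l2 {O : Set (CE ι)} (hO : IsOpen O) {a : ℕ → CE ι → ℂ} {p q : CE ι → ℂ}
    (ha : ∀ m, ContinuousOn (a m) O) (hp : ContinuousOn p O) (hq : ContinuousOn q O)
    (h1 : ∀ C : Set (CE ι), IsCompact C → C ⊆ O → Tendsto (fun m => ∫ z in C, ‖a m z - p z‖ ^ 2) atTop (𝓝 0))
    (h2 : ∀ C : Set (CE ι), IsCompact C → C ⊆ O → Tendsto (fun m => ∫ z in C, ‖a m z - q z‖ ^ 2) atTop (𝓝 0)) :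
    Set.EqOn p q O := by
  intro z hz
  obtain ⟨r, hr, hrU⟩ := Metric.nhds_basis_closedBall.mem_iff.1 (hO.mem_nhds hz)
  set K := Metric.closedBall z r with hKdef
  have hK : IsCompact K := isCompact_closedBall z r
  have hc : ContinuousOn (fun w => ‖p w - q w‖ ^ 2) O := (hp.sub hq).norm.pow 2
  have hle : ∀ m, ∫ w in K, ‖p w - q w‖ ^ 2 ≤ 2 * (∫ w in K, ‖a m w - p w‖ ^ 2) + 2 * ∫ w in K, ‖a m w - q w‖ ^ 2 := fun m => by
    have i1 : IntegrableOn (fun w => 2 * ‖a m w - p w‖ ^ 2) K :=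
      (((((ha m).sub hp).norm.pow 2).mono hrU).integrableOn_compact hK).const_mul _
    have i2 : IntegrableOn (fun w => 2 * ‖a m w - q w‖ ^ 2) K :=
      (((((ha m).sub hq).norm.pow 2).mono hrU).integrableOn_compact hK).const_mul _
    rw [← integral_const_mul, ← integral_const_mul, ← integral_add i1 i2]
    refine setIntegral_mono_on ((hc.mono hrU).integrableOn_compact hK) (i1.add i2)
      hK.measurableSet fun w _ => ?_
    have e : p w - q w = (a m w - q w) - (a m w - p w) := by ring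
    have t := norm_sub_le (a m w - q w) (a m w - p w)
    rw [← e] at t
    have t0 := norm_nonneg (p w - q w)
    have t1 : ‖p w - q w‖ ^ 2 ≤ (‖a m w - q w‖ + ‖a m w - p w‖) ^ 2 := by nlinarith
    nlinarith [sq_nonneg (‖a m w - q w‖ - ‖a m w - p w‖)]
  have hlim : Tendsto (fun m => 2 * (∫ w in K, ‖a m w - p w‖ ^ 2) + 2 * ∫ w in K, ‖a m w - q w‖ ^ 2) atTop (𝓝 0) := by
    have := ((h1 K hK hrU).const_mul 2).add ((h2 K hK hrU).const_mul 2)
    simpa using this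
  have h0 : ∫ w in K, ‖p w - q w‖ ^ 2 = 0 :=
    le_antisymm (ge_of_tendsto' hlim hle) (integral_nonneg fun w => by positivity)
  have hae : ∀ᵐ w ∂(volume.restrict K), ‖p w - q w‖ ^ 2 = 0 :=
    (integral_eq_zero_iff_of_nonneg (fun w => by positivity) ((hc.mono hrU).integrableOn_compact hK)).1 h0
  have hbU : Metric.ball z r ⊆ O := Metric.ball_subset_closedBall.trans hrU
  have hae' : ∀ᵐ w ∂(volume.restrict (Metric.ball z r)), p w = q w := by
    refine (ae_restrict_of_ae_restrict_of_subset Metric.ball_subset_closedBall hae).mono fun w hw => ?_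
    have : ‖p w - q w‖ = 0 := by simpa using hw
    exact sub_eq_zero.1 (norm_eq_zero.1 this)
  exact Lib.Sob.eqOn_of_ae_eq volume Metric.isOpen_ball (hp.mono hbU) (hq.mono hbU) hae'
    (Metric.mem_ball_self hr)

/-- the transformation law passes to continuous `L²_loc` limits. -/
theorem lim_compat_of_l2 {sq : ℕ → SFam V ι} (hs : ∀ m, IsKSec 𝓜 k (sq m)) {Φ Ψ : CE ι → V} {U W : Set (CE ι)}
    (hΦ : 𝓜.IsHol Φ U) (hΨ : 𝓜.IsHol Ψ W) {r r' : CE ι → ℂ} (hr : ContinuousOn r U) (hr' : ContinuousOn r' W)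
    (h1 : ∀ C : Set (CE ι), IsCompact C → C ⊆ U → Tendsto (fun m => ∫ z in C, ‖sq m Φ z - r z‖ ^ 2) atTop (𝓝 0))
    (h2 : ∀ C : Set (CE ι), IsCompact C → C ⊆ W → Tendsto (fun m => ∫ z in C, ‖sq m Ψ z - r' z‖ ^ 2) atTop (𝓝 0))
    {z : CE ι} (hz : z ∈ U) (hzW : Φ z ∈ Ψ '' W) :
    r' (Function.invFunOn Ψ W (Φ z)) = (jac (Function.invFunOn Ψ W ∘ Φ) z).det ^ k * r z := by
  set τ := Function.invFunOn Ψ W ∘ Φ with hτ
  set O := U ∩ Φ ⁻¹' (Ψ '' W) with hOdef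
  have hO : IsOpen O := CMfd.isOpen_overlap hΦ hΨ
  have hOU : O ⊆ U := Set.inter_subset_left
  have hτc : ContinuousOn τ O := fun w hw => (CMfd.trans_continuousAt hΦ hΨ hw).continuousWithinAt
  have hτW : Set.MapsTo τ O W := fun w hw => CMfd.trans_mem hΦ hΨ hw
  have hcc : ContinuousOn (fun w => (jac τ w).det ^ k) O := fun w hw =>
    (CMfd.differentiableAt_det_zpow hΦ hΨ hw k).continuousAt.continuousWithinAt
  have hdc : ContinuousOn (fun w => (jac τ w).det) O := fun w hw => by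
    have := (CMfd.differentiableAt_det_zpow hΦ hΨ hw 1).continuousAt.continuousWithinAt (s := O)
    simpa only [zpow_one] using this
  have hd0 : ∀ w ∈ O, ‖(jac τ w).det‖ ^ 2 ≠ 0 := fun w hw => by
    have := CMfd.det_jac_trans_ne_zero hΦ hΨ hw
    positivity
  have hsΦ : ∀ m, ContinuousOn (sq m Φ) U := fun m => ((hs m).smooth hΦ).continuousOn
  have hsΨ : ∀ m, ContinuousOn (sq m Ψ) W := fun m => ((hs m).smooth hΨ).continuousOn
  have key := lim_eqOn_of_l2 hO (a := fun m w => (jac τ w).det ^ k * sq m Φ w)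
    (p := fun w => (jac τ w).det ^ k * r w) (q := fun w => r' (τ w))
    (fun m => hcc.mul ((hsΦ m).mono hOU)) (hcc.mul (hr.mono hOU)) (hr'.comp hτc hτW) ?_ ?_
  · exact (key ⟨hz, hzW⟩).symm
  · intro C hC hCO
    obtain ⟨M, hM⟩ := hC.exists_bound_of_continuousOn (hcc.mono hCO)
    have hlim : Tendsto (fun m => M ^ 2 * ∫ w in C, ‖sq m Φ w - r w‖ ^ 2) atTop (𝓝 0) := by
      simpa using (h1 C hC (hCO.trans hOU)).const_mul (M ^ 2)
    refine squeeze_zero (fun m => integral_nonneg fun w => by positivity) (fun m => ?_) hlim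
    rw [← integral_const_mul]
    refine setIntegral_mono_on
      (((((hcc.mul ((hsΦ m).mono hOU)).sub (hcc.mul (hr.mono hOU))).norm.pow 2).mono hCO).integrableOn_compact hC)
      ((((((hsΦ m).sub hr).norm.pow 2).mono (hCO.trans hOU)).integrableOn_compact hC).const_mul _)
      hC.measurableSet fun w hw => ?_
    rw [← mul_sub, norm_mul, mul_pow]
    exact mul_le_mul_of_nonneg_right (pow_le_pow_left₀ (norm_nonneg _) (hM w hw) 2) (by positivity)
  · intro C hC hCO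
    have hdi : ContinuousOn (fun w => (‖(jac τ w).det‖ ^ 2)⁻¹) O := (hdc.norm.pow 2).inv₀ hd0
    obtain ⟨M, hM⟩ := hC.exists_bound_of_continuousOn (hdi.mono hCO)
    have hτC : IsCompact (τ '' C) := hC.image_of_continuousOn (hτc.mono hCO)
    have hτCW : τ '' C ⊆ W := by
      rintro _ ⟨w, hw, rfl⟩
      exact hτW (hCO hw)
    have hlim : Tendsto (fun m => M * ∫ y in τ '' C, ‖sq m Ψ y - r' y‖ ^ 2) atTop (𝓝 0) := by
      simpa using (h2 _ hτC hτCW).const_mul M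
    refine squeeze_zero (fun m => integral_nonneg fun w => by positivity) (fun m => ?_) hlim
    rw [integral_image_hol hC.measurableSet (fun w hw => CMfd.trans_differentiableAt hΦ hΨ (hCO hw))
      ((CMfd.trans_injOn hΦ hΨ).mono hCO), ← integral_const_mul]
    have hcomp : ContinuousOn (fun w => ‖sq m Ψ (τ w) - r' (τ w)‖ ^ 2) O :=
      ((((hsΨ m).comp hτc hτW).sub (hr'.comp hτc hτW)).norm.pow 2)
    refine setIntegral_mono_on
      (((((hcc.mul ((hsΦ m).mono hOU)).sub (hr'.comp hτc hτW)).norm.pow 2).mono hCO).integrableOn_compact hC)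
      (((((hdc.norm.pow 2).smul hcomp).mono hCO).integrableOn_compact hC).const_mul _)
      hC.measurableSet fun w hw => ?_
    have e : (jac τ w).det ^ k * sq m Φ w = sq m Ψ (τ w) := ((hs m).compat hΦ hΨ w (hCO hw).1 (hCO hw).2).symm
    rw [e, smul_eq_mul]
    have hMw : (‖(jac τ w).det‖ ^ 2)⁻¹ ≤ M := (le_abs_self _).trans (hM w hw)
    have hpos : 0 < ‖(jac τ w).det‖ ^ 2 := lt_of_le_of_ne (by positivity) (hd0 w (hCO hw)).symm
    have h3 : 1 ≤ M * ‖(jac τ w).det‖ ^ 2 := by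
      have := mul_le_mul_of_nonneg_right hMw hpos.le
      rwa [inv_mul_cancel₀ hpos.ne'] at this
    have h4 : 0 ≤ ‖sq m Ψ (τ w) - r' (τ w)‖ ^ 2 := by positivity
    nlinarith

/-- **gluing**: a sequence of sections which converges in `L²_loc` of every chart to a smooth function converges to a smooth section. -/
theorem glue_sections (hh : IsMetric 𝓜 h) (hφ : 𝓜.Smooth φ) {sq : ℕ → SFam V ι} (hs : ∀ m, IsKSec 𝓜 k (sq m))
    (hloc : ∀ (Φ : CE ι → V) (U : Set (CE ι)), 𝓜.IsHol Φ U → ∃ r : CE ι → ℂ, ContDiffOn ℝ ∞ r U ∧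
      ∀ C : Set (CE ι), IsCompact C → C ⊆ U → Tendsto (fun m => ∫ z in C, ‖sq m Φ z - r z‖ ^ 2) atTop (𝓝 0)) :
    ∃ v : SFam V ι, IsKSec 𝓜 k v ∧ TendstoL2Loc 𝓜 h φ k sq v := by
  classical
  choose r hr hrl using hloc
  set v : SFam V ι := fun Φ z =>
    if hex : ∃ U, 𝓜.IsHol Φ U ∧ z ∈ U then r Φ hex.choose hex.choose_spec.1 z else 0 with hvdef
  have hA : ∀ (Φ : CE ι → V) (U U' : Set (CE ι)) (hΦ : 𝓜.IsHol Φ U) (hΦ' : 𝓜.IsHol Φ U'),
      Set.EqOn (r Φ U hΦ) (r Φ U' hΦ') (U ∩ U') := fun Φ U U' hΦ hΦ' =>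
    lim_eqOn_of_l2 ((𝓜.isOpen_dom hΦ).inter (𝓜.isOpen_dom hΦ')) (a := fun m => sq m Φ)
      (fun m => ((hs m).smooth hΦ).continuousOn.mono Set.inter_subset_left)
      ((hr Φ U hΦ).continuousOn.mono Set.inter_subset_left)
      ((hr Φ U' hΦ').continuousOn.mono Set.inter_subset_right)
      (fun C hC hCO => hrl Φ U hΦ C hC (hCO.trans Set.inter_subset_left))
      (fun C hC hCO => hrl Φ U' hΦ' C hC (hCO.trans Set.inter_subset_right))
  have hv : ∀ (Φ : CE ι → V) (U : Set (CE ι)) (hΦ : 𝓜.IsHol Φ U), Set.EqOn (v Φ) (r Φ U hΦ) U := by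
    intro Φ U hΦ z hz
    have hex : ∃ U, 𝓜.IsHol Φ U ∧ z ∈ U := ⟨U, hΦ, hz⟩
    simp only [hvdef, dif_pos hex]
    exact hA Φ _ U hex.choose_spec.1 hΦ ⟨hex.choose_spec.2, hz⟩
  have hvs : IsKSec 𝓜 k v := by
    refine ⟨fun {Φ U} hΦ => (hr Φ U hΦ).congr (hv Φ U hΦ), fun {Φ Ψ U W} hΦ hΨ z hz hzW => ?_⟩
    rw [hv Φ U hΦ hz, hv Ψ W hΨ (Function.invFunOn_mem hzW)]
    exact lim_compat_of_l2 hs hΦ hΨ (hr Φ U hΦ).continuousOn (hr Ψ W hΨ).continuousOn (hrl Φ U hΦ) (hrl Ψ W hΨ)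
      hz hzW
  refine ⟨v, hvs, tendstoL2Loc_of_charts hh hφ hs hvs fun Φ U hΦ C hC hCU => ?_⟩
  refine (hrl Φ U hΦ C hC hCU).congr fun m => ?_
  refine setIntegral_congr_fun hC.measurableSet fun z hz => ?_
  show _ = ‖sq m Φ z - v Φ z‖ ^ 2
  rw [hv Φ U hΦ (hCU hz)]

/-- **the limit of the divergences.** -/
theorem exists_limit_section (S : L2Setting 𝓜 g h φ k) {β : VFam V ι} (hβ : IsKForm 𝓜 k β)
    {B : ℕ → VFam V ι} (hB : ∀ m, IsTestKV 𝓜 k (B m))
    (hcauchy : ∀ ε : ℝ, 0 < ε → ∃ M : ℕ, ∀ m ≥ M, ∀ l ≥ M, dirQ 𝓜 g h φ k (B m - B l) (B m - B l) ≤ ε)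
    (hweak : ∀ B' ∈ testKV 𝓜 k, Tendsto (fun m => dirQ 𝓜 g h φ k (B m) B') atTop (𝓝 (pairQ 𝓜 h φ k β B'))) :
    ∃ v : SFam V ι, IsKSec 𝓜 k v ∧ TendstoL2Loc 𝓜 h φ k (fun m => kdiv h φ k (B m)) v := by
  refine glue_sections S.metric S.smooth (fun m => (hB m).1.kdiv S.metric S.smooth) ?_
  intro Φ U hΦ
  obtain ⟨W, hW, hWlim⟩ := exists_chart_limit S hβ hB hcauchy hweak hΦ
  have hU : IsOpen U := 𝓜.isOpen_dom hΦ
  have hη : ContDiffOn ℝ ∞ (wt h φ k Φ) U := contDiffOn_wt S.metric S.smooth hΦ k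
  refine ⟨cdiv (wt h φ k Φ) W, contDiffOn_cdiv hU hη hW, ?_⟩
  · intro C hC hCU
    obtain ⟨c, hc0, hc⟩ := integral_cdiv_sq_le hU hC hCU hη
    have h1 : ∀ m, ∫ z in C, ‖kdiv h φ k (B m) Φ z - cdiv (wt h φ k Φ) W z‖ ^ 2 ≤ c * h1Sq C (B m Φ - W) := by
      intro m
      have := hc (B m Φ - W) (((hB m).1.contDiffOn hΦ).sub hW)
      refine le_trans (le_of_eq ?_) this
      refine setIntegral_congr_fun hC.measurableSet fun z hz => ?_
      simp only [kdiv]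
      rw [cdiv_sub hU _ ((hB m).1.contDiffOn hΦ) hW (hCU hz)]
    have h2 : Tendsto (fun m => c * h1Sq C (B m Φ - W)) atTop (𝓝 0) := by
      simpa using (hWlim C hC hCU).const_mul c
    exact squeeze_zero (fun m => integral_nonneg fun z => by positivity) h1 h2

end Claimed.Agent.R316
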